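import Vale.Agent.P071L.ThreeG
import Vale.Agent.P071.GR

/-!
# Conditional gauge bounds
-/

open Complex Metric Set Filter Topology MeasureTheory
open scoped ContDiff ComplexConjugate Real

namespace Vale.Agent.P071

/-- The statement of the three Green function inequality. -/
def CgtG (η C : ℝ) : Prop := ∀ p ∈ Db, ∀ q ∈ Db, ∀ y ∈ D,
  p ≠ q → K0 p y * K0 y q * dl y ^ 2 ≤ C * K0 p q * (‖y - p‖ ^ (-η) + ‖y - q‖ ^ (-η))

lemma cgt_two {w : ℂ → ℝ} {η B : ℝ} (h : Riesz w η B) {p q : ℂ} (hp : p ∈ Db) (hq : q ∈ Db) :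
    IntegrableOn (fun y => w y * (‖y - p‖ ^ (-η) + ‖y - q‖ ^ (-η))) D ∧
      ∫ y in D, w y * (‖y - p‖ ^ (-η) + ‖y - q‖ ^ (-η)) ≤ 2 * B := by
  simp only [mul_add]
  refine ⟨(h p hp).1.add (h q hq).1, ?_⟩
  rw [integral_add (h p hp).1 (h q hq).1]
  linarith [(h p hp).2, (h q hq).2]

lemma cgt_riesz_mono {w : ℂ → ℝ} {η B B' : ℝ} (h : Riesz w η B) (hB : B ≤ B') : Riesz w η B' :=
  fun x hx => ⟨(h x hx).1, (h x hx).2.trans hB⟩

lemma cgt_split {η C N N' ε ε' M : ℝ} (h3 : CgtG η C) (hC : 0 ≤ C) {ν : ℂ → ℝ}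
    (hν : ∀ z, 0 ≤ ν z) (hN : N ≤ N') (hN' : 0 ≤ N') (hc : Riesz (cut ν N) η ε) {E : Set ℂ}
    (hE : Riesz (E.indicator fun _ => 1) η ε') {p q : ℂ} (hp : p ∈ Db) (hq : q ∈ Db)
    (hpq : p ≠ q) {f g : ℂ → ℝ} (hf : IntegrableOn (fun y => f y * ν y) D)
    (hg : IntegrableOn (fun y => g y * ν y) D) (hM : 0 ≤ M)
    (h1 : ∀ y ∈ D, y ≠ q → f y ≤ M * (K0 p y * K0 y q * dl y ^ 2) + g y)
    (h2 : ∀ y ∈ D, y ≠ q → y ∉ E → f y ≤ g y) :
    ∫ y in D, f y * ν y ≤ M * (2 * C * (ε + N' * ε')) * K0 p q + ∫ y in D, g y * ν y := by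
  obtain ⟨a1, a2⟩ := cgt_two hc hp hq
  obtain ⟨b1, b2⟩ := cgt_two hE hp hq
  have hK := K0_nonneg hp hq
  have hMK : 0 ≤ M * C * K0 p q := by positivity
  have i1 := a1.const_mul (M * C * K0 p q)
  have i2 := b1.const_mul (M * C * K0 p q * N')
  have key : ∫ y in D, f y * ν y ≤ ∫ y in D,
      ((M * C * K0 p q * (cut ν N y * (‖y - p‖ ^ (-η) + ‖y - q‖ ^ (-η))) +
      M * C * K0 p q * N' * (E.indicator (fun _ => (1 : ℝ)) y *
        (‖y - p‖ ^ (-η) + ‖y - q‖ ^ (-η)))) + g y * ν y) := by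
    refine integral_mono_ae hf ((i1.add i2).add hg) ?_
    filter_upwards [kern_ae_mem, kern_ae_ne q] with y hy hyq
    have hs : 0 ≤ ‖y - p‖ ^ (-η) + ‖y - q‖ ^ (-η) := by positivity
    have hcut : 0 ≤ cut ν N y := by
      unfold cut; split_ifs
      · exact hν y
      · exact le_rfl
    have hcut2 : ν y ≤ cut ν N y + N' := by
      unfold cut; split_ifs with h
      · linarith
      · linarith [not_lt.mp h]
    by_cases hyE : y ∈ E
    · rw [indicator_of_mem hyE]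
      have e1 := mul_le_mul_of_nonneg_left (h3 p hp q hq y hy hpq) hM
      have e2 := mul_le_mul_of_nonneg_right ((h1 y hy hyq).trans (add_le_add_left e1 _)) (hν y)
      have e3 := mul_le_mul_of_nonneg_left hcut2 (mul_nonneg hMK hs)
      nlinarith
    · rw [indicator_of_notMem hyE]
      have e2 := mul_le_mul_of_nonneg_right (h2 y hy hyq hyE) (hν y)
      have e3 := mul_nonneg hMK (mul_nonneg hcut hs)
      nlinarith
  rw [integral_add (i1.fun_add i2) hg, integral_add i1 i2, integral_const_mul,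
    integral_const_mul] at key
  have e1 := mul_le_mul_of_nonneg_left a2 hMK
  have e2 := mul_le_mul_of_nonneg_left b2 (mul_nonneg hMK hN')
  nlinarith

lemma cgt_three {η C B : ℝ} (h3 : CgtG η C) (hC : 0 ≤ C) {ν : ℂ → ℝ} (hν : ∀ z, 0 ≤ ν z)
    (hB : Riesz ν η B) {p q : ℂ} (hp : p ∈ Db) (hq : q ∈ Db) (hpq : p ≠ q)
    (hi : IntegrableOn (fun y => K0 p y * K0 y q * dl y ^ 2 * ν y) D) :
    ∫ y in D, K0 p y * K0 y q * dl y ^ 2 * ν y ≤ 2 * C * B * K0 p q := by
  obtain ⟨a1, a2⟩ := cgt_two hB hp hq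
  have hK : 0 ≤ C * K0 p q := mul_nonneg hC (K0_nonneg hp hq)
  have key : ∫ y in D, K0 p y * K0 y q * dl y ^ 2 * ν y ≤
      ∫ y in D, C * K0 p q * (ν y * (‖y - p‖ ^ (-η) + ‖y - q‖ ^ (-η))) := by
    refine integral_mono_ae hi (a1.const_mul _) ?_
    filter_upwards [kern_ae_mem] with y hy
    have := mul_le_mul_of_nonneg_right (h3 p hp q hq y hy hpq) (hν y)
    linarith
  rw [integral_const_mul] at key
  have := mul_le_mul_of_nonneg_left a2 hK
  linarith

/-- Finite sums of the iterated kernels. -/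
noncomputable def cgtS (ν : ℂ → ℝ) (n : ℕ) (p q : ℂ) : ℝ :=
  ∑ k ∈ Finset.range (n + 1), TK K0 ν k p q

variable {ν : ℂ → ℝ} {A θ : ℝ}

lemma cgtS_zero (p q : ℂ) : cgtS ν 0 p q = K0 p q := by simp [cgtS, TK]

lemma cgtS_nonneg (hν : Pot ν A θ) (n : ℕ) {p q : ℂ} (hp : p ∈ Db) (hq : q ∈ Db) :
    0 ≤ cgtS ν n p q :=
  Finset.sum_nonneg fun k _ => kern_nonneg hν.nonneg k p hp q hq

lemma cgtS_succ (hν : Pot ν A θ) (n : ℕ) {p q : ℂ} (hp : p ∈ Db) (hq : q ∈ Db) (hpq : p ≠ q) :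
    IntegrableOn (fun y => K0 p y * cgtS ν n y q * dl y ^ 2 * ν y) D ∧
      cgtS ν (n + 1) p q = K0 p q + ∫ y in D, K0 p y * cgtS ν n y q * dl y ^ 2 * ν y := by
  have e : (fun y => K0 p y * cgtS ν n y q * dl y ^ 2 * ν y) = fun y =>
      ∑ k ∈ Finset.range (n + 1), K0 p y * TK K0 ν k y q * (dl y ^ 2 * ν y) := by
    funext y
    rw [cgtS, Finset.mul_sum, Finset.sum_mul, Finset.sum_mul]
    exact Finset.sum_congr rfl fun k _ => by ring
  have hi : ∀ k ∈ Finset.range (n + 1),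
      Integrable (fun y => K0 p y * TK K0 ν k y q * (dl y ^ 2 * ν y)) (volume.restrict D) :=
    fun k _ => kern_integrable hν k hp hq (Or.inr hpq)
  rw [e]
  refine ⟨integrable_finsetSum _ hi, ?_⟩
  rw [integral_finsetSum _ hi, cgtS, Finset.sum_range_succ', add_comm]
  rfl

lemma cgtS_tendsto (hν : Pot ν A θ) {p q : ℂ} (hp : p ∈ Db) (hq : q ∈ Db) :
    Tendsto (fun n => cgtS ν n p q) atTop (𝓝 (KK ν p q)) := by
  obtain ⟨C, -, h⟩ := kern_KB hν
  exact (h.summable p hp q hq).hasSum.tendsto_sum_nat.comp (tendsto_add_atTop_nat 1)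

/-- Finite sums of the iterates of the Green operator on the constant function. -/
noncomputable def cgtV (ν : ℂ → ℝ) : ℕ → ℂ → ℝ
  | 0 => fun _ => 0
  | n + 1 => D.indicator (GR fun y => ν y * (1 + cgtV ν n y))

lemma cgt_bm (hν : Pot ν A θ) : BM ν :=
  ⟨hν.meas.aestronglyMeasurable, A, fun z _ => by
    rw [Real.norm_eq_abs, abs_of_nonneg (hν.nonneg z)]; exact hν.le z⟩

lemma cgtV_bound {η B : ℝ} (h0 : 0 < η) (h1 : η ≤ 1) (hν : Pot ν A θ) (hB : Riesz ν η B)
    (n : ℕ) : Measurable (cgtV ν n) ∧ (∀ z, 0 ≤ cgtV ν n z) ∧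
      (∀ z, cgtV ν n z ≤ √(4 / η ^ 2 * B * (4 * B + 4 * B / (1 - θ) ^ 2))) ∧
      ∫ y in D, ν y * cgtV ν n y ^ 2 ≤ 2 * B / (1 - θ) ^ 2 := by
  obtain ⟨m1, m2⟩ := hB.integrableOn h0.le h1 hν.meas fun y _ => hν.nonneg y
  have hm0 : 0 ≤ ∫ y in D, ν y := integral_nonneg fun y => hν.nonneg y
  have hB0 : 0 ≤ B := by linarith
  have ht := hν.θ_pos
  have ht1 : 0 < 1 - θ := by linarith [hν.θ_lt]
  induction n with
  | zero =>
    refine ⟨measurable_const, fun _ => le_rfl, fun _ => Real.sqrt_nonneg _, ?_⟩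
    simp only [cgtV]
    simp only [ne_eq, OfNat.ofNat_ne_zero, not_false_eq_true, zero_pow, mul_zero, integral_zero]
    positivity
  | succ n ih =>
    obtain ⟨i1, i2, i3, i4⟩ := ih
    have hV : BM (cgtV ν n) := ⟨i1.aestronglyMeasurable, _, fun z _ => by
      rw [Real.norm_eq_abs, abs_of_nonneg (i2 z)]; exact i3 z⟩
    have hγ : BM fun y => 1 + cgtV ν n y := (BM.const 1).add hV
    have hνb := cgt_bm hν
    have j1 : IntegrableOn (fun y => ν y * cgtV ν n y ^ 2) D := (hνb.mul hV.sq).integrableOn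
    have j2 : IntegrableOn (fun y => ν y * (1 + cgtV ν n y) ^ 2) D := (hνb.mul hγ.sq).integrableOn
    have hsq : ∀ a b : ℝ, 0 ≤ a → 0 ≤ b → (∀ v : ℝ, (1 + v) ^ 2 ≤ a + b * v ^ 2) →
        ∫ y in D, ν y * (1 + cgtV ν n y) ^ 2 ≤ a * (2 * B) + b * (2 * B / (1 - θ) ^ 2) := by
      intro a b ha hb h
      have k1 : ∫ y in D, ν y * (1 + cgtV ν n y) ^ 2 ≤
          ∫ y in D, (a * ν y + b * (ν y * cgtV ν n y ^ 2)) := by
        refine integral_mono j2 ((m1.const_mul a).add (j1.const_mul b)) fun y => ?_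
        have := mul_le_mul_of_nonneg_left (h (cgtV ν n y)) (hν.nonneg y)
        simp only
        linarith
      rw [integral_add (m1.const_mul a) (j1.const_mul b), integral_const_mul,
        integral_const_mul] at k1
      have := mul_le_mul_of_nonneg_left m2 ha
      have := mul_le_mul_of_nonneg_left i4 hb
      linarith
    refine ⟨(measurable_GR (hν.meas.mul (measurable_const.add i1))).indicator measurableSet_ball,
      fun z => ?_, fun z => ?_, ?_⟩
    · exact indicator_nonneg (fun x hx => GR_nonneg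
        (fun y _ => mul_nonneg (hν.nonneg y) (by linarith [i2 y])) (kern0_D_sub hx)) z
    · by_cases hz : z ∈ D
      swap
      · simp only [cgtV]
        rw [indicator_of_notMem hz]
        exact Real.sqrt_nonneg _
      simp only [cgtV]
      rw [indicator_of_mem hz]
      refine Real.le_sqrt_of_sq_le ?_
      have hz' := kern0_D_sub hz
      have k0 := kern_G0_sq hν hz'
      have k1 : IntegrableOn (fun y => ν y * (G0 z y * (1 + cgtV ν n y))) D := by
        refine (integrableOn_G0_mul (hνb.mul hγ).memLp hz').congr_fun (fun y _ => ?_)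
          measurableSet_ball
        simp only
        ring
      have k2 := weighted_cs (m := volume.restrict D) (w := ν) (f := fun y => G0 z y)
        (g := fun y => 1 + cgtV ν n y) (Eventually.of_forall hν.nonneg) k0.1 k1 j2
      have k3 : GR (fun y => ν y * (1 + cgtV ν n y)) z =
          ∫ y in D, ν y * (G0 z y * (1 + cgtV ν n y)) :=
        integral_congr_ae (Eventually.of_forall fun y => by simp only; ring)
      have k4 : ∫ y in D, ν y * G0 z y ^ 2 ≤ 4 / η ^ 2 * B := by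
        have l1 : ∫ y in D, ν y * G0 z y ^ 2 ≤ ∫ y in D, 4 / η ^ 2 * (ν y * ‖y - z‖ ^ (-η)) := by
          refine integral_mono_ae k0.1 ((hB z hz').1.const_mul _) ?_
          filter_upwards [kern_ae_mem] with y hy
          have hy' := kern0_D_sub hy
          have l2 := G0_le_rpow (τ := η / 2) (by linarith) (by linarith) hz' hy'
          have l3 := pow_le_pow_left₀ (G0_nonneg hz' hy') l2 2
          have l4 : (1 / (η / 2) * ‖y - z‖ ^ (-(η / 2))) ^ 2 = 4 / η ^ 2 * ‖y - z‖ ^ (-η) := by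
            rw [mul_pow, ← Real.rpow_natCast (‖y - z‖ ^ (-(η / 2))),
              ← Real.rpow_mul (norm_nonneg _)]
            congr 1
            · field_simp; norm_num
            · congr 1; push_cast; ring
          rw [l4] at l3
          have := mul_le_mul_of_nonneg_left l3 (hν.nonneg y)
          linarith
        rw [integral_const_mul] at l1
        exact l1.trans (mul_le_mul_of_nonneg_left (hB z hz').2 (by positivity))
      have k5 := hsq 2 2 (by norm_num) (by norm_num) fun v => by nlinarith [sq_nonneg (1 - v)]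
      rw [k3]
      refine k2.trans (mul_le_mul k4 (k5.trans (le_of_eq (by ring))) ?_ (by positivity))
      exact integral_nonneg fun y => mul_nonneg (hν.nonneg y) (sq_nonneg _)
    · have k1 := hν.contr (fun y => 1 + cgtV ν n y) (measurable_const.add i1)
        (fun z => by linarith [i2 z]) ⟨_, fun z => add_le_add_right (i3 z) 1⟩
      have k2 : ∫ y in D, ν y * cgtV ν (n + 1) y ^ 2 =
          ∫ x in D, ν x * (∫ y in D, G0 x y * (ν y * (1 + cgtV ν n y))) ^ 2 :=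
        setIntegral_congr_fun measurableSet_ball fun x hx => by
          simp only [cgtV]
          rw [indicator_of_mem hx]
          rfl
      have k3 := hsq (1 / (1 - θ)) (1 / θ) (by positivity) (by positivity) fun v => by
        have : 1 / (1 - θ) + 1 / θ * v ^ 2 - (1 + v) ^ 2
            = (θ - (1 - θ) * v) ^ 2 / (θ * (1 - θ)) := by
          field_simp; ring
        have h2 : 0 ≤ (θ - (1 - θ) * v) ^ 2 / (θ * (1 - θ)) := by positivity
        linarith
      rw [k2]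
      refine k1.trans ((mul_le_mul_of_nonneg_left k3 (sq_nonneg θ)).trans ?_)
      have e : θ ^ 2 * (1 / (1 - θ) * (2 * B) + 1 / θ * (2 * B / (1 - θ) ^ 2))
          = (θ ^ 2 * (1 - θ) + θ) * (2 * B / (1 - θ) ^ 2) := by
        field_simp
      rw [e]
      have : θ ^ 2 * (1 - θ) + θ ≤ 1 := by
        have : θ ^ 2 ≤ 1 := pow_le_one₀ ht.le hν.θ_lt.le
        nlinarith
      exact mul_le_of_le_one_left (by positivity) this

lemma cgt_pass_one {η C N N' ε ε' δ B : ℝ} (h0 : 0 < η) (h1 : η ≤ 1) (h3 : CgtG η C) (hC : 0 ≤ C)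
    (hν : Pot ν A θ) (hB : Riesz ν η B) (hN : N ≤ N') (hN' : 0 ≤ N') (hc : Riesz (cut ν N) η ε)
    (hδ : 0 < δ) {q : ℂ} (hq : q ∈ Db) (hE : Riesz ((ball q δ).indicator fun _ => 1) η ε')
    (hs : 2 * C * (ε + N' * ε') ≤ 1 / 2) (n : ℕ) :
    ∀ x ∈ D, x ≠ q → dl x * cgtS ν n x q ≤ 2 * (dl x * K0 x q) + 2 / δ * cgtV ν n x := by
  induction n with
  | zero =>
    intro x hx _
    have := mul_nonneg (dl_pos hx).le (K0_nonneg (kern0_D_sub hx) hq)
    simp only [cgtS_zero, cgtV]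
    linarith
  | succ n ih =>
    intro x hx hxq
    have hx' := kern0_D_sub hx
    obtain ⟨i1, i2, i3, -⟩ := cgtV_bound h0 h1 hν hB n
    have hV : BM (cgtV ν n) := ⟨i1.aestronglyMeasurable, _, fun z _ => by
      rw [Real.norm_eq_abs, abs_of_nonneg (i2 z)]; exact i3 z⟩
    have hγ : BM fun y => 1 + cgtV ν n y := (BM.const 1).add hV
    obtain ⟨s1, s2⟩ := cgtS_succ hν n hx' hq hxq
    have j1 := integrableOn_G0_mul ((cgt_bm hν).mul hγ).memLp hx'
    have hdx := (dl_pos hx).le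
    have key := cgt_split (M := 2 * dl x) h3 hC hν.nonneg hN hN' hc hE hx' hq hxq
      (f := fun y => dl x * (K0 x y * cgtS ν n y q * dl y ^ 2))
      (g := fun y => 2 / δ * (G0 x y * (1 + cgtV ν n y)))
      ((s1.const_mul (dl x)).congr (Eventually.of_forall fun y => by simp only; ring))
      ((j1.const_mul (2 / δ)).congr (Eventually.of_forall fun y => by simp only; ring))
      (by positivity) (fun y hy hyq => by
        have hy' := kern0_D_sub hy
        have e1 := mul_le_mul_of_nonneg_left (ih y hy hyq) (G0_nonneg hx' hy')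
        have e2 : 0 ≤ 2 / δ * G0 x y := mul_nonneg (by positivity) (G0_nonneg hx' hy')
        rw [← dl_mul_dl_mul_K0 hx' hy'] at e1 e2 ⊢
        nlinarith) (fun y hy hyq hyE => by
        have hy' := kern0_D_sub hy
        have e0 : dl y * K0 y q ≤ 1 / δ := by
          refine (dl_mul_K0_le hy' hq).trans ?_
          rw [one_div]
          exact inv_anti₀ hδ (by simpa [dist_eq_norm] using hyE)
        have e1 : dl y * cgtS ν n y q ≤ 2 / δ * (1 + cgtV ν n y) := by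
          have := ih y hy hyq
          have e : 2 / δ = 2 * (1 / δ) := by ring
          rw [e] at this ⊢
          nlinarith
        have e2 := mul_le_mul_of_nonneg_left e1 (G0_nonneg hx' hy')
        rw [← dl_mul_dl_mul_K0 hx' hy'] at e2 ⊢
        nlinarith)
    have k1 : ∫ y in D, dl x * (K0 x y * cgtS ν n y q * dl y ^ 2) * ν y =
        dl x * ∫ y in D, K0 x y * cgtS ν n y q * dl y ^ 2 * ν y := by
      rw [← integral_const_mul]
      exact integral_congr_ae (Eventually.of_forall fun y => by simp only; ring)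
    have k2 : ∫ y in D, 2 / δ * (G0 x y * (1 + cgtV ν n y)) * ν y = 2 / δ * cgtV ν (n + 1) x := by
      simp only [cgtV]
      rw [indicator_of_mem hx, GR, ← integral_const_mul]
      exact integral_congr_ae (Eventually.of_forall fun y => by simp only; ring)
    rw [k1, k2] at key
    have k3 := mul_le_mul_of_nonneg_left hs (mul_nonneg hdx (K0_nonneg hx' hq))
    rw [s2]
    nlinarith

lemma cgt_pass_two {η C N N' ε ε' δ B C4 : ℝ} (h3 : CgtG η C) (hC : 0 ≤ C)
    (hν : Pot ν A θ) (hB : Riesz ν η B) (hB0 : 0 ≤ B) (hN : N ≤ N') (hN' : 0 ≤ N')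
    (hc : Riesz (cut ν N) η ε) {q : ℂ} (hq : q ∈ Db)
    (hE : Riesz ({y | dl y < δ}.indicator fun _ => 1) η ε')
    (hs : 2 * C * (ε + N' * ε') ≤ 1 / 2) (hC4 : 0 ≤ C4)
    (h4 : ∀ n, ∀ y ∈ D, y ≠ q → δ ≤ dl y → cgtS ν n y q ≤ C4 * K0 y q) (n : ℕ) :
    ∀ p ∈ Db, p ≠ q → cgtS ν n p q ≤ 2 * (1 + 2 * C * B * C4) * K0 p q := by
  have hM : 0 ≤ 2 * C * B * C4 := by positivity
  induction n with
  | zero =>
    intro p hp _
    have := K0_nonneg hp hq
    rw [cgtS_zero]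
    nlinarith
  | succ n ih =>
    intro p hp hpq
    obtain ⟨s1, s2⟩ := cgtS_succ hν n hp hq hpq
    have j0 := (cgtS_succ hν 0 hp hq hpq).1
    simp only [cgtS_zero] at j0
    have key := cgt_split (M := 2 * (1 + 2 * C * B * C4)) h3 hC hν.nonneg hN hN' hc hE hp hq hpq
      (f := fun y => K0 p y * cgtS ν n y q * dl y ^ 2)
      (g := fun y => C4 * (K0 p y * K0 y q * dl y ^ 2)) s1
      ((j0.const_mul C4).congr (Eventually.of_forall fun y => by simp only; ring))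
      (by positivity) (fun y hy hyq => by
        have hy' := kern0_D_sub hy
        have e0 : 0 ≤ K0 p y * dl y ^ 2 := mul_nonneg (K0_nonneg hp hy') (sq_nonneg _)
        have e1 := mul_le_mul_of_nonneg_left (ih y hy' hyq) e0
        have e2 := mul_nonneg hC4 (mul_nonneg e0 (K0_nonneg hy' hq))
        nlinarith) (fun y hy hyq hyE => by
        have hy' := kern0_D_sub hy
        have e0 : 0 ≤ K0 p y * dl y ^ 2 := mul_nonneg (K0_nonneg hp hy') (sq_nonneg _)
        have e1 := mul_le_mul_of_nonneg_left (h4 n y hy hyq (not_lt.mp hyE)) e0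
        nlinarith)
    have k1 : ∫ y in D, C4 * (K0 p y * K0 y q * dl y ^ 2) * ν y =
        C4 * ∫ y in D, K0 p y * K0 y q * dl y ^ 2 * ν y := by
      rw [← integral_const_mul]
      exact integral_congr_ae (Eventually.of_forall fun y => by simp only; ring)
    have k2 := mul_le_mul_of_nonneg_left (cgt_three h3 hC hν.nonneg hB hp hq hpq j0) hC4
    have k3 := mul_le_mul_of_nonneg_left hs
      (mul_nonneg (show 0 ≤ 2 * (1 + 2 * C * B * C4) by positivity) (K0_nonneg hp hq))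
    rw [k1] at key
    rw [s2]
    nlinarith

lemma cgt_diff_zero {s t : ℂ} (hs : s ∈ S1) (ht : ‖t‖ ≤ 1 / 4) :
    |dl t * K0 t s - K0 0 s| ≤ ‖t‖ ∧ K0 t s ≤ 1 := by
  have hs1 : ‖s‖ = 1 := by simpa using hs
  have h1 : 3 / 4 ≤ ‖s - t‖ := by linarith [norm_sub_norm_le s t]
  have h2 : ‖s - t‖ ^ 2 = 1 - 2 * (s * conj t).re + ‖t‖ ^ 2 := by
    rw [← normSq_eq_norm_sq, normSq_sub, normSq_eq_norm_sq, normSq_eq_norm_sq, hs1]
    ring
  have h3 : |(s * conj t).re| ≤ ‖t‖ := by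
    refine (abs_re_le_norm _).trans (le_of_eq ?_)
    rw [norm_mul, hs1, one_mul, RCLike.norm_conj]
  have hπ := Real.pi_gt_three
  have h4 : 9 / 16 ≤ ‖s - t‖ ^ 2 := by nlinarith
  have h5 : 6 ≤ 4 * π * ‖s - t‖ ^ 2 := by nlinarith
  have ht0 := norm_nonneg t
  rw [K0_symm t s, K0_symm 0 s, K0_boundary hs, K0_boundary hs, sub_zero, hs1]
  constructor
  · have e : dl t * (1 / (4 * π * ‖s - t‖ ^ 2)) - 1 / (4 * π * 1 ^ 2) =
        (dl t - ‖s - t‖ ^ 2) / (4 * π * ‖s - t‖ ^ 2) := by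
      field_simp
    rw [e, abs_div, abs_of_pos (show 0 < 4 * π * ‖s - t‖ ^ 2 by linarith),
      div_le_iff₀ (by linarith)]
    have h6 : |dl t - ‖s - t‖ ^ 2| ≤ 3 * ‖t‖ := by
      rw [h2, dl, abs_le]
      obtain ⟨a, b⟩ := abs_le.mp h3
      constructor <;> nlinarith
    nlinarith
  · rw [div_le_one (by linarith)]
    linarith

lemma cgt_near {η B M Cd : ℝ} (h1 : η ≤ 1) (hν : Pot ν A θ) (hB : Riesz ν η B)
    (hM : 0 ≤ M) (hCd : 0 ≤ Cd)
    (hd : ∀ x : ℂ, ‖x‖ ≤ 1 / 4 → ∀ y ∈ D, y ≠ 0 → y ≠ x →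
      |G0 x y - G0 0 y| ≤ Cd * ‖x‖ ^ η * dl y * (‖y - x‖ ^ (-η) + ‖y - 0‖ ^ (-η)))
    {s t : ℂ} (hs : s ∈ S1) (ht0 : t ≠ 0) (ht : ‖t‖ ≤ 1 / 4)
    (hS : ∀ n, ∀ p ∈ Db, p ≠ s → cgtS ν n p s ≤ M * K0 p s) :
    |KK ν t s - KK ν 0 s| ≤ (1 + M + 4 * Cd * M * B) * ‖t‖ ^ η := by
  have hs1 : ‖s‖ = 1 := by simpa using hs
  have hs' := kern0_S1_sub hs
  have ht' : t ∈ Db := by simp only [mem_closedBall, dist_zero_right]; linarith
  have hts : t ≠ s := by rintro rfl; linarith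
  have h0s : (0 : ℂ) ≠ s := by rintro rfl; simp at hs1
  have htp : 0 < ‖t‖ := norm_pos_iff.mpr ht0
  have hη : ‖t‖ ≤ ‖t‖ ^ η := by
    have := Real.rpow_le_rpow_of_exponent_ge htp (by linarith) h1
    rwa [Real.rpow_one] at this
  obtain ⟨d1, d2⟩ := cgt_diff_zero hs ht
  obtain ⟨a1, a2⟩ := cgt_two hB ht' kern0_zero_mem
  have hdl0 : dl 0 = 1 := by simp [dl]
  have hstep : ∀ n, |cgtS ν (n + 1) t s - cgtS ν (n + 1) 0 s| ≤
      (1 + M + 4 * Cd * M * B) * ‖t‖ ^ η := by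
    intro n
    obtain ⟨s1, s2⟩ := cgtS_succ hν n ht' hs' hts
    obtain ⟨r1, r2⟩ := cgtS_succ hν n kern0_zero_mem hs' h0s
    have c0 : 0 ≤ 2 * Cd * M * ‖t‖ ^ η := by positivity
    have k1 : ‖∫ y in D, (dl t * (K0 t y * cgtS ν n y s * dl y ^ 2 * ν y) -
        K0 0 y * cgtS ν n y s * dl y ^ 2 * ν y)‖ ≤
        ∫ y in D, 2 * Cd * M * ‖t‖ ^ η * (ν y * (‖y - t‖ ^ (-η) + ‖y - 0‖ ^ (-η))) := by
      refine norm_integral_le_of_norm_le (a1.const_mul _) ?_
      filter_upwards [kern_ae_mem, kern_ae_ne 0, kern_ae_ne t] with y hy hy0 hyt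
      have hy' := kern0_D_sub hy
      have hy1 := sl_norm_lt hy
      have hys : y ≠ s := by rintro rfl; linarith
      have e1 : dl t * (K0 t y * cgtS ν n y s * dl y ^ 2 * ν y) -
          K0 0 y * cgtS ν n y s * dl y ^ 2 * ν y =
          (G0 t y - G0 0 y) * (ν y * (dl y * cgtS ν n y s)) := by
        rw [← dl_mul_dl_mul_K0 ht' hy', ← dl_mul_dl_mul_K0 kern0_zero_mem hy', hdl0]
        ring
      have hdy := (dl_pos hy).le
      have e2 : 0 ≤ ν y * (dl y * cgtS ν n y s) :=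
        mul_nonneg (hν.nonneg y) (mul_nonneg hdy (cgtS_nonneg hν n hy' hs'))
      have e3 : dl y * (dl y * cgtS ν n y s) ≤ 2 * M := by
        have f1 := mul_le_mul_of_nonneg_left (hS n y hy' hys) hdy
        have f2 := mul_le_mul_of_nonneg_left (dl_mul_K0_le hy' hs') hM
        have f3 : 0 < ‖y - s‖ := norm_pos_iff.mpr (sub_ne_zero.mpr hys)
        have f4 : dl y * ‖y - s‖⁻¹ ≤ 2 := by
          rw [← div_eq_mul_inv, div_le_iff₀ f3, dl]
          have := norm_sub_norm_le s y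
          rw [norm_sub_rev] at this
          nlinarith [norm_nonneg y]
        have f5 : dl y * cgtS ν n y s ≤ M * ‖y - s‖⁻¹ := by nlinarith
        have f6 := mul_le_mul_of_nonneg_left f5 hdy
        have f7 := mul_le_mul_of_nonneg_left f4 hM
        nlinarith
      rw [e1, Real.norm_eq_abs, abs_mul, abs_of_nonneg e2]
      refine (mul_le_mul_of_nonneg_right (hd t ht y hy hy0 hyt) e2).trans ?_
      have e4 : 0 ≤ Cd * ‖t‖ ^ η * (ν y * (‖y - t‖ ^ (-η) + ‖y - 0‖ ^ (-η))) :=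
        mul_nonneg (by positivity) (mul_nonneg (hν.nonneg y) (by positivity))
      have e5 := mul_le_mul_of_nonneg_left e3 e4
      nlinarith
    rw [integral_sub (s1.const_mul _) r1, integral_const_mul, integral_const_mul,
      Real.norm_eq_abs] at k1
    have k2 := k1.trans (mul_le_mul_of_nonneg_left a2 c0)
    have k3 : cgtS ν (n + 1) t s ≤ M := (hS _ t ht' hts).trans (mul_le_of_le_one_right hM d2)
    have k4 := cgtS_nonneg hν (n + 1) ht' hs'
    have k5 : ‖t‖ ^ 2 * cgtS ν (n + 1) t s ≤ M * ‖t‖ ^ η := by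
      have : ‖t‖ ^ 2 ≤ ‖t‖ ^ η := by nlinarith
      have := mul_le_mul this k3 k4 (by positivity)
      linarith
    have k6 : 0 ≤ ‖t‖ ^ 2 * cgtS ν (n + 1) t s := by positivity
    have k7 : cgtS ν (n + 1) t s - cgtS ν (n + 1) 0 s = ‖t‖ ^ 2 * cgtS ν (n + 1) t s +
        (dl t * K0 t s - K0 0 s) + (dl t * (∫ y in D, K0 t y * cgtS ν n y s * dl y ^ 2 * ν y) -
          ∫ y in D, K0 0 y * cgtS ν n y s * dl y ^ 2 * ν y) := by
      rw [s2, r2, dl]; ring
    obtain ⟨l1, l2⟩ := abs_le.mp k2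
    obtain ⟨l3, l4⟩ := abs_le.mp d1
    have k8 : 0 ≤ M * ‖t‖ ^ η := by positivity
    rw [k7, abs_le]
    constructor <;> nlinarith
  have hl := (((cgtS_tendsto hν ht' hs').sub (cgtS_tendsto hν kern0_zero_mem hs')).comp
    (tendsto_add_atTop_nat 1)).abs
  exact le_of_tendsto' hl hstep

/-- Conditional gauge theorem with constants independent of the sup norm of the potential. -/
theorem cgt {η : ℝ} (h0 : 0 < η) (h1 : η ≤ 1) : ∃ ε : ℝ, 0 < ε ∧ ∀ B N θ : ℝ, ∃ C : ℝ, 0 < C ∧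
    ∀ (ν : ℂ → ℝ) (A : ℝ), Pot ν A θ → Riesz ν η B → Riesz (cut ν N) η ε →
      (∀ p ∈ Db, ∀ q ∈ Db, p ≠ q → KK ν p q ≤ C * K0 p q) ∧
      ∀ s ∈ S1, ∀ t : ℂ, t ≠ 0 → ‖t‖ ≤ 1 / 4 → |dd ν s t - KK ν 0 t| ≤ C * ‖t‖ ^ η * K0 0 t := by
  obtain ⟨C3, hC3, h3⟩ := three_G h0 h1
  obtain ⟨Cd, hCd, hd⟩ := G0_diff h0 h1
  refine ⟨1 / (8 * C3), by positivity, fun B N θ => ?_⟩
  obtain ⟨N', hN, hN'⟩ : ∃ N', N ≤ N' ∧ 0 < N' := ⟨max N 1, le_max_left _ _, by positivity⟩
  obtain ⟨B', hB, hB'⟩ : ∃ B', B ≤ B' ∧ 0 ≤ B' := ⟨max B 0, le_max_left _ _, le_max_right _ _⟩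
  obtain ⟨δ, hδ, hE1, hE2⟩ := riesz_small h0 h1 (ε := 1 / (8 * C3 * N')) (by positivity)
  have hs : 2 * C3 * (1 / (8 * C3) + N' * (1 / (8 * C3 * N'))) ≤ 1 / 2 := by
    apply le_of_eq; field_simp; norm_num
  obtain ⟨B1, hB1⟩ : ∃ B1, B1 = √(4 / η ^ 2 * B' * (4 * B' + 4 * B' / (1 - θ) ^ 2)) := ⟨_, rfl⟩
  have hB10 : 0 ≤ B1 := hB1 ▸ Real.sqrt_nonneg _
  have hπ := Real.pi_pos
  obtain ⟨C4, hC4⟩ : ∃ C4, C4 = 2 + 2 / δ * B1 / δ * (20 * π) := ⟨_, rfl⟩
  have hC40 : 0 ≤ C4 := by rw [hC4]; positivity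
  obtain ⟨M, hM⟩ : ∃ M, M = 2 * (1 + 2 * C3 * B' * C4) := ⟨_, rfl⟩
  have hM0 : 0 < M := by rw [hM]; positivity
  obtain ⟨H, hH⟩ : ∃ H, H = 1 + M + 4 * Cd * M * B' := ⟨_, rfl⟩
  have hH0 : 0 < H := by rw [hH]; positivity
  refine ⟨M + M * H * (20 * π), by positivity, fun ν A hν hR hc => ?_⟩
  have hR' := cgt_riesz_mono hR hB
  have hS : ∀ q ∈ Db, ∀ n, ∀ p ∈ Db, p ≠ q → cgtS ν n p q ≤ M * K0 p q := by
    intro q hq n
    rw [hM]
    refine cgt_pass_two h3 hC3.le hν hR' hB' hN hN'.le hc hq hE2 hs hC40 ?_ n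
    intro n y hy hyq hdy
    have hy' := kern0_D_sub hy
    have e1 := cgt_pass_one h0 h1 h3 hC3.le hν hR' hN hN'.le hc hδ hq (hE1 q) hs n y hy hyq
    have e2 := (cgtV_bound h0 h1 hν hR' n).2.2.1 y
    rw [← hB1] at e2
    have e3 := K0_lower hy' hq hyq
    rw [div_le_iff₀ (by positivity)] at e3
    have e4 : 2 / δ * cgtV ν n y ≤ dl y * (2 / δ * B1 / δ * (20 * π) * K0 y q) := by
      have f1 : 2 / δ * cgtV ν n y ≤ δ * (2 / δ * B1 / δ) := by
        have : δ * (2 / δ * B1 / δ) = 2 / δ * B1 := by field_simp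
        rw [this]
        exact mul_le_mul_of_nonneg_left e2 (by positivity)
      have f2 : 0 ≤ 2 / δ * B1 / δ := by positivity
      have f3 := mul_le_mul hdy (mul_le_mul_of_nonneg_left e3 f2) (by positivity) (dl_pos hy).le
      nlinarith
    refine le_of_mul_le_mul_left ?_ (dl_pos hy)
    rw [hC4]
    nlinarith
  have hK : ∀ p ∈ Db, ∀ q ∈ Db, p ≠ q → KK ν p q ≤ M * K0 p q := fun p hp q hq hpq =>
    le_of_tendsto' (cgtS_tendsto hν hp hq) fun n => hS q hq n p hp hpq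
  refine ⟨fun p hp q hq hpq => (hK p hp q hq hpq).trans
    (mul_le_mul_of_nonneg_right (le_add_of_nonneg_right (by positivity)) (K0_nonneg hp hq)),
    fun s hs t ht0 ht => ?_⟩
  have hs1 : ‖s‖ = 1 := by simpa using hs
  have hs' := kern0_S1_sub hs
  have ht' : t ∈ Db := by simp only [mem_closedBall, dist_zero_right]; linarith
  have hst : s ≠ t := by rintro rfl; linarith
  have k1 := cgt_near h1 hν hR' hM0.le hCd.le hd hs ht0 ht (hS s hs')
  rw [← hH, KK_symm hν ht' hs', abs_sub_comm] at k1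
  have k2 := kern_KK_pos hν hs' ht' hst
  have k3 := (K0_lower hs' ht' hst).trans (K0_le_KK hν hs' ht')
  rw [div_le_iff₀ (by positivity)] at k3
  have k4 := hK 0 kern0_zero_mem t ht' ht0.symm
  have k5 := kern_KK_nonneg hν kern0_zero_mem ht'
  have k6 := K0_nonneg kern0_zero_mem ht'
  have e : dd ν s t - KK ν 0 t = KK ν 0 t * (KK ν 0 s - KK ν s t) / KK ν s t := by
    rw [dd, if_neg hst]
    field_simp
  rw [e, abs_div, abs_mul, abs_of_nonneg k5, abs_of_pos k2, div_le_iff₀ k2]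
  have k7 := mul_le_mul k4 k1 (abs_nonneg _) (by positivity)
  have k8 : 0 ≤ M * H * (‖t‖ ^ η * K0 0 t) := by positivity
  have k9 := mul_le_mul_of_nonneg_left k3 k8
  have k10 : 0 ≤ M * (‖t‖ ^ η * K0 0 t) * KK ν s t := by positivity
  nlinarith

end Vale.Agent.P071
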