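import Vale.Agent.P071L.Setup

/-!
# The uniform cone condition
-/

open Complex Metric Set Filter Topology MeasureTheory
open scoped ContDiff ComplexConjugate Real

namespace Vale.Agent.P071

/-- One move inside a chart. -/
lemma cone_move {Ω : Set ℂ} {y₀ e : ℂ} {ε K : ℝ} {K₀ : NNReal} {f : ℝ → ℝ} (he : ‖e‖ = 1)
    (hf : LipschitzWith K₀ f) (hK : (K₀ : ℝ) ≤ K)
    (hΩ : ∀ z ∈ ball y₀ ε, (z ∈ Ω ↔ f (z / e).re < (z / e).im)) {x ζ : ℂ} {w : ℝ} (hw : 0 < w)
    (hx : x ∈ closure Ω) (hx1 : x ∈ ball y₀ ε) (hζ : K * |ζ.im| < ζ.re)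
    (hx2 : x + ζ * (w * (I * e)) ∈ ball y₀ ε) : x + ζ * (w * (I * e)) ∈ Ω := by
  have he0 : e ≠ 0 := by
    rintro rfl
    simp at he
  have hcl : IsClosed {z : ℂ | f (z / e).re ≤ (z / e).im} :=
    isClosed_le (hf.continuous.comp (continuous_re.comp (continuous_id.div_const e)))
      (continuous_im.comp (continuous_id.div_const e))
  have h1 : f (x / e).re ≤ (x / e).im := by
    have h2 : x ∈ closure (ball y₀ ε ∩ Ω) := isOpen_ball.inter_closure ⟨hx1, hx⟩
    exact closure_minimal (fun z hz => ((hΩ z hz.1).1 hz.2).le) hcl h2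
  rw [hΩ _ hx2]
  have e1 : (x + ζ * (w * (I * e))) / e = x / e + w * (ζ * I) := by field_simp
  have e2 : (x / e + w * (ζ * I)).re = (x / e).re - w * ζ.im := by simp [sub_eq_add_neg]
  have e3 : (x / e + w * (ζ * I)).im = (x / e).im + w * ζ.re := by simp
  rw [e1, e2, e3]
  have h3 := hf.dist_le_mul ((x / e).re - w * ζ.im) (x / e).re
  rw [Real.dist_eq, Real.dist_eq, sub_sub_cancel_left, abs_neg, abs_mul, abs_of_pos hw] at h3
  have h4 := (abs_le.1 h3).2
  have h5 : (K₀ : ℝ) * (w * |ζ.im|) ≤ K * (w * |ζ.im|) :=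
    mul_le_mul_of_nonneg_right hK (by positivity)
  have h6 := mul_lt_mul_of_pos_left hζ hw
  nlinarith

lemma cone_lower (t : Finset ℂ) {ε : ℂ → ℝ} (h : ∀ i ∈ t, 0 < ε i) :
    ∃ m : ℝ, 0 < m ∧ ∀ i ∈ t, m ≤ ε i := by
  classical
  induction t using Finset.induction_on with
  | empty => exact ⟨1, one_pos, by simp⟩
  | insert a s _ ih =>
    obtain ⟨m, hm, hm'⟩ := ih fun i hi => h i (Finset.mem_insert_of_mem hi)
    refine ⟨min m (ε a), lt_min hm (h a (Finset.mem_insert_self a s)), fun i hi => ?_⟩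
    rcases Finset.mem_insert.1 hi with rfl | hi
    · exact min_le_right _ _
    · exact (min_le_left _ _).trans (hm' i hi)

theorem exists_cone {Ω : Set ℂ} (hopen : IsOpen Ω) (hbdd : Bornology.IsBounded Ω)
    (hL : HasLipschitzBoundary Ω) : ∃ (σ : ℂ → ℂ) (K t₀ : ℝ), Cone Ω σ K t₀ := by
  classical
  have hK : IsCompact (frontier Ω) :=
    Metric.isCompact_of_isClosed_isBounded isClosed_frontier
      (hbdd.closure.subset frontier_subset_closure)
  choose! ε e K f hε he hf hΩ using hL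
  obtain ⟨t, ht, hcov⟩ := hK.elim_nhds_subcover (fun y => ball y (ε y / 2))
    fun y hy => ball_mem_nhds y (half_pos (hε y hy))
  obtain ⟨m, hm, hm'⟩ := cone_lower t (ε := ε) fun i hi => hε i (ht i hi)
  set w : ℂ → ℂ → ℝ := fun i y => max 0 (ε i / 2 - ‖y - i‖) with hw
  set W : ℝ := ∑ i ∈ t, ε i with hW
  have hW0 : 0 ≤ W := Finset.sum_nonneg fun i hi => (hε i (ht i hi)).le
  have hw0 : ∀ i y, 0 ≤ w i y := fun i y => le_max_left _ _
  have hw1 : ∀ i ∈ t, ∀ y, w i y ≤ ε i := fun i hi y => by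
    have := hε i (ht i hi)
    exact max_le this.le (by linarith [norm_nonneg (y - i)])
  refine ⟨fun y => ∑ i ∈ t, (w i y : ℂ) * (I * e i), ∑ i ∈ t, (K i : ℝ), m / (2 * (1 + W)),
    ?_, Finset.sum_nonneg fun i _ => (K i).2, by positivity, fun y hy x hx hxy ζ hζ hζ1 => ?_⟩
  · refine continuous_finsetSum t fun i _ => Continuous.mul ?_ continuous_const
    exact continuous_ofReal.comp (continuous_const.max (by fun_prop))
  set t₀ := m / (2 * (1 + W)) with ht₀
  have ht0 : 0 < t₀ := by positivity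
  have ht1 : t₀ * (1 + W) = m / 2 := by rw [ht₀]; field_simp
  have hdist : ∀ S ⊆ t, ‖x + ζ * ∑ i ∈ S, (w i y : ℂ) * (I * e i) - y‖ ≤ m / 2 := by
    intro S hS
    have h1 : ‖∑ i ∈ S, (w i y : ℂ) * (I * e i)‖ ≤ W := by
      refine (norm_sum_le _ _).trans ?_
      refine le_trans (Finset.sum_le_sum fun i hi => ?_)
        (Finset.sum_le_sum_of_subset_of_nonneg hS fun i hi _ => (hε i (ht i hi)).le)
      rw [norm_mul, norm_mul, norm_I, he i (ht i (hS hi)), norm_real,
        Real.norm_of_nonneg (hw0 i y), mul_one, mul_one]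
      exact hw1 i (hS hi) y
    have h2 : ‖ζ * ∑ i ∈ S, (w i y : ℂ) * (I * e i)‖ ≤ t₀ * W := by
      rw [norm_mul]
      exact mul_le_mul hζ1 h1 (norm_nonneg _) ht0.le
    rw [add_sub_right_comm]
    refine (norm_add_le _ _).trans ?_
    linarith
  have hball : ∀ S ⊆ t, ∀ i ∈ t, 0 < w i y →
      x + ζ * ∑ i ∈ S, (w i y : ℂ) * (I * e i) ∈ ball i (ε i) := by
    intro S hS i hi hpos
    have h1 : ‖y - i‖ < ε i / 2 := by
      rcases lt_max_iff.1 hpos with h | h
      · exact absurd h (lt_irrefl 0)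
      · linarith
    rw [mem_ball, dist_eq_norm]
    have h2 := norm_sub_le_norm_sub_add_norm_sub
      (x + ζ * ∑ i ∈ S, (w i y : ℂ) * (I * e i)) y i
    linarith [hdist S hS, hm' i hi]
  have key : ∀ S ⊆ t, x + ζ * ∑ i ∈ S, (w i y : ℂ) * (I * e i) ∈ closure Ω ∧
      ((∃ i ∈ S, 0 < w i y) → x + ζ * ∑ i ∈ S, (w i y : ℂ) * (I * e i) ∈ Ω) := by
    intro S
    induction S using Finset.induction_on with
    | empty => exact fun _ => ⟨by simpa using hx, by simp⟩
    | insert a s ha ih =>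
      intro hS
      have hs : s ⊆ t := (Finset.subset_insert a s).trans hS
      have hat : a ∈ t := hS (Finset.mem_insert_self a s)
      obtain ⟨ih1, ih2⟩ := ih hs
      rcases (hw0 a y).eq_or_lt with h0 | h0
      · rw [Finset.sum_insert ha, ← h0, ofReal_zero, zero_mul, zero_add]
        refine ⟨ih1, fun ⟨i, hi, hi'⟩ => ih2 ?_⟩
        rcases Finset.mem_insert.1 hi with rfl | hi
        · exact absurd hi' (by rw [← h0]; exact lt_irrefl 0)
        · exact ⟨i, hi, hi'⟩
      · have h1 := hball _ hS a hat h0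
        have e1 : x + ζ * ∑ i ∈ insert a s, (w i y : ℂ) * (I * e i) =
            x + ζ * ∑ i ∈ s, (w i y : ℂ) * (I * e i) + ζ * (w a y * (I * e a)) := by
          rw [Finset.sum_insert ha]; ring
        rw [e1] at h1 ⊢
        have h2 := cone_move (he a (ht a hat)) (hf a (ht a hat))
          (Finset.single_le_sum (f := fun i => (K i : ℝ)) (fun i _ => (K i).2) hat)
          (hΩ a (ht a hat)) h0 ih1 (hball _ hs a hat h0) hζ h1
        exact ⟨subset_closure h2, fun _ => h2⟩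
  refine (key t Finset.Subset.rfl).2 ?_
  obtain ⟨i, hi, hyi⟩ := mem_iUnion₂.1 (hcov hy)
  rw [mem_ball, dist_eq_norm] at hyi
  exact ⟨i, hi, lt_max_of_lt_right (by linarith)⟩

end Vale.Agent.P071
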