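import Vale.Agent.P071L.Sing

/-!
# Hardy space bounds for functions with values in a sector
-/

open Complex Metric Set Filter Topology MeasureTheory
open scoped ContDiff ComplexConjugate Real

namespace Vale.Agent.P071

lemma hardy_ec (r s : ℝ) : (r : ℂ) * ec s = circleMap 0 r s := by simp [circleMap]

lemma hardy_mem {r : ℝ} (hr : 0 < r) (hr1 : r < 1) (s : ℝ) : circleMap 0 r s ∈ D := by
  rwa [mem_ball_zero_iff, norm_circleMap_zero, abs_of_pos hr]

lemma hardy_mean {G : ℂ → ℂ} (hG : DifferentiableOn ℂ G D) {r : ℝ} (hr : 0 < r) (hr1 : r < 1) :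
    ∫ s, G (circleMap 0 r s) ∂mc = 2 * π * G 0 := by
  have h1 : DiffContOnCl ℂ G (ball 0 |r|) := by
    rw [abs_of_pos hr]
    exact (hG.mono (closure_ball_subset_closedBall.trans (closedBall_subset_ball hr1))).diffContOnCl
  have h2 := h1.circleAverage
  rw [Real.circleAverage_eq_integral_add (-π),
    intervalIntegral.integral_comp_add_right (fun θ => G (circleMap 0 r θ)), zero_add,
    show 2 * π + -π = π by ring, intervalIntegral.integral_of_le (by linarith [Real.pi_pos])] at h2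
  have hπ : (π : ℂ) ≠ 0 := ofReal_ne_zero.2 Real.pi_ne_zero
  rw [← h2, real_smul]
  push_cast
  field_simp

lemma hardy_point {G : ℂ → ℂ} (hG : DifferentiableOn ℂ G D) (hre : ∀ z ∈ D, 0 < (G z).re) {z : ℂ}
    (hz : z ∈ D) : ‖G z‖ ≤ 2 * ‖G 0‖ / (1 - ‖z‖) := by
  have h0 := hre 0 (mem_ball_self one_pos)
  have hne : ∀ w ∈ D, G w + conj (G 0) ≠ 0 := fun w hw h => by
    have h1 := congrArg re h
    rw [add_re, conj_re, zero_re] at h1
    linarith [hre w hw]
  have hz1 := regT_norm_lt hz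
  have h1 := norm_le_norm_of_mapsTo_ball (f := fun w => (G w - G 0) / (G w + conj (G 0))) (R := 1)
    ((hG.sub_const _).div (hG.add_const _) hne) (fun w hw => ?_) (by simp) hz1
  · rw [norm_div, div_le_iff₀ (norm_pos_iff.2 (hne z hz))] at h1
    have h2 := norm_sub_norm_le (G z) (G 0)
    have h3 := norm_add_le (G z) (conj (G 0))
    rw [Complex.norm_conj] at h3
    have h4 := mul_le_mul_of_nonneg_left h3 (norm_nonneg z)
    rw [le_div_iff₀ (by linarith)]
    nlinarith [norm_nonneg (G 0)]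
  · rw [mem_closedBall_zero_iff, norm_div, div_le_one (norm_pos_iff.2 (hne w hw))]
    refine (sq_le_sq₀ (norm_nonneg _) (norm_nonneg _)).1 ?_
    simp only [Complex.sq_norm, normSq_apply, sub_re, sub_im, add_re, add_im, conj_re, conj_im]
    nlinarith [mul_pos h0 (hre w hw)]

lemma hardy_arg {w : ℂ} {κ : ℝ} (h0 : w ≠ 0) (hκ : 0 < κ) (h : |w.im| ≤ κ * w.re) :
    0 < w.re ∧ |arg w| ≤ Real.arctan κ := by
  have h1 : 0 < w.re := by
    have h2 : 0 ≤ w.re := nonneg_of_mul_nonneg_right ((abs_nonneg _).trans h) hκ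
    rcases h2.eq_or_lt with h3 | h3
    · rw [← h3, mul_zero, abs_nonpos_iff] at h
      exact absurd (Complex.ext h3.symm h) h0
    · exact h3
  have h2 := abs_lt.1 (abs_arg_lt_pi_div_two_iff.2 (Or.inl h1))
  have h3 := Real.arctan_tan h2.1 h2.2
  rw [tan_arg] at h3
  have h4 := abs_le.1 h
  refine ⟨h1, ?_⟩
  rw [← h3, abs_le, ← Real.arctan_neg]
  refine ⟨Real.arctan_mono ?_, Real.arctan_mono ?_⟩
  · rw [le_div_iff₀ h1]; linarith
  · rw [div_le_iff₀ h1]; linarith

/-- Circle means of a holomorphic function with values in a sector. -/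
theorem sector_circle {f : ℂ → ℂ} {κ : ℝ} (hf : DifferentiableOn ℂ f D) (h0 : ∀ z ∈ D, f z ≠ 0)
    (hκ : 0 < κ) (h : ∀ z ∈ D, |(f z).im| ≤ κ * (f z).re) :
    ∃ q C : ℝ, 1 < q ∧ q ≤ 2 ∧ 0 ≤ C ∧ (∀ r : ℝ, 0 < r → r < 1 →
      ∫ s, ‖f (r * ec s)‖ ^ q ∂mc ≤ C) ∧ ∀ z ∈ D, ‖f z‖ ^ q ≤ C / (1 - ‖z‖) := by
  have hπ := Real.pi_pos
  set g := Real.arctan κ with hg
  have hg0 : 0 < g := Real.arctan_pos.2 hκ
  have hg1 : g < π / 2 := Real.arctan_lt_pi_div_two κ
  set q : ℝ := π / (g + π / 2) with hq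
  have hq1 : 1 < q := by rw [hq, lt_div_iff₀ (by positivity)]; linarith
  have hq2 : q ≤ 2 := by rw [hq, div_le_iff₀ (by positivity)]; linarith
  have hqg : q * g < π / 2 := by
    rw [hq, div_mul_eq_mul_div, div_lt_iff₀ (by positivity)]
    nlinarith
  set c := Real.cos (q * g) with hc
  have hc0 : 0 < c := Real.cos_pos_of_mem_Ioo ⟨by nlinarith, hqg⟩
  set G : ℂ → ℂ := fun z => exp (q * log (f z)) with hG
  have hGd : DifferentiableOn ℂ G D :=
    ((hf.clog fun z hz => Or.inl (hardy_arg (h0 z hz) hκ (h z hz)).1).const_mul _).cexp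
  have hGn : ∀ z ∈ D, ‖G z‖ = ‖f z‖ ^ q := fun z hz => by
    rw [hG, norm_exp, re_ofReal_mul, log_re, Real.rpow_def_of_pos (norm_pos_iff.2 (h0 z hz)),
      mul_comm]
  have hGr : ∀ z ∈ D, c * ‖G z‖ ≤ (G z).re := fun z hz => by
    rw [hG, norm_exp, exp_re, mul_comm, im_ofReal_mul, log_im]
    refine mul_le_mul_of_nonneg_left ?_ (Real.exp_pos _).le
    rw [← Real.cos_abs (q * arg (f z)), abs_mul, abs_of_pos (by linarith : 0 < q)]
    exact Real.cos_le_cos_of_nonneg_of_le_pi (by positivity) (by linarith)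
      (mul_le_mul_of_nonneg_left (hardy_arg (h0 z hz) hκ (h z hz)).2 (by linarith))
  have hGp : ∀ z ∈ D, 0 < (G z).re := fun z hz =>
    (mul_pos hc0 (norm_pos_iff.2 (exp_ne_zero _))).trans_le (hGr z hz)
  refine ⟨q, 2 * π * ‖G 0‖ / c + 2 * ‖G 0‖, hq1, hq2, by positivity, fun r hr hr1 => ?_,
    fun z hz => ?_⟩
  · have hcont : Continuous fun s => G (circleMap 0 r s) :=
      hGd.continuousOn.comp_continuous (continuous_circleMap 0 r) (hardy_mem hr hr1)
    have hi : Integrable (fun s => G (circleMap 0 r s)) mc := hcont.integrableOn_Ioc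
    have h1 : ∫ s, c * ‖G (circleMap 0 r s)‖ ∂mc ≤ ∫ s, (G (circleMap 0 r s)).re ∂mc :=
      integral_mono (hi.norm.const_mul c) hi.re fun s => hGr _ (hardy_mem hr hr1 s)
    have h2 : ∫ s, (G (circleMap 0 r s)).re ∂mc = (∫ s, G (circleMap 0 r s) ∂mc).re :=
      integral_re hi
    rw [h2, hardy_mean hGd hr hr1, integral_const_mul] at h1
    have h3 := re_le_norm (2 * π * G 0)
    rw [norm_mul, regT_norm_two_pi] at h3
    have h4 : ∫ s, ‖G (circleMap 0 r s)‖ ∂mc ≤ 2 * π * ‖G 0‖ / c := by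
      rw [le_div_iff₀ hc0]; linarith
    have e : ∀ s, ‖f (r * ec s)‖ ^ q = ‖G (circleMap 0 r s)‖ := fun s => by
      rw [hardy_ec, hGn _ (hardy_mem hr hr1 s)]
    simp only [e]
    linarith [norm_nonneg (G 0)]
  · rw [← hGn z hz]
    refine (hardy_point hGd hGp hz).trans ?_
    have := regT_norm_lt hz
    exact div_le_div_of_nonneg_right (le_add_of_nonneg_left (by positivity)) (by linarith)

/-- Integrability from integrability in polar coordinates. -/
lemma hardy_polar {f : ℂ → ℝ} (h : IntegrableOn (fun p : ℝ × ℝ => p.1 • f (circleMap 0 p.1 p.2))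
    (Ioo 0 1 ×ˢ Ioo (-π) π)) : IntegrableOn f D := by
  have h4 := (h.integrable_indicator (measurableSet_Ioo.prod measurableSet_Ioo)).integrableOn
    (s := _root_.polarCoord.target)
  have h3 := (integrableOn_image_iff_integrableOn_abs_det_fderiv_smul volume
    _root_.polarCoord.open_target.measurableSet
    (fun p _ => (hasFDerivAt_polarCoord_symm p).hasFDerivWithinAt) _root_.polarCoord.symm.injOn
    (fun q : ℝ × ℝ => D.indicator f (0 + measurableEquivRealProd.symm q))).2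
      (h4.congr_fun (fun p hp => by
        rw [← polar_indicator f 0 1 hp]
        rw [det_fderivPolarCoordSymm, abs_of_pos hp.1]
        rfl) _root_.polarCoord.open_target.measurableSet)
  rw [_root_.polarCoord.symm_image_target_eq_source] at h3
  have h2 := integrableOn_univ.1 (h3.congr_set_ae polarCoord_source_ae_eq_univ.symm)
  simp only [zero_add] at h2
  exact (integrable_indicator_iff measurableSet_ball).1
    (((Complex.volume_preserving_equiv_real_prod.symm).integrable_comp_emb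
      measurableEquivRealProd.symm.measurableEmbedding).1 h2)

lemma hardy_collar {F : ℂ → ℝ} {C b : ℝ} (hF : ContinuousOn F D) (hF0 : ∀ z, 0 ≤ F z)
    (hC : ∀ r : ℝ, 0 < r → r < 1 → ∫ s, F (r * ec s) ∂mc ≤ C) (hb : b < 1) :
    IntegrableOn (fun y => F y * (1 - ‖y‖) ^ (-b)) D := by
  refine hardy_polar ?_
  have hPc : Continuous fun p : ℝ × ℝ => circleMap 0 p.1 p.2 := by
    simp only [circleMap]; fun_prop
  have hc : ContinuousOn (fun p : ℝ × ℝ => p.1 • (F (circleMap 0 p.1 p.2) *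
      (1 - ‖circleMap 0 p.1 p.2‖) ^ (-b))) (Ioo 0 1 ×ˢ Ioo (-π) π) := by
    refine continuousOn_fst.smul (ContinuousOn.mul
      (hF.comp hPc.continuousOn fun p hp => hardy_mem hp.1.1 hp.1.2 _)
      (ContinuousOn.rpow_const (continuous_const.sub hPc.norm).continuousOn fun p hp => Or.inl ?_))
    have := regT_norm_lt (hardy_mem hp.1.1 hp.1.2 p.2)
    exact (sub_pos.2 this).ne'
  have hm := hc.aestronglyMeasurable (μ := volume) (measurableSet_Ioo.prod measurableSet_Ioo)
  rw [IntegrableOn, Measure.volume_eq_prod, ← Measure.prod_restrict] at *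
  have hg : IntegrableOn (fun r : ℝ => (1 - r) ^ (-b) * C) (Ioo 0 1) := by
    have h1 := (intervalIntegral.intervalIntegrable_rpow' (a := 1) (b := 0)
      (show -1 < -b by linarith)).comp_sub_left 1
    rw [sub_self, sub_zero, intervalIntegrable_iff_integrableOn_Ioo_of_le zero_le_one] at h1
    exact h1.mul_const C
  have hs : ∀ r ∈ Ioo (0 : ℝ) 1, IntegrableOn (fun s => F (circleMap 0 r s)) (Ioo (-π) π) :=
    fun r hr => (hF.comp_continuous (continuous_circleMap 0 r)
      (hardy_mem hr.1 hr.2)).integrableOn_Icc.mono_set Ioo_subset_Icc_self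
  refine (integrable_prod_iff hm).2 ⟨?_, hg.mono' hm.norm.integral_prod_right' ?_⟩
  · filter_upwards [ae_restrict_mem measurableSet_Ioo] with r hr
    simp only [norm_circleMap_zero]
    exact ((hs r hr).mul_const _).smul r
  · filter_upwards [ae_restrict_mem measurableSet_Ioo] with r hr
    have h0 : 0 ≤ (1 - r) ^ (-b) := Real.rpow_nonneg (by linarith [hr.2]) _
    have e : ∀ s, ‖r • (F (circleMap 0 r s) * (1 - ‖circleMap 0 r s‖) ^ (-b))‖ =
        r * (1 - r) ^ (-b) * F (circleMap 0 r s) := fun s => by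
      rw [norm_circleMap_zero, abs_of_pos hr.1, smul_eq_mul,
        Real.norm_of_nonneg (mul_nonneg hr.1.le (mul_nonneg (hF0 _) h0))]
      ring
    rw [Real.norm_of_nonneg (integral_nonneg fun _ => norm_nonneg _)]
    simp only [e]
    have h1 := hC r hr.1 hr.2
    simp only [hardy_ec] at h1
    rw [integral_Ioc_eq_integral_Ioo] at h1
    rw [integral_const_mul]
    exact mul_le_mul (mul_le_of_le_one_left h0 hr.2.le) h1 (integral_nonneg fun _ => hF0 _) h0

theorem Sector.lq {φ : ℂ → ℂ} (hφ : DifferentiableOn ℂ φ D) (h0 : ∀ z ∈ D, deriv φ z ≠ 0)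
    (h : Sector φ) : Lq φ := by
  obtain ⟨P, κ, hP, hκ, h⟩ := h
  have hd : DifferentiableOn ℂ (fun z => deriv φ z / exp (P z)) D :=
    (hφ.deriv isOpen_ball).div hP.cexp.differentiableOn fun z _ => exp_ne_zero _
  obtain ⟨q, C, hq1, hq2, hC0, hC1, hC2⟩ := sector_circle hd
    (fun z hz => div_ne_zero (h0 z hz) (exp_ne_zero _)) hκ fun z hz => by
      rw [← inv_div, inv_im, inv_re, abs_div, abs_neg, abs_of_nonneg (normSq_nonneg _),
        ← mul_div_assoc]
      exact div_le_div_of_nonneg_right (h z hz) (normSq_nonneg _)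
  obtain ⟨M, hM⟩ := (isCompact_closedBall (0 : ℂ) 1).exists_bound_of_continuousOn
    hP.cexp.continuous.continuousOn
  set δ : ℝ := (q - 1) / 8 with hδ
  set a : ℝ := (2 + 2 * δ - q) / q with ha
  have hδ0 : 0 < δ := by rw [hδ]; linarith
  have ha0 : 0 ≤ a := div_nonneg (by linarith) (by linarith)
  have hb : a + 2 * δ < 1 := by
    rw [← lt_sub_iff_add_lt, ha, div_lt_iff₀ (by linarith), hδ]
    nlinarith
  have h1 := hardy_collar (F := fun z => ‖deriv φ z / exp (P z)‖ ^ q)
    (hd.continuousOn.norm.rpow_const fun z _ => Or.inr (by linarith))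
    (fun z => by positivity) hC1 hb
  refine ⟨δ, hδ0, by rw [hδ]; linarith, (h1.const_mul (M ^ (2 + 2 * δ) * C ^ a)).mono'
    (((measurable_rho φ).pow_const _).mul (by fun_prop)).aestronglyMeasurable
    (regT_ae_mem.mono fun y hy => ?_)⟩
  have hy1 : 0 < 1 - ‖y‖ := sub_pos.2 (regT_norm_lt hy)
  have hMy := hM y (regT_D_sub hy)
  have hM0 : 0 ≤ M := (norm_nonneg _).trans hMy
  set u := ‖deriv φ y / exp (P y)‖ with hu
  have hu0 : 0 ≤ u := norm_nonneg _
  have h2 : ‖deriv φ y‖ ≤ M * u := by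
    rw [hu, norm_div, ← mul_div_assoc, le_div_iff₀ (norm_pos_iff.2 (exp_ne_zero _)), mul_comm]
    exact mul_le_mul_of_nonneg_right hMy (norm_nonneg _)
  have h3 : rho φ y ^ (1 + δ) ≤ M ^ (2 + 2 * δ) * (u ^ q * (u ^ q) ^ a) := by
    rw [rho, ← Real.rpow_natCast, ← Real.rpow_mul (norm_nonneg _), ← Real.rpow_mul hu0,
      ← Real.rpow_add' hu0 (by positivity), ha, mul_div_cancel₀ _ (by positivity), add_sub_cancel,
      ← Real.mul_rpow hM0 hu0, show ((2 : ℕ) : ℝ) * (1 + δ) = 2 + 2 * δ by push_cast; ring]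
    exact Real.rpow_le_rpow (norm_nonneg _) h2 (by positivity)
  have h4 : (u ^ q) ^ a ≤ C ^ a * (1 - ‖y‖) ^ (-a) := by
    rw [Real.rpow_neg hy1.le, ← div_eq_mul_inv, ← Real.div_rpow hC0 hy1.le]
    exact Real.rpow_le_rpow (by positivity) (hC2 y hy) ha0
  rw [Real.norm_of_nonneg (mul_nonneg (Real.rpow_nonneg (rho_nonneg φ y) _) (by positivity)),
    neg_add, Real.rpow_add hy1]
  calc rho φ y ^ (1 + δ) * (1 - ‖y‖) ^ (-(2 * δ))
      ≤ M ^ (2 + 2 * δ) * (u ^ q * (C ^ a * (1 - ‖y‖) ^ (-a))) * (1 - ‖y‖) ^ (-(2 * δ)) := by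
        refine mul_le_mul_of_nonneg_right (h3.trans ?_) (by positivity)
        gcongr
    _ = _ := by ring

end Vale.Agent.P071
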