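import Vale.Agent.P071L.Sing

/-!
# Consequences of higher integrability
-/

open Complex Metric Set Filter Topology MeasureTheory
open scoped ContDiff ComplexConjugate Real

namespace Vale.Agent.P071

/-- Young's inequality with a parameter. -/
lemma kato_young {a b s δ : ℝ} (ha : 0 ≤ a) (hb : 0 ≤ b) (hs : 0 < s) (hδ : 0 < δ) :
    a * b ≤ s * b ^ (1 + 1 / δ) + s ^ (-δ) * a ^ (1 + δ) := by
  have h1 : 0 ≤ s * b ^ (1 + 1 / δ) := by positivity
  have h2 : 0 ≤ s ^ (-δ) * a ^ (1 + δ) := by positivity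
  rcases le_or_gt a (s * b ^ (1 / δ)) with h | h
  · have e : b ^ (1 + 1 / δ) = b ^ (1 / δ) * b := by
      rw [add_comm, Real.rpow_add_one' hb (by positivity)]
    have : a * b ≤ s * b ^ (1 + 1 / δ) := by
      rw [e, ← mul_assoc]
      exact mul_le_mul_of_nonneg_right h hb
    linarith
  · have h3 : b ^ (1 / δ) ≤ a / s := by
      rw [le_div_iff₀ hs]; linarith
    have h4 : b ≤ (a / s) ^ δ := by
      have h5 := Real.rpow_le_rpow (by positivity) h3 hδ.le
      rwa [← Real.rpow_mul hb, one_div_mul_cancel hδ.ne', Real.rpow_one] at h5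
    have e : s ^ (-δ) * a ^ (1 + δ) = a * (a / s) ^ δ := by
      rw [add_comm, Real.rpow_add_one' ha (by positivity), Real.div_rpow ha hs.le,
        Real.rpow_neg hs.le]
      ring
    have : a * b ≤ s ^ (-δ) * a ^ (1 + δ) := by
      rw [e]
      exact mul_le_mul_of_nonneg_left h4 ha
    linarith

lemma kato_gen : ∃ I : ℝ, 0 ≤ I ∧ ∀ {w : ℂ → ℝ} {δ s : ℝ}, Measurable w → (∀ y, 0 ≤ w y) →
    0 < δ → 0 < s → IntegrableOn (fun y => w y ^ (1 + δ)) D →
    Riesz w (δ / (1 + δ)) (s * I + s ^ (-δ) * ∫ y in D, w y ^ (1 + δ)) := by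
  obtain ⟨I, hI0, hI⟩ := sing_disc (a := 1) zero_le_one one_lt_two
  refine ⟨I, hI0, fun {w δ s} hm hw hδ hs hi x hx => ?_⟩
  obtain ⟨h1, h2⟩ := hI x hx
  simp only [one_mul] at h1 h2
  have hle : ∀ y, w y * ‖y - x‖ ^ (-(δ / (1 + δ))) ≤
      s * ‖y - x‖ ^ (-1 : ℝ) + s ^ (-δ) * w y ^ (1 + δ) := by
    intro y
    have h3 := kato_young (hw y) (b := ‖y - x‖ ^ (-(δ / (1 + δ)))) (by positivity) hs hδ
    rwa [← Real.rpow_mul (norm_nonneg _),
      show -(δ / (1 + δ)) * (1 + 1 / δ) = -1 by field_simp; ring] at h3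
  have i1 : IntegrableOn (fun y => s * ‖y - x‖ ^ (-1 : ℝ) + s ^ (-δ) * w y ^ (1 + δ)) D :=
    (h1.const_mul s).add (hi.const_mul _)
  have i2 : IntegrableOn (fun y => w y * ‖y - x‖ ^ (-(δ / (1 + δ)))) D := by
    refine i1.mono' (hm.mul (by fun_prop)).aestronglyMeasurable (Eventually.of_forall fun y => ?_)
    rw [Real.norm_of_nonneg (mul_nonneg (hw y) (by positivity))]
    exact hle y
  refine ⟨i2, (integral_mono i2 i1 hle).trans ?_⟩
  rw [integral_add (h1.const_mul s) (hi.const_mul _), integral_const_mul, integral_const_mul]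
  gcongr

lemma kato_int {φ : ℂ → ℂ} {δ : ℝ} (hδ : 0 < δ)
    (h : IntegrableOn (fun y => rho φ y ^ (1 + δ) * (1 - ‖y‖) ^ (-(2 * δ))) D) :
    IntegrableOn (fun y => rho φ y ^ (1 + δ)) D := by
  refine h.mono' ((measurable_rho φ).pow_const _).aestronglyMeasurable
    (regT_ae_mem.mono fun y hy => ?_)
  have h0 : 0 ≤ rho φ y ^ (1 + δ) := Real.rpow_nonneg (rho_nonneg φ y) _
  rw [Real.norm_of_nonneg h0]
  have h1 := regT_norm_lt hy
  exact le_mul_of_one_le_right h0 (Real.one_le_rpow_of_pos_of_le_one_of_nonpos (by linarith)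
    (by linarith [norm_nonneg y]) (by linarith))

lemma kato_meas_cut {w : ℂ → ℝ} (hm : Measurable w) (N : ℝ) : Measurable (cut w N) :=
  Measurable.ite (measurableSet_lt measurable_const hm) hm measurable_const

lemma kato_cut_nonneg {w : ℂ → ℝ} (hw : ∀ y, 0 ≤ w y) (N : ℝ) (y : ℂ) : 0 ≤ cut w N y := by
  unfold cut
  split_ifs
  · exact hw y
  · exact le_rfl

lemma kato_cut_le {w : ℂ → ℝ} (hw : ∀ y, 0 ≤ w y) (N : ℝ) (y : ℂ) : cut w N y ≤ w y := by
  unfold cut
  split_ifs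
  · exact le_rfl
  · exact hw y

theorem Lq.kato {φ : ℂ → ℂ} (h : Lq φ) : ∃ η B : ℝ, 0 < η ∧ η ≤ 1 ∧ Riesz (rho φ) η B ∧
    ∀ ε : ℝ, 0 < ε → ∃ N : ℝ, 0 ≤ N ∧ Riesz (cut (rho φ) N) η ε := by
  obtain ⟨δ, hδ, -, h⟩ := h
  have hi := kato_int hδ h
  obtain ⟨I, hI0, hI⟩ := kato_gen
  refine ⟨δ / (1 + δ), _, by positivity, (div_le_one (by positivity)).2 (by linarith),
    hI (measurable_rho φ) (rho_nonneg φ) hδ one_pos hi, fun ε hε => ?_⟩
  have hb : ∀ (N : ℝ) (y : ℂ), ‖cut (rho φ) N y ^ (1 + δ)‖ ≤ rho φ y ^ (1 + δ) := by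
    intro N y
    have h0 := kato_cut_nonneg (rho_nonneg φ) N y
    rw [Real.norm_of_nonneg (Real.rpow_nonneg h0 _)]
    exact Real.rpow_le_rpow h0 (kato_cut_le (rho_nonneg φ) N y) (by positivity)
  have hm : ∀ N : ℝ, AEStronglyMeasurable (fun y => cut (rho φ) N y ^ (1 + δ)) mD := fun N =>
    ((kato_meas_cut (measurable_rho φ) N).pow_const _).aestronglyMeasurable
  have hl : Tendsto (fun N : ℝ => ∫ y, cut (rho φ) N y ^ (1 + δ) ∂mD) atTop
      (𝓝 (∫ _, (0 : ℝ) ∂mD)) := by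
    refine tendsto_integral_filter_of_dominated_convergence (fun y => rho φ y ^ (1 + δ))
      (Eventually.of_forall hm) (Eventually.of_forall fun N => Eventually.of_forall (hb N)) hi
      (Eventually.of_forall fun y => tendsto_const_nhds.congr' ?_)
    filter_upwards [eventually_ge_atTop (rho φ y)] with N hN
    rw [cut, if_neg (not_lt.2 hN), Real.zero_rpow (by positivity)]
  rw [integral_zero] at hl
  set s : ℝ := ε / (2 * (I + 1)) with hs
  have hs0 : 0 < s := by positivity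
  have hl2 := hl.const_mul (s ^ (-δ))
  rw [mul_zero] at hl2
  obtain ⟨N, hN1, hN2⟩ := ((hl2.eventually (gt_mem_nhds (half_pos hε))).and
    (eventually_ge_atTop 0)).exists
  refine ⟨N, hN2, fun x hx => ?_⟩
  have h1 := hI (kato_meas_cut (measurable_rho φ) N) (kato_cut_nonneg (rho_nonneg φ) N) hδ hs0
    (hi.mono' (hm N) (Eventually.of_forall (hb N))) x hx
  refine ⟨h1.1, h1.2.trans ?_⟩
  have h2 : s * I ≤ ε / 2 := by
    rw [hs, div_mul_eq_mul_div, div_le_div_iff₀ (by positivity) two_pos]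
    nlinarith
  linarith

lemma kato_prod {g : ℂ → ℝ} (hg : Measurable g) (hg0 : ∀ y, 0 ≤ g y) {b c : ℝ} (hb0 : 0 ≤ b)
    (hb : b < 1) (hc : 0 ≤ c) (hi : IntegrableOn (fun y => g y * (1 - ‖y‖) ^ (-c)) D) :
    Integrable (fun p : ℝ × ℂ => g p.2 * ‖ec p.1 - p.2‖ ^ (-(b + c))) (mc.prod mD) := by
  obtain ⟨I, hI0, hI⟩ := sing_circle hb0 hb
  have hm : Measurable fun p : ℝ × ℂ => g p.2 * ‖ec p.1 - p.2‖ ^ (-(b + c)) :=
    (hg.comp measurable_snd).mul (Measurable.pow_const (Continuous.measurable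
      (((continuous_circleMap 0 1).comp continuous_fst).sub continuous_snd).norm) _)
  refine regT_prod_int hm.aestronglyMeasurable (hi.mul_const I) (regT_ae_mem.mono fun y hy => ?_)
  obtain ⟨h1, h2⟩ := hI y (regT_D_sub hy)
  have hy1 := regT_norm_lt hy
  have hle : ∀ s, ‖g y * ‖ec s - y‖ ^ (-(b + c))‖ ≤
      g y * (1 - ‖y‖) ^ (-c) * ‖ec s - y‖ ^ (-b) := by
    intro s
    have h3 : 1 - ‖y‖ ≤ ‖ec s - y‖ := by
      have := norm_sub_norm_le (ec s) y
      rwa [norm_circleMap_zero, abs_one] at this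
    have h4 : 0 < ‖ec s - y‖ := by linarith
    rw [Real.norm_of_nonneg (mul_nonneg (hg0 y) (by positivity)), neg_add, Real.rpow_add h4,
      mul_comm (‖ec s - y‖ ^ (-b)), mul_assoc]
    refine mul_le_mul_of_nonneg_left (mul_le_mul_of_nonneg_right ?_ (by positivity)) (hg0 y)
    exact Real.rpow_le_rpow_of_nonpos (by linarith) h3 (by linarith)
  have i1 := h1.const_mul (g y * (1 - ‖y‖) ^ (-c))
  have i2 : Integrable (fun s => g y * ‖ec s - y‖ ^ (-(b + c))) mc :=
    i1.mono' (hm.comp measurable_prodMk_right).aestronglyMeasurable (Eventually.of_forall hle)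
  refine ⟨i2, (integral_mono i2.norm i1 hle).trans ?_⟩
  rw [integral_const_mul]
  exact mul_le_mul_of_nonneg_left h2
    (mul_nonneg (hg0 y) (Real.rpow_nonneg (by linarith) _))

theorem Lq.circ {φ : ℂ → ℂ} (h : Lq φ) :
    Integrable (fun p : ℝ × ℂ => rho φ p.2 * ‖ec p.1 - p.2‖⁻¹) (mc.prod (volume.restrict D)) := by
  obtain ⟨δ, hδ, hδ2, h⟩ := h
  have hi : IntegrableOn (fun y => rho φ y * (1 - ‖y‖) ^ (-(2 * δ))) D := by
    refine ((sing_collar (b := 2 * δ) (by linarith)).add h).mono'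
      ((measurable_rho φ).mul (by fun_prop)).aestronglyMeasurable
      (regT_ae_mem.mono fun y hy => ?_)
    have hy1 := regT_norm_lt hy
    have h0 : 0 ≤ (1 - ‖y‖) ^ (-(2 * δ)) := Real.rpow_nonneg (by linarith) _
    have h1 : rho φ y ≤ 1 + rho φ y ^ (1 + δ) := by
      have h2 : 0 ≤ rho φ y ^ (1 + δ) := Real.rpow_nonneg (rho_nonneg φ y) _
      rcases le_total (rho φ y) 1 with h3 | h3
      · linarith
      · have := Real.rpow_le_rpow_of_exponent_le h3 (show (1 : ℝ) ≤ 1 + δ by linarith)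
        rw [Real.rpow_one] at this
        linarith
    rw [Real.norm_of_nonneg (mul_nonneg (rho_nonneg φ y) h0)]
    have := mul_le_mul_of_nonneg_right h1 h0
    simp only [Pi.add_apply]
    linarith
  have h1 := kato_prod (measurable_rho φ) (rho_nonneg φ) (b := 1 - 2 * δ) (by linarith)
    (by linarith) (by linarith) hi
  simpa only [sub_add_cancel, Real.rpow_neg_one] using h1

theorem Lq.exists_good {φ : ℂ → ℂ} (h : Lq φ) : ∃ s ∈ S1, ∃ τ B : ℝ, 0 < τ ∧ τ ≤ 1 ∧
    Riesz (fun y => rho φ y * ‖y - s‖⁻¹) τ B := by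
  obtain ⟨δ, hδ, hδ2, h⟩ := h
  obtain ⟨I, hI0, hI⟩ := kato_gen
  have h1 := kato_prod ((measurable_rho φ).pow_const (1 + δ))
    (fun y => Real.rpow_nonneg (rho_nonneg φ y) _) (b := 1 - δ) (by linarith)
    (by linarith) (by linarith) h
  have : NeZero mc := ⟨by
    intro h0
    have h2 : mc univ = 0 := by rw [h0]; rfl
    rw [Measure.restrict_apply_univ, Real.volume_Ioc, ENNReal.ofReal_eq_zero] at h2
    linarith [Real.pi_pos]⟩
  obtain ⟨θ, hθ⟩ := h1.prod_right_ae.exists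
  refine ⟨ec θ, circleMap_mem_sphere 0 zero_le_one θ, δ / (1 + δ), _, by positivity,
    (div_le_one (by positivity)).2 (by linarith),
    hI ((measurable_rho φ).mul (by fun_prop))
      (fun y => mul_nonneg (rho_nonneg φ y) (by positivity)) hδ one_pos ?_⟩
  refine (integrable_congr (Eventually.of_forall fun y => ?_)).1 hθ
  simp only
  rw [Real.mul_rpow (rho_nonneg φ y) (by positivity), norm_sub_rev, Real.inv_rpow (norm_nonneg _),
    ← Real.rpow_neg (norm_nonneg _)]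
  congr 2
  ring

end Vale.Agent.P071
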