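import Vale.Agent.P071L.SectorEx
import Vale.Agent.P071L.Hardy
import Vale.Agent.P071L.Kato
import Vale.Agent.P071L.Cone

/-!
# The conformal map of a Lipschitz domain
-/

open Complex Metric Set Filter Topology MeasureTheory
open scoped ContDiff ComplexConjugate Real

namespace Vale.Agent.P071

lemma confL_mul_mem {s z : ℂ} (hs : ‖s‖ = 1) : s * z ∈ D ↔ z ∈ D := by
  rw [mem_ball_zero_iff, mem_ball_zero_iff, norm_mul, hs, one_mul]

lemma confL_rot {s : ℂ} (hs : ‖s‖ = 1) {F : ℂ → ℝ} (hF : IntegrableOn F D) :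
    IntegrableOn (fun y => F (s * y)) D ∧ ∫ y in D, F (s * y) = ∫ y in D, F y := by
  let a : Circle := ⟨s, by simpa [Submonoid.unitSphere] using hs⟩
  have hm := (rotation a).measurePreserving
  have he : MeasurableEmbedding (rotation a) := (rotation a).toHomeomorph.measurableEmbedding
  have hp : rotation a ⁻¹' D = D := by
    ext z
    exact confL_mul_mem hs
  have h1 := (hm.integrableOn_comp_preimage he).2 hF
  have h2 := hm.setIntegral_preimage_emb he F D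
  rw [hp] at h1 h2
  exact ⟨h1, h2⟩

lemma LPair.rotate {Ω : Set ℂ} {p : ℂ} {φ ψ : ℂ → ℂ} (h : LPair Ω p φ ψ) {s : ℂ} (hs : ‖s‖ = 1) :
    LPair Ω p (fun z => φ (s * z)) (fun x => ψ x / s) := by
  have hs0 : s ≠ 0 := by
    rintro rfl
    simp at hs
  refine ⟨h.isOpen, h.bounded, h.diff.comp (by fun_prop) fun z hz => (confL_mul_mem hs).2 hz,
    h.diff'.div_const s, fun z hz => h.maps ((confL_mul_mem hs).2 hz), fun x hx => ?_,
    fun z hz => ?_, fun x hx => ?_, by simpa using h.zero⟩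
  · rw [← confL_mul_mem hs, mul_div_cancel₀ _ hs0]
    exact h.maps' hx
  · rw [h.left _ ((confL_mul_mem hs).2 hz), mul_div_cancel_left₀ _ hs0]
  · rw [mul_div_cancel₀ _ hs0, h.right x hx]

lemma confL_rho (φ : ℂ → ℂ) {s : ℂ} (hs : ‖s‖ = 1) (y : ℂ) :
    rho (fun z => φ (s * z)) y = rho φ (s * y) := by
  rw [rho, rho, deriv_comp_mul_left, smul_eq_mul, norm_mul, hs, one_mul]

theorem exists_lpair {Ω : Set ℂ} (hopen : IsOpen Ω) (hbdd : Bornology.IsBounded Ω)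
    (hsc : IsSimplyConnected Ω) (hL : HasLipschitzBoundary Ω) {p : ℂ} (hp : p ∈ Ω) :
    ∃ φ ψ : ℂ → ℂ, LPair Ω p φ ψ ∧ LAn φ := by
  have hne : Ω ≠ univ := by
    rintro rfl
    exact NormedSpace.unbounded_univ ℝ ℂ hbdd
  obtain ⟨φ, ψ, hφ, hψ, hm, hm', hl, hr, h0⟩ :=
    Vale.Agent.Lib.RMT.riemann_mapping hopen hsc hne hp
  have hP : LPair Ω p φ ψ := ⟨hopen, hbdd, hφ, hψ, hm, hm', hl, hr, h0⟩
  obtain ⟨σ, K, t₀, hc⟩ := exists_cone hopen hbdd hL
  obtain ⟨s, hs, τ, B, hτ, hτ1, hB⟩ :=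
    ((hP.sector hc).lq hP.diff fun z hz => hP.deriv_ne hz).exists_good
  have hs1 : ‖s‖ = 1 := mem_sphere_zero_iff_norm.1 hs
  have hQ := hP.rotate hs1
  have hq := (hQ.sector hc).lq hQ.diff fun z hz => hQ.deriv_ne hz
  obtain ⟨M, hM⟩ := hbdd.exists_norm_le
  refine ⟨_, _, hQ, hQ.diff, fun z hz => hQ.deriv_ne hz, ⟨M, fun z hz => hM _ (hQ.maps hz)⟩,
    hQ.sector hc, hq.kato, hq.circ, τ, B, hτ, hτ1, fun x hx => ?_⟩
  have hx' : s * x ∈ Db := by
    rw [mem_closedBall_zero_iff] at hx ⊢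
    rwa [norm_mul, hs1, one_mul]
  obtain ⟨h1, h2⟩ := hB _ hx'
  obtain ⟨h3, h4⟩ := confL_rot hs1 h1
  have e : (fun y => rho φ (s * y) * ‖s * y - s‖⁻¹ * ‖s * y - s * x‖ ^ (-τ)) =
      fun y => rho (fun z => φ (s * z)) y * ‖y - 1‖⁻¹ * ‖y - x‖ ^ (-τ) := by
    funext y
    rw [confL_rho φ hs1, ← mul_sub_one, ← mul_sub, norm_mul, norm_mul, hs1, one_mul, one_mul]
  rw [e] at h3 h4
  exact ⟨h3, h4.trans_le h2⟩

end Vale.Agent.P071
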