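import Vale.Agent.P071L.Setup
import Vale.Agent.P071.Limit
import Vale.Agent.P071.NoRel

/-!
# The limit kernel
-/

open Complex Metric Set Filter Topology MeasureTheory
open scoped ContDiff ComplexConjugate Real

namespace Vale.Agent.P071

variable {φ : ℂ → ℂ} {μ θ C η : ℝ}

lemma rj_mem (j : ℕ) : 3 / 4 ≤ rj j ∧ rj j < 1 := by
  have h0 : (0 : ℝ) ≤ j := Nat.cast_nonneg j
  have h1 : 0 < 1 / ((j : ℝ) + 1) := by positivity
  have h2 : 1 / ((j : ℝ) + 1) ≤ 1 := by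
    rw [div_le_one (by positivity)]; linarith
  unfold rj
  constructor <;> linarith

lemma tendsto_rj : Tendsto rj atTop (𝓝[<] 1) := by
  refine tendsto_nhdsWithin_iff.2 ⟨?_, Eventually.of_forall fun j => (rj_mem j).2⟩
  have h := ((tendsto_one_div_add_atTop_nhds_zero_nat (𝕜 := ℝ)).div_const 4).const_sub 1
  rw [zero_div, sub_zero] at h
  exact h

lemma du_rj_pos (j : ℕ) : 0 < rj j := by linarith [(rj_mem j).1]

lemma du_ne_zero {s : ℂ} (hs : s ∈ S1) : s ≠ 0 := by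
  rintro rfl
  simp at hs

lemma du_K0_zero {s : ℂ} (hs : s ∈ S1) : K0 0 s = 1 / (4 * π) := by
  rw [K0_symm, K0_boundary hs, sub_zero, mem_sphere_zero_iff_norm.1 hs]
  norm_num

lemma du_dd_nonneg {ν : ℂ → ℝ} {A : ℝ} (hν : Pot ν A θ) {p q : ℂ} (hp : p ∈ Db) (hq : q ∈ Db) :
    0 ≤ dd ν p q := by
  unfold dd
  split_ifs
  · exact le_rfl
  · exact div_nonneg (mul_nonneg (kern_KK_nonneg hν kern0_zero_mem hp)
      (kern_KK_nonneg hν kern0_zero_mem hq)) (kern_KK_nonneg hν hp hq)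

lemma du_dd_le (hU : Unif φ μ θ C η) {r : ℝ} (hr : 0 < r) (hr1 : r < 1) {p q : ℂ} (hp : p ∈ Db)
    (hq : q ∈ Db) (hp0 : p ≠ 0) (hq0 : q ≠ 0) (hpq : p ≠ q) :
    dd (nu φ μ r) p q ≤ C * K0 0 p * (C * K0 0 q) / K0 p q := by
  obtain ⟨A, hν⟩ := hU.pot r hr hr1
  have hC := hU.C_pos
  have h1 := K0_nonneg kern0_zero_mem hp
  have h2 := K0_nonneg kern0_zero_mem hq
  rw [dd, if_neg hpq]
  refine div_le_div₀ (by positivity) ?_ (lor_K0_pos hp hq hpq) (K0_le_KK hν hp hq)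
  exact mul_le_mul (hU.le r hr hr1 0 kern0_zero_mem p hp hp0.symm)
    (hU.le r hr hr1 0 kern0_zero_mem q hq hq0.symm) (kern_KK_nonneg hν kern0_zero_mem hq)
    (by positivity)

lemma du_dd_ge (hU : Unif φ μ θ C η) {r : ℝ} (hr : 0 < r) (hr1 : r < 1) {p q : ℂ} (hp : p ∈ Db)
    (hq : q ∈ Db) (hpq : p ≠ q) : K0 0 p * K0 0 q / (C * K0 p q) ≤ dd (nu φ μ r) p q := by
  obtain ⟨A, hν⟩ := hU.pot r hr hr1
  have h1 := kern_KK_nonneg hν kern0_zero_mem hp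
  have h2 := kern_KK_nonneg hν kern0_zero_mem hq
  rw [dd, if_neg hpq]
  refine div_le_div₀ (by positivity) ?_ (kern_KK_pos hν hp hq hpq) (hU.le r hr hr1 p hp q hq hpq)
  exact mul_le_mul (K0_le_KK hν kern0_zero_mem hp) (K0_le_KK hν kern0_zero_mem hq)
    (K0_nonneg kern0_zero_mem hq) h1

/-- Bounds on the circle which are uniform in the radius. -/
theorem Unif.circle (hU : Unif φ μ θ C η) : ∃ L : ℝ, 0 ≤ L ∧ ∀ r : ℝ, 0 < r → r < 1 →
    ∀ s ∈ S1, ∀ t ∈ S1, dd (nu φ μ r) s t ≤ L ^ 2 * ‖s - t‖ ^ 2 := by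
  refine ⟨C, hU.C_pos.le, fun r hr hr1 s hs t ht => ?_⟩
  rcases eq_or_ne s t with rfl | hst
  · simp [dd]
  refine (du_dd_le hU hr hr1 (kern0_S1_sub hs) (kern0_S1_sub ht) (du_ne_zero hs) (du_ne_zero ht)
    hst).trans ?_
  have hd : 0 < ‖s - t‖ := norm_pos_iff.2 (sub_ne_zero.2 hst)
  have hπ := Real.pi_gt_three
  rw [du_K0_zero hs, du_K0_zero ht, K0_boundary hs]
  have e : C * (1 / (4 * π)) * (C * (1 / (4 * π))) / (1 / (4 * π * ‖s - t‖ ^ 2)) =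
      C ^ 2 * ‖s - t‖ ^ 2 / (4 * π) := by
    field_simp
  rw [e]
  exact div_le_self (by positivity) (by linarith)

theorem Unif.bound (hU : Unif φ μ θ C η) {t : ℂ} (ht : t ∈ Db) (ht0 : t ≠ 0) :
    ∃ N : ℝ, 0 ≤ N ∧ ∀ r : ℝ, 0 < r → r < 1 → ∀ s ∈ S1,
      0 ≤ dd (nu φ μ r) t s ∧ dd (nu φ μ r) t s ≤ N ^ 2 := by
  have hC := hU.C_pos
  have hK := K0_nonneg kern0_zero_mem ht
  have hπ := Real.pi_pos
  refine ⟨√(C * K0 0 t * (C * (1 / (4 * π))) / (1 / (20 * π))), Real.sqrt_nonneg _,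
    fun r hr hr1 s hs => ?_⟩
  obtain ⟨A, hν⟩ := hU.pot r hr hr1
  have hs' := kern0_S1_sub hs
  refine ⟨du_dd_nonneg hν ht hs', ?_⟩
  rw [Real.sq_sqrt (by positivity)]
  rcases eq_or_ne t s with rfl | hts
  · rw [dd, if_pos rfl]
    positivity
  refine (du_dd_le hU hr hr1 ht hs' ht0 (du_ne_zero hs) hts).trans ?_
  rw [du_K0_zero hs]
  exact div_le_div_of_nonneg_left (by positivity) (by positivity) (K0_lower ht hs' hts)

lemma du_lip (hU : Unif φ μ θ C η) {t : ℂ} (ht : t ∈ Db) (ht0 : t ≠ 0) :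
    ∃ M : ℝ, 0 < M ∧ ∀ r : ℝ, 0 < r → r < 1 → ∀ s ∈ S1, ∀ s' ∈ S1,
      |dd (nu φ μ r) s t - dd (nu φ μ r) s' t| ≤ M * ‖s - s'‖ := by
  obtain ⟨L, hL, h1⟩ := hU.circle
  obtain ⟨N, hN, h2⟩ := hU.bound ht ht0
  refine ⟨2 * N * L + 1, by positivity, fun r hr hr1 s hs s' hs' => ?_⟩
  obtain ⟨A, hν⟩ := hU.pot r hr hr1
  obtain ⟨H, _, _, β, hβ⟩ := (lorentz hν).exists_embedding
    (fun p hp q hq => dd_symm hν hp.1 hq.1) (fun p _ => by simp [dd])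
  have hm : ∀ s ∈ S1, s ∈ Db \ {0} := fun s hs => ⟨kern0_S1_sub hs, du_ne_zero hs⟩
  have k1 : ∀ s ∈ S1, ‖β s - β t‖ ≤ N := fun s hs => by
    refine (pow_le_pow_iff_left₀ (norm_nonneg _) hN two_ne_zero).1 ?_
    rw [hβ s (hm s hs) t ⟨ht, ht0⟩, dd_symm hν (kern0_S1_sub hs) ht]
    exact (h2 r hr hr1 s hs).2
  have k2 : ‖β s - β s'‖ ≤ L * ‖s - s'‖ := by
    refine (pow_le_pow_iff_left₀ (norm_nonneg _) (by positivity) two_ne_zero).1 ?_
    rw [hβ s (hm s hs) s' (hm s' hs'), mul_pow]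
    exact h1 r hr hr1 s hs s' hs'
  have k3 := abs_norm_sub_norm_le (β s - β t) (β s' - β t)
  rw [sub_sub_sub_cancel_right] at k3
  rw [← hβ s (hm s hs) t ⟨ht, ht0⟩, ← hβ s' (hm s' hs') t ⟨ht, ht0⟩, sq_sub_sq, abs_mul,
    abs_of_nonneg (by positivity)]
  have k4 : ‖β s - β t‖ + ‖β s' - β t‖ ≤ 2 * N := by linarith [k1 s hs, k1 s' hs']
  have k5 := mul_le_mul k4 (k3.trans k2) (abs_nonneg _) (by positivity)
  nlinarith [norm_nonneg (s - s')]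

lemma du_conv {f : ℕ → ℝ} {a b : ℝ} (h : ∀ j, f j ∈ Icc a b) :
    Tendsto f UF (𝓝 (limUnder (UF : Filter ℕ) f)) := by
  obtain ⟨x, -, hx⟩ := (isCompact_Icc (a := a) (b := b)).ultrafilter_le_nhds (UF.map f)
    (by rw [le_principal_iff]; exact Filter.mem_map.2 (univ_mem' h))
  exact tendsto_nhds_limUnder ⟨x, hx⟩

lemma du_pt (hU : Unif φ μ θ C η) {t : ℂ} (ht : t ∈ Db) (ht0 : t ≠ 0) {s : ℂ} (hs : s ∈ S1) :
    Tendsto (fun j => dd (nu φ μ (rj j)) s t) UF (𝓝 (dU φ μ s t)) := by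
  obtain ⟨N, -, h⟩ := hU.bound ht ht0
  refine du_conv (a := 0) (b := N ^ 2) fun j => ?_
  obtain ⟨A, hν⟩ := hU.pot _ (du_rj_pos j) (rj_mem j).2
  rw [dd_symm hν (kern0_S1_sub hs) ht]
  exact h _ (du_rj_pos j) (rj_mem j).2 s hs

lemma du_lip_lim (hU : Unif φ μ θ C η) {t : ℂ} (ht : t ∈ Db) (ht0 : t ≠ 0) {M : ℝ}
    (h : ∀ r : ℝ, 0 < r → r < 1 → ∀ s ∈ S1, ∀ s' ∈ S1,
      |dd (nu φ μ r) s t - dd (nu φ μ r) s' t| ≤ M * ‖s - s'‖) {s s' : ℂ} (hs : s ∈ S1)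
    (hs' : s' ∈ S1) : |dU φ μ s t - dU φ μ s' t| ≤ M * ‖s - s'‖ :=
  le_of_tendsto' ((du_pt hU ht ht0 hs).sub (du_pt hU ht ht0 hs')).abs fun j =>
    h _ (du_rj_pos j) (rj_mem j).2 s hs s' hs'

/-- Uniform convergence along the ultrafilter. -/
theorem Unif.tendsto (hU : Unif φ μ θ C η) {t : ℂ} (ht : t ∈ Db) (ht0 : t ≠ 0) :
    TendstoUniformlyOn (fun j s => dd (nu φ μ (rj j)) s t) (fun s => dU φ μ s t) UF S1 := by
  obtain ⟨M, hM, h⟩ := du_lip hU ht ht0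
  refine Metric.tendstoUniformlyOn_iff.2 fun ε hε => ?_
  obtain ⟨T, hT, hfin, hcov⟩ := finite_approx_of_totallyBounded
    (isCompact_sphere (0 : ℂ) 1).totallyBounded (ε / (3 * M)) (by positivity)
  have h1 : ∀ᶠ j in (UF : Filter ℕ), ∀ y ∈ T,
      dist (dd (nu φ μ (rj j)) y t) (dU φ μ y t) < ε / 3 :=
    (eventually_all_finite hfin).2 fun y hy =>
      Metric.tendsto_nhds.1 (du_pt hU ht ht0 (hT hy)) _ (by positivity)
  filter_upwards [h1] with j hj s hs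
  obtain ⟨y, hy, hsy⟩ := mem_iUnion₂.1 (hcov hs)
  rw [mem_ball, dist_eq_norm, lt_div_iff₀ (by positivity)] at hsy
  have k1 := abs_le.1 (h _ (du_rj_pos j) (rj_mem j).2 s hs y (hT hy))
  have k2 := abs_le.1 (du_lip_lim hU ht ht0 h hs (hT hy))
  have k3 := hj y hy
  rw [Real.dist_eq, abs_lt] at k3 ⊢
  constructor <;> linarith [k1.1, k1.2, k2.1, k2.2, k3.1, k3.2]

lemma du_K0_center {t : ℝ} (ht : 0 < t) (ht1 : t ≤ 1 / 4) :
    -Real.log t / (2 * π) ≤ K0 0 t ∧ K0 0 t ≤ -Real.log t := by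
  have hn : ‖(t : ℂ)‖ = t := by rw [norm_real, Real.norm_of_nonneg ht.le]
  have hm : (t : ℂ) ∈ Db := by rw [mem_closedBall_zero_iff, hn]; linarith
  have h0 : (t : ℂ) ≠ 0 := ofReal_ne_zero.2 ht.ne'
  have h1 := norel_G0_zero hm h0
  have h2 := dl_mul_dl_mul_K0 kern0_zero_mem hm
  have h3 : dl 0 = 1 := by simp [dl]
  have h4 : dl t = 1 - t ^ 2 := by rw [dl, hn]
  have h5 := K0_nonneg kern0_zero_mem hm
  have hπ := Real.pi_gt_three
  rw [hn, ← h2, h3, h4] at h1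
  have h6 : t ^ 2 ≤ 1 / 16 := by nlinarith
  have h7 : 0 ≤ π * K0 0 t := by positivity
  have h8 : 0 ≤ t ^ 2 * (π * K0 0 t) := by positivity
  constructor
  · rw [div_le_iff₀ (by positivity)]
    nlinarith
  · nlinarith [mul_le_mul_of_nonneg_right h6 h7, mul_le_mul_of_nonneg_right hπ.le h5]

/-- Properties of the limit kernel. -/
theorem Unif.dU_props (hU : Unif φ μ θ C η) :
    (∀ t ∈ Db, t ≠ 0 → ContinuousOn (fun s => dU φ μ s t) S1) ∧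
    (∀ s ∈ S1, dU φ μ s s = 0) ∧ (∀ s ∈ S1, ∀ t ∈ S1, dU φ μ s t = dU φ μ t s) ∧
    (∀ s ∈ S1, ∀ t ∈ S1, s ≠ t → 0 < dU φ μ s t) ∧
    ∃ k : ℝ → ℝ, Tendsto k (𝓝[>] 0) atTop ∧
      ∀ s ∈ S1, Tendsto (fun t : ℝ => dU φ μ s t - k t) (𝓝[>] 0) (𝓝 0) := by
  have hC := hU.C_pos
  refine ⟨fun t ht ht0 => ?_, fun s hs => ?_, fun s hs t ht => ?_, fun s hs t ht hst => ?_, ?_⟩
  · obtain ⟨M, hM, h⟩ := du_lip hU ht ht0
    have : LipschitzOnWith ⟨M, hM.le⟩ (fun s => dU φ μ s t) S1 :=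
      LipschitzOnWith.of_dist_le_mul fun s hs s' hs' => by
        rw [Real.dist_eq, dist_eq_norm]
        exact du_lip_lim hU ht ht0 h hs hs'
    exact this.continuousOn
  · refine tendsto_nhds_unique (du_pt hU (kern0_S1_sub hs) (du_ne_zero hs) hs) ?_
    simp only [dd, if_true]
    exact tendsto_const_nhds
  · unfold dU
    congr 1
    funext j
    obtain ⟨A, hν⟩ := hU.pot _ (du_rj_pos j) (rj_mem j).2
    exact dd_symm hν (kern0_S1_sub hs) (kern0_S1_sub ht)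
  · have hs' := kern0_S1_sub hs
    have ht' := kern0_S1_sub ht
    refine lt_of_lt_of_le ?_ (ge_of_tendsto' (du_pt hU ht' (du_ne_zero ht) hs) fun j =>
      du_dd_ge hU (du_rj_pos j) (rj_mem j).2 hs' ht' hst)
    have h1 := lor_K0_pos kern0_zero_mem hs' (du_ne_zero hs).symm
    have h2 := lor_K0_pos kern0_zero_mem ht' (du_ne_zero ht).symm
    have h3 := lor_K0_pos hs' ht' hst
    positivity
  · set k : ℝ → ℝ := fun t => limUnder (UF : Filter ℕ) fun j => KK (nu φ μ (rj j)) 0 t with hk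
    have hI : ∀ᶠ t : ℝ in 𝓝[>] 0, t ∈ Ioc (0 : ℝ) (1 / 4) := Ioc_mem_nhdsGT (by norm_num)
    have hn : ∀ t ∈ Ioc (0 : ℝ) (1 / 4), ‖(t : ℂ)‖ = t := fun t ht => by
      rw [norm_real, Real.norm_of_nonneg ht.1.le]
    have hm : ∀ t ∈ Ioc (0 : ℝ) (1 / 4), (t : ℂ) ∈ Db := fun t ht => by
      rw [mem_closedBall_zero_iff, hn t ht]; linarith [ht.2]
    have h0 : ∀ t ∈ Ioc (0 : ℝ) (1 / 4), (t : ℂ) ≠ 0 := fun t ht => ofReal_ne_zero.2 ht.1.ne'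
    have hb : ∀ t ∈ Ioc (0 : ℝ) (1 / 4), ∀ j,
        KK (nu φ μ (rj j)) 0 t ∈ Icc (K0 0 t) (C * K0 0 t) := fun t ht j => by
      obtain ⟨A, hν⟩ := hU.pot _ (du_rj_pos j) (rj_mem j).2
      exact ⟨K0_le_KK hν kern0_zero_mem (hm t ht),
        hU.le _ (du_rj_pos j) (rj_mem j).2 0 kern0_zero_mem t (hm t ht) (h0 t ht).symm⟩
    have hc : ∀ t ∈ Ioc (0 : ℝ) (1 / 4),
        Tendsto (fun j => KK (nu φ μ (rj j)) 0 t) UF (𝓝 (k t)) := fun t ht => du_conv (hb t ht)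
    refine ⟨k, ?_, fun s hs => ?_⟩
    · have h1 : Tendsto (fun t : ℝ => -Real.log t / (2 * π)) (𝓝[>] 0) atTop :=
        (tendsto_neg_atBot_atTop.comp Real.tendsto_log_nhdsGT_zero).atTop_div_const
          (by positivity)
      refine tendsto_atTop_mono' _ (hI.mono fun t ht => ?_) h1
      exact (du_K0_center ht.1 ht.2).1.trans (ge_of_tendsto' (hc t ht) fun j => (hb t ht j).1)
    · have h1 : Tendsto (fun t : ℝ => -C * (Real.log t * t ^ η)) (𝓝[>] 0) (𝓝 0) := by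
        simpa using (tendsto_log_mul_rpow_nhdsGT_zero hU.η_pos).const_mul (-C)
      refine squeeze_zero_norm' (hI.mono fun t ht => ?_) h1
      have h2 : |dU φ μ s t - k t| ≤ C * ‖(t : ℂ)‖ ^ η * K0 0 t :=
        le_of_tendsto' ((du_pt hU (hm t ht) (h0 t ht) hs).sub (hc t ht)).abs fun j =>
          hU.near _ (du_rj_pos j) (rj_mem j).2 s hs t (h0 t ht) (by rw [hn t ht]; exact ht.2)
      rw [hn t ht] at h2
      have h3 : 0 ≤ C * t ^ η := mul_nonneg hC.le (Real.rpow_nonneg ht.1.le _)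
      have h4 := mul_le_mul_of_nonneg_left (du_K0_center ht.1 ht.2).2 h3
      rw [Real.norm_eq_abs]
      linarith

end Vale.Agent.P071
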