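import Vale.Agent.P071.Defs

namespace Vale.Agent.P071

/-- `Ω` has a Lipschitz boundary: near each boundary point, after a rotation of the plane
(division by a unit complex number `e`), `Ω` is the region above the graph of a Lipschitz
function. -/
def HasLipschitzBoundary (Ω : Set ℂ) : Prop :=
  ∀ y ∈ frontier Ω, ∃ (ε : ℝ) (e : ℂ) (K : NNReal) (f : ℝ → ℝ), 0 < ε ∧ ‖e‖ = 1 ∧
    LipschitzWith K f ∧ ∀ z ∈ Metric.ball y ε, (z ∈ Ω ↔ f (z / e).re < (z / e).im)

end Vale.Agent.P071
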