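import Vale.Agent.P071L.GroundAux
import Vale.Agent.P071L.CGT

/-!
# Ground state inequality and uniform kernel bounds
-/

open Complex Metric Set Filter Topology MeasureTheory
open scoped ContDiff ComplexConjugate Real

namespace Vale.Agent.P071

variable {φ : ℂ → ℂ} {μ : ℝ}

lemma LAn.exists_G0_sq (S : LAn φ) : ∃ K : ℝ, 0 < K ∧ ∀ y ∈ Db,
    IntegrableOn (fun x => rho φ x * G0 x y ^ 2) D ∧ ∫ x in D, rho φ x * G0 x y ^ 2 ≤ K := by
  obtain ⟨η, B, h0, h1, hB, -⟩ := S.kato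
  have hB0 : 0 ≤ B := (integral_nonneg fun y => mul_nonneg (rho_nonneg φ y)
    (Real.rpow_nonneg (norm_nonneg _) _)).trans (hB 0 (by simp)).2
  refine ⟨(2 / η) ^ 2 * B + 1, by positivity, fun y hy => ?_⟩
  have hle : ∀ x ∈ D, rho φ x * G0 x y ^ 2 ≤ (2 / η) ^ 2 * (rho φ x * ‖x - y‖ ^ (-η)) := by
    intro x hx
    have a1 := G0_le_rpow (τ := η / 2) (by positivity) (by linarith) hy (kern0_D_sub hx)
    have a2 := pow_le_pow_left₀ (G0_nonneg hy (kern0_D_sub hx)) a1 2
    rw [mul_pow, ← Real.rpow_natCast (‖x - y‖ ^ _), ← Real.rpow_mul (norm_nonneg _), one_div_div,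
      show -(η / 2) * ((2 : ℕ) : ℝ) = -η by push_cast; ring] at a2
    rw [G0_symm, mul_left_comm]
    exact mul_le_mul_of_nonneg_left a2 (rho_nonneg φ x)
  have hi := (hB y hy).1.const_mul ((2 / η) ^ 2)
  have hi2 : IntegrableOn (fun x => rho φ x * G0 x y ^ 2) D := by
    refine hi.mono' ((measurable_rho φ).mul ((measurable_G0.comp
      (measurable_id.prodMk measurable_const)).pow_const 2)).aestronglyMeasurable
      (sl_ae_mem.mono fun x hx => ?_)
    rw [Real.norm_of_nonneg (mul_nonneg (rho_nonneg φ x) (sq_nonneg _))]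
    exact hle x hx
  refine ⟨hi2, (setIntegral_mono_on hi2 hi measurableSet_ball hle).trans ?_⟩
  rw [integral_const_mul]
  have := mul_le_mul_of_nonneg_left (hB y hy).2 (sq_nonneg (2 / η))
  linarith

lemma LAn.exists_GR_sq (S : LAn φ) : ∃ K : ℝ, 0 < K ∧ ∀ k : ℂ → ℝ, BM k → (∀ z ∈ D, 0 ≤ k z) →
    ∫ x in D, rho φ x * GR k x ^ 2 ≤ K * (∫ y in D, k y) ^ 2 := by
  obtain ⟨K, hK0, hK⟩ := S.exists_G0_sq
  refine ⟨K, hK0, fun k hk hk0 => ?_⟩
  have hm : AEStronglyMeasurable (fun z : ℂ × ℂ => rho φ z.1 * G0 z.1 z.2 ^ 2 * k z.2)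
      ((volume.restrict D).prod (volume.restrict D)) :=
    (((measurable_rho φ).comp measurable_fst).mul
      (measurable_G0.pow_const 2)).aestronglyMeasurable.mul hk.meas.comp_snd
  have hin : ∀ y ∈ D, ∫ x in D, rho φ x * G0 x y ^ 2 * k y ≤ K * k y := fun y hy => by
    rw [integral_mul_const]
    exact mul_le_mul_of_nonneg_right (hK y (kern0_D_sub hy)).2 (hk0 y hy)
  have hi := regT_prod_int hm (hk.integrableOn.const_mul K) (sl_ae_mem.mono fun y hy =>
    ⟨(hK y (kern0_D_sub hy)).1.mul_const (k y), le_trans (le_of_eq (integral_congr_ae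
      (Eventually.of_forall fun x => Real.norm_of_nonneg (mul_nonneg
        (mul_nonneg (rho_nonneg φ x) (sq_nonneg _)) (hk0 y hy))))) (hin y hy)⟩)
  have h1 : ∀ x ∈ D, rho φ x * GR k x ^ 2 ≤
      (∫ y in D, rho φ x * G0 x y ^ 2 * k y) * ∫ y in D, k y := by
    intro x hx
    have hG := rep_memLp_G0 (kern0_D_sub hx)
    have a1 := weighted_cs (w := k) (f := G0 x) (g := fun _ => 1) (sl_ae_mem.mono hk0)
      (hk.mul_integrableOn hG.integrable_sq)
      (by simpa [IntegrableOn] using hk.mul_integrableOn (integrableOn_of_memLp hG))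
      (by simpa [IntegrableOn] using hk.integrableOn)
    simp only [mul_one, one_pow] at a1
    simp only [mul_comm (k _)] at a1
    simp only [mul_assoc, integral_const_mul]
    exact mul_le_mul_of_nonneg_left a1 (rho_nonneg φ x)
  have h2 := setIntegral_mono_on (S.int_rho_mul (bm_GR hk.memLp).sq)
    (hi.integral_prod_left.mul_const _) measurableSet_ball h1
  rw [integral_mul_const, integral_integral_swap hi] at h2
  have h3 := integral_mono_ae hi.integral_prod_right (hk.integrableOn.const_mul K)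
    (sl_ae_mem.mono hin)
  rw [integral_const_mul] at h3
  have h4 : 0 ≤ ∫ y in D, k y := setIntegral_nonneg measurableSet_ball hk0
  have h5 := mul_le_mul_of_nonneg_right h3 h4
  calc _ ≤ _ := h2
    _ ≤ _ := h5
    _ = _ := by ring

/-- The contraction estimate for bounded weights below `μ ρ`. -/
lemma LSetup.exists_contr (S : LSetup φ μ) : ∃ θ : ℝ, 0 < θ ∧ θ < 1 ∧ ∀ ν : ℂ → ℝ, BM ν →
    (∀ z, 0 ≤ ν z) → (∀ z ∈ D, ν z ≤ μ * rho φ z) → ∀ g : ℂ → ℝ, BM g → (∀ z ∈ D, 0 ≤ g z) →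
      ∫ x in D, ν x * GR (fun y => ν y * g y) x ^ 2 ≤ θ ^ 2 * ∫ x in D, ν x * g x ^ 2 := by
  obtain ⟨γ, hγ, h⟩ := S.exists_gap
  have T := S.toLAn
  obtain ⟨G, hG0, hG⟩ := T.exists_GR_sq
  have hμ := S.mu_pos
  set K := μ * G * μ ^ 2 / γ with hK
  have hK0 : 0 < K := by positivity
  refine ⟨max (1 / 2) (1 - 1 / (8 * K)), lt_max_of_lt_left (by norm_num),
    max_lt (by norm_num) (by have : 0 < 1 / (8 * K) := by positivity
                             linarith), fun ν bν ν0 hν g hg hg0 => ?_⟩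
  have hle : ∀ {f : ℂ → ℝ}, BM f → (∀ z ∈ D, 0 ≤ f z) →
      ∫ z in D, ν z * f z ≤ μ * ∫ z in D, rho φ z * f z := fun hf hf0 => by
    rw [← integral_const_mul]
    exact setIntegral_mono_on (bν.mul hf).integrableOn ((T.int_rho_mul hf).const_mul μ)
      measurableSet_ball fun z hz => by
        rw [← mul_assoc]; exact mul_le_mul_of_nonneg_right (hν z hz) (hf0 z hz)
  have ν0' : ∀ᵐ z ∂(volume.restrict D), 0 ≤ ν z := Eventually.of_forall ν0
  set u := GR fun y => ν y * g y with hu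
  have bk := bν.mul hg
  have bu : BM u := bm_GR bk.memLp
  have u0 : ∀ z ∈ D, 0 ≤ u z := fun z hz =>
    GR_nonneg (fun y hy => mul_nonneg (ν0 y) (hg0 y hy)) (ball_subset_closedBall hz)
  have bk2 := bν.mul bu
  set u2 := GR fun y => ν y * u y with hu2
  have bu2 : BM u2 := bm_GR bk2.memLp
  set X := ∫ x in D, ν x * u x ^ 2 with hX
  set N := ∫ x in D, ν x * g x ^ 2 with hN
  have X0 : 0 ≤ X := integral_nonneg fun z => mul_nonneg (ν0 z) (sq_nonneg _)
  have N0 : 0 ≤ N := integral_nonneg fun z => mul_nonneg (ν0 z) (sq_nonneg _)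
  have a1 := h _ bk.memLp
  rw [← hu] at a1
  have e1 : X ≤ μ * ∫ z in D, rho φ z * u z ^ 2 := hle bu.sq fun _ _ => sq_nonneg _
  have e2 := hle bu u0
  have a2 := weighted_cs ν0' (bν.mul hg.sq).integrableOn (bν.mul (hg.mul bu)).integrableOn
    (bν.mul bu.sq).integrableOn
  have a3 := weighted_cs ν0' (bν.mul hg.sq).integrableOn (bν.mul (hg.mul bu2)).integrableOn
    (bν.mul bu2.sq).integrableOn
  have e3 : ∫ z in D, ν z * (g z * u2 z) = X := by
    have := GR_symm bk.memLp bk2.memLp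
    rw [← hu, ← hu2] at this
    calc ∫ z in D, ν z * (g z * u2 z) = ∫ z in D, ν z * g z * u2 z := by simp only [mul_assoc]
      _ = ∫ z in D, u z * (ν z * u z) := this.symm
      _ = X := integral_congr_ae (Eventually.of_forall fun z => by simp only; ring)
  have a4 : ∫ z in D, ν z * u2 z ^ 2 ≤ μ * (G * (μ * ∫ z in D, rho φ z * u z) ^ 2) := by
    have k0 : ∀ z ∈ D, 0 ≤ ν z * u z := fun z hz => mul_nonneg (ν0 z) (u0 z hz)
    refine (hle bu2.sq fun _ _ => sq_nonneg _).trans (mul_le_mul_of_nonneg_left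
      ((hG _ bk2 k0).trans (mul_le_mul_of_nonneg_left ?_ hG0.le)) hμ.le)
    exact pow_le_pow_left₀ (setIntegral_nonneg measurableSet_ball k0) e2 2
  rw [e3, ← hN] at a3
  rw [← hN, ← hX] at a2
  have a5 : ∫ z in D, ν z * g z * u z ≤ Real.sqrt N * Real.sqrt X := by
    rw [← Real.sqrt_mul N0]
    refine Real.le_sqrt_of_sq_le ?_
    simpa only [mul_assoc] using a2
  have a6 := ground_arith (x := Real.sqrt X) (Real.sqrt_nonneg N) hK0 (by
    have e4 : Real.sqrt X ^ 4 = X ^ 2 := by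
      rw [show (4 : ℕ) = 2 * 2 from rfl, pow_mul, Real.sq_sqrt X0]
    rw [e4, Real.sq_sqrt N0, Real.sq_sqrt X0]
    refine a3.trans ?_
    rw [mul_assoc]
    refine mul_le_mul_of_nonneg_left (a4.trans ?_) N0
    have : μ * (G * (μ * ∫ z in D, rho φ z * u z) ^ 2) =
        K * (γ * (∫ z in D, rho φ z * u z) ^ 2) := by
      rw [hK]; field_simp
    rw [this]
    exact mul_le_mul_of_nonneg_left (by linarith) hK0.le)
  have a7 := pow_le_pow_left₀ (Real.sqrt_nonneg X) a6 2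
  rwa [mul_pow, Real.sq_sqrt N0, Real.sq_sqrt X0] at a7

/-- The potential restricted to a smaller disc. -/
noncomputable def nuR (φ : ℂ → ℂ) (μ r : ℝ) : ℂ → ℝ :=
  (ball (0 : ℂ) r).indicator fun z => μ * rho φ z

lemma measurable_nuR (r : ℝ) : Measurable (nuR φ μ r) :=
  ((measurable_rho φ).const_mul μ).indicator measurableSet_ball

lemma LSetup.nuR_props (S : LSetup φ μ) {r : ℝ} (hr1 : r < 1) : (∀ z, 0 ≤ nuR φ μ r z) ∧
    (∀ z, nuR φ μ r z ≤ μ * rho φ z) ∧ (∃ A, ∀ z, nuR φ μ r z ≤ A) ∧ BM (nuR φ μ r) := by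
  have h0 : ∀ z, 0 ≤ μ * rho φ z := fun z => mul_nonneg S.mu_pos.le (rho_nonneg φ z)
  have h1 : ∀ z, 0 ≤ nuR φ μ r z := fun z => indicator_nonneg (fun z _ => h0 z) z
  obtain ⟨M, hM⟩ := (isCompact_closedBall (0 : ℂ) r).exists_bound_of_continuousOn
    (f := fun z => μ * rho φ z) (continuousOn_of_forall_continuousAt fun z hz =>
      continuousAt_const.mul (S.toLAn.continuousAt_rho (closedBall_subset_ball hr1 hz)))
  have h2 : ∀ z, nuR φ μ r z ≤ max M 0 := fun z => by
    by_cases hz : z ∈ ball (0 : ℂ) r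
    · rw [nuR, indicator_of_mem hz]
      exact ((le_abs_self _).trans (hM z (ball_subset_closedBall hz))).trans (le_max_left _ _)
    · rw [nuR, indicator_of_notMem hz]
      exact le_max_right _ _
  exact ⟨h1, fun z => indicator_le_self' (fun z _ => h0 z) z, ⟨_, h2⟩,
    (measurable_nuR r).aestronglyMeasurable, _, fun z _ => (abs_of_nonneg (h1 z)).trans_le (h2 z)⟩

lemma nu_eq_nuR {r : ℝ} (hr : 0 < r) {z : ℂ} (hz : z ∈ D) :
    nu φ μ r z = r ^ 2 * nuR φ μ r (r * z) := by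
  rw [nu_of_mem φ μ r hz, nuR, indicator_of_mem (mul_mem_ball hr hz)]; ring

lemma LSetup.nu_nonneg (S : LSetup φ μ) (r : ℝ) (z : ℂ) : 0 ≤ nu φ μ r z := by
  unfold nu
  split_ifs
  · exact mul_nonneg (mul_nonneg (sq_nonneg _) S.mu_pos.le) (rho_nonneg _ _)
  · exact le_rfl

/-- The contraction estimate on smaller discs. -/
lemma LSetup.pot (S : LSetup φ μ) {θ : ℝ} (hθ0 : 0 < θ) (hθ1 : θ < 1) {r : ℝ} (hr : 0 < r)
    (hr2 : r < 1) (h : ∀ g : ℂ → ℝ, BM g → (∀ z ∈ D, 0 ≤ g z) →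
      ∫ x in D, nuR φ μ r x * GR (fun y => nuR φ μ r y * g y) x ^ 2 ≤
        θ ^ 2 * ∫ x in D, nuR φ μ r x * g x ^ 2) : ∃ A, Pot (nu φ μ r) A θ := by
  obtain ⟨n0, -, ⟨A, hA⟩, b1⟩ := S.nuR_props hr2
  have hr1 := hr2.le
  have hA' : ∀ z, nu φ μ r z ≤ r ^ 2 * A := fun z => by
    by_cases hz : z ∈ D
    · rw [nu_eq_nuR hr hz]; exact mul_le_mul_of_nonneg_left (hA _) (sq_nonneg _)
    · rw [nu, if_neg hz]; exact mul_nonneg (sq_nonneg _) ((n0 0).trans (hA 0))
  have br : BM (nu φ μ r) := ⟨(measurable_nu φ μ r).aestronglyMeasurable, _, fun z _ =>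
    (abs_of_nonneg (S.nu_nonneg r z)).trans_le (hA' z)⟩
  refine ⟨_, measurable_nu φ μ r, S.nu_nonneg r, hA', hθ0, hθ1, fun g hg hg0 ⟨M, hM⟩ => ?_⟩
  have hr' : (r : ℂ) ≠ 0 := ofReal_ne_zero.2 hr.ne'
  set g' : ℂ → ℝ := (ball (0 : ℂ) r).indicator fun y => g (y / r) with hg'
  have mg' : Measurable g' := (hg.comp (measurable_id.div_const _)).indicator measurableSet_ball
  have g'0 : ∀ z, 0 ≤ g' z := fun z => indicator_nonneg (fun _ _ => hg0 _) z
  have bg' : BM g' := ⟨mg'.aestronglyMeasurable, M, fun z _ =>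
    (norm_indicator_le_norm_self _ _).trans (by rw [Real.norm_of_nonneg (hg0 _)]; exact hM _)⟩
  have bg : BM g := ⟨hg.aestronglyMeasurable, M, fun z _ => by
    rw [Real.norm_of_nonneg (hg0 _)]; exact hM _⟩
  have hν : ∀ z ∈ D, nu φ μ r z = r ^ 2 * nuR φ μ r (r * z) := fun z hz => nu_eq_nuR hr hz
  have bk := b1.mul bg'
  set u := GR fun y => nuR φ μ r y * g' y with hu
  have bu : BM u := bm_GR bk.memLp
  have mu : Measurable u := measurable_GR ((measurable_nuR r).mul mg')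
  have e1 : ∀ w : ℂ → ℝ, ∀ n : ℕ, n ≠ 0 → ∫ y in D, w y * g' y ^ n =
      ∫ y in D, r ^ 2 * (w (r * y) * g y ^ n) := by
    intro w n hn
    have := integral_scale_indicator hr hr1 fun y => w y * g (y / r) ^ n
    simp only [mul_div_cancel_left₀ _ hr'] at this
    rw [← this]
    refine integral_congr_ae (Eventually.of_forall fun y => ?_)
    by_cases hy : y ∈ ball (0 : ℂ) r <;> simp [hg', hy, hn]
  have a1 : ∀ x ∈ D, ∫ y in D, G0 x y * (nu φ μ r y * g y) ≤ u (r * x) := by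
    intro x hx
    have hrx := mul_mem_D hr hr1 hx
    have e2 := e1 (fun y => G0 (r * x) y * nuR φ μ r y) 1 one_ne_zero
    simp only [pow_one, mul_assoc] at e2
    rw [hu, GR, e2]
    have i1 : IntegrableOn
        (fun y => r ^ 2 * (G0 (r * x) (r * y) * (nuR φ μ r (r * y) * g y))) D := by
      have i2 := (integrableOn_G0_mul bk.memLp (ball_subset_closedBall hrx)).mono_set
        (ball_subset_ball hr1)
      have i3 := integrableOn_ball_scale hr i2
      refine (i3.const_mul (r ^ 2)).congr (ae_restrict_of_forall_mem measurableSet_ball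
        fun y hy => ?_)
      simp only [hg', indicator_of_mem (mul_mem_ball hr hy), mul_div_cancel_left₀ _ hr']
    refine setIntegral_mono_on (integrableOn_G0_mul (br.mul bg).memLp (ball_subset_closedBall hx))
      i1 measurableSet_ball fun y hy => ?_
    rw [hν y hy]
    have := G0_le_scale (ball_subset_closedBall hx) (ball_subset_closedBall hy) hr hr1
    have h2 : 0 ≤ r ^ 2 * nuR φ μ r (r * y) * g y :=
      mul_nonneg (mul_nonneg (sq_nonneg _) (n0 _)) (hg0 _)
    nlinarith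
  have bur : BM fun x : ℂ => u (r * x) := by
    obtain ⟨B, hB⟩ := bu.bdd
    exact ⟨(mu.comp (measurable_const_mul _)).aestronglyMeasurable, B, fun z hz =>
      hB _ (mul_mem_D hr hr1 hz)⟩
  calc ∫ x in D, nu φ μ r x * (∫ y in D, G0 x y * (nu φ μ r y * g y)) ^ 2
      ≤ ∫ x in D, r ^ 2 * (nuR φ μ r (r * x) * u (r * x) ^ 2) := by
        refine setIntegral_mono_on (br.mul (bm_GR (br.mul bg).memLp).sq).integrableOn
          ((br.mul bur.sq).congr fun z hz => by rw [hν z hz]; ring).integrableOn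
          measurableSet_ball fun x hx => ?_
        rw [← mul_assoc, ← hν x hx]
        refine mul_le_mul_of_nonneg_left (pow_le_pow_left₀ ?_ (a1 x hx) 2) (S.nu_nonneg _ _)
        exact GR_nonneg (fun y _ => mul_nonneg (S.nu_nonneg _ _) (hg0 _))
          (ball_subset_closedBall hx)
    _ = ∫ x in D, (ball (0 : ℂ) r).indicator (fun x => nuR φ μ r x * u x ^ 2) x :=
        (integral_scale_indicator hr hr1 fun x => nuR φ μ r x * u x ^ 2).symm
    _ ≤ ∫ x in D, nuR φ μ r x * u x ^ 2 :=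
        integral_mono ((b1.mul bu.sq).integrableOn.indicator measurableSet_ball)
          (b1.mul bu.sq).integrableOn
          (indicator_le_self' fun x _ => mul_nonneg (n0 _) (sq_nonneg _))
    _ ≤ θ ^ 2 * ∫ x in D, nuR φ μ r x * g' x ^ 2 := h g' bg' fun z _ => g'0 z
    _ = θ ^ 2 * ∫ x in D, nu φ μ r x * g x ^ 2 := by
        rw [e1 _ 2 two_ne_zero]
        congr 1
        exact setIntegral_congr_fun measurableSet_ball fun z hz => by
          simp only [hν z hz]; ring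

/-- The Dirichlet Poincare inequality with a gain, for a bounded weight. -/
lemma dirichlet_weight {ν : ℂ → ℝ} (bν : BM ν) (ν0 : ∀ z, 0 ≤ ν z) {θ : ℝ} (hθ0 : 0 < θ)
    (h : ∀ g : ℂ → ℝ, BM g → (∀ z ∈ D, 0 ≤ g z) →
      ∫ x in D, ν x * GR (fun y => ν y * g y) x ^ 2 ≤ θ ^ 2 * ∫ x in D, ν x * g x ^ 2)
    {ψ : ℂ → ℝ} (hψ : ContDiff ℝ 2 ψ) (h0 : ∀ z ∈ S1, ψ z = 0) :
    ∫ z in D, ν z * ψ z ^ 2 ≤ θ * ∫ z in D, (dx ψ z ^ 2 + dy ψ z ^ 2) := by
  have bψ : BM ψ := .of_continuous hψ.continuous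
  have bk : BM fun z => -lap ψ z := (BM.lap_of_contDiff hψ).neg
  have bf := bν.mul bψ
  set X := ∫ x in D, ν x * ψ x ^ 2 with hX
  set u := GR fun y => ν y * ψ y with hu
  have bu : BM u := bm_GR bf.memLp
  set u' := GR fun y => ν y * |ψ y| with hu'
  have bu' : BM u' := bm_GR (bν.mul bψ.abs).memLp
  have a1 := h _ bψ.abs fun z _ => abs_nonneg _
  simp only [sq_abs] at a1
  rw [← hu', ← hX] at a1
  have a2 : ∫ z in D, ν z * ψ z * u z ≤ θ * X := by
    have i1 : IntegrableOn (fun z => θ / 2 * (ν z * ψ z ^ 2)) D :=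
      ((bν.mul bψ.sq).const_mul _).integrableOn
    have i2 : IntegrableOn (fun z => 1 / (2 * θ) * (ν z * u' z ^ 2)) D :=
      ((bν.mul bu'.sq).const_mul _).integrableOn
    refine (setIntegral_mono_on (bf.mul bu).integrableOn (i1.fun_add i2) measurableSet_ball
      fun z hz => ?_).trans ?_
    · have b1 := abs_GR_le (fun y => ν y * ψ y) (ball_subset_closedBall hz)
      simp only [abs_mul, abs_of_nonneg (ν0 _)] at b1
      rw [← hu, ← hu'] at b1
      have b2 : ψ z * u z ≤ |ψ z| * u' z :=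
        (le_abs_self _).trans (by rw [abs_mul]; gcongr)
      have b3 : |ψ z| * u' z ≤ θ / 2 * ψ z ^ 2 + 1 / (2 * θ) * u' z ^ 2 := by
        have : θ / 2 * ψ z ^ 2 + 1 / (2 * θ) * u' z ^ 2 - |ψ z| * u' z =
            (θ * |ψ z| - u' z) ^ 2 / (2 * θ) := by
          rw [← sq_abs (ψ z)]; field_simp; ring
        have h2 : 0 ≤ (θ * |ψ z| - u' z) ^ 2 / (2 * θ) := by positivity
        linarith
      have := mul_le_mul_of_nonneg_left (b2.trans b3) (ν0 z)
      linarith
    · rw [integral_add i1 i2, integral_const_mul, integral_const_mul, ← hX]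
      have : 1 / (2 * θ) * (∫ z in D, ν z * u' z ^ 2) ≤ 1 / (2 * θ) * (θ ^ 2 * X) := by gcongr
      have e : 1 / (2 * θ) * (θ ^ 2 * X) = θ / 2 * X := by field_simp
      linarith
  have a3 := GR_psd (bk.sub (bf.const_mul θ⁻¹)).memLp
  have e2 : ∫ z in D, u z * -lap ψ z = X := by
    rw [GR_symm bf.memLp bk.memLp]
    exact setIntegral_congr_fun measurableSet_ball fun z hz => by
      simp only [← GR_rep hψ h0 hz]; ring
  have i3 := (bk.mul bψ).integrableOn
  have i4 := ((bu.mul bk).const_mul θ⁻¹).integrableOn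
  have i5 := ((bν.mul bψ.sq).const_mul θ⁻¹).integrableOn
  have i6 := ((bf.mul bu).const_mul (θ⁻¹ ^ 2)).integrableOn
  have e3 : ∫ z in D, (-lap ψ z - θ⁻¹ * (ν z * ψ z)) *
      GR (fun y => -lap ψ y - θ⁻¹ * (ν y * ψ y)) z = ∫ z in D, (-lap ψ z * ψ z -
        θ⁻¹ * (u z * -lap ψ z) - θ⁻¹ * (ν z * ψ z ^ 2) + θ⁻¹ ^ 2 * (ν z * ψ z * u z)) :=
    setIntegral_congr_fun measurableSet_ball fun z hz => by
      simp only [GR_sub_mul bk.memLp bf.memLp θ⁻¹ (ball_subset_closedBall hz), ← GR_rep hψ h0 hz,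
        ← hu]
      ring
  rw [e3, integral_add ((Integrable.sub' i3 i4).sub' i5) i6, integral_sub (Integrable.sub' i3 i4) i5,
    integral_sub i3 i4, integral_const_mul, integral_const_mul, integral_const_mul, e2, ← hX,
    ← dirichlet_energy hψ h0] at a3
  have a4 : θ⁻¹ ^ 2 * ∫ z in D, ν z * ψ z * u z ≤ θ⁻¹ ^ 2 * (θ * X) := by gcongr
  have e4 : θ⁻¹ ^ 2 * (θ * X) = θ⁻¹ * X := by field_simp
  have a5 : θ⁻¹ * X ≤ ∫ z in D, (dx ψ z ^ 2 + dy ψ z ^ 2) := by linarith
  rwa [inv_mul_le_iff₀ hθ0] at a5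

lemma LSetup.ground (S : LSetup φ μ) {θ : ℝ} (hθ0 : 0 < θ)
    (h : ∀ ψ : ℂ → ℝ, ContDiff ℝ 2 ψ → (∀ z ∈ S1, ψ z = 0) →
      μ * ∫ z in D, rho φ z * ψ z ^ 2 ≤ θ * ∫ z in D, (dx ψ z ^ 2 + dy ψ z ^ 2)) :
    Ground φ μ θ := by
  intro v Φ hv hΦ hw
  have hμ := S.mu_pos
  set F : ℂ → ℂ := fun z => deriv φ z * Φ z with hF
  have T := S.toLAn
  have hF1 : IntegrableOn F D := T.integrableOn_mul hΦ
  have iP : IntegrableOn (fun z => (F z).re ^ 2 / rho φ z) D := (T.norm_sq_eq hΦ).1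
  have iQ : IntegrableOn (fun z => (F z).im ^ 2 / rho φ z) D := (T.norm_sq_eq hΦ).2.1
  set P := ∫ z in D, (F z).re ^ 2 / rho φ z with hP
  set Q := ∫ z in D, (F z).im ^ 2 / rho φ z with hQ
  have h1 : ∫ z in D, (F z).re = 0 := by
    simpa only [dD_const, map_zero, mul_zero, zero_add, map_one, mul_one] using
      hw (fun _ => 1) contDiff_const (by simp)
  refine le_of_forall_pos_le_add fun ε hε => ?_
  obtain ⟨U, hU, hU0, hUε⟩ := dense_dD hv (div_pos hε hμ)
  have hU2 : ContDiff ℝ 2 U := hU.of_le (by norm_cast)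
  have hU1 : ContDiff ℝ 1 U := hU.of_le (by norm_cast)
  have hUd : ∀ z, DifferentiableAt ℝ U z := fun z => hU1.contDiffAt.differentiableAt (by norm_num)
  set m := (∫ z in D, rho φ z * (U z).re) / ∫ z in D, rho φ z with hm
  set a : ℂ → ℝ := fun z => (U z).re - m with ha
  set ψ : ℂ → ℝ := fun z => (U z).im with hψ
  have ca : ContDiff ℝ 2 a := (reCLM.contDiff.comp hU2).sub contDiff_const
  have cψ : ContDiff ℝ 2 ψ := imCLM.contDiff.comp hU2
  have ba : Bdd1 a := .of_contDiff (ca.of_le (by norm_num))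
  have bψ : Bdd1 ψ := .of_contDiff (cψ.of_le (by norm_num))
  have bU : BM U := .of_continuous hU.continuous
  have bD : BM (dD U) := .dD_of_contDiff hU1
  have bB : BM (dB U) := .dB_of_contDiff hU1
  have p1 := S.poincare2 ba.bdd2 (by
    simp only [ha, mul_sub]
    rw [integral_sub (T.int_rho_mul bU.re) (T.int_rho_mul (BM.const m)),
      integral_mul_const, hm, mul_div_cancel₀ _ T.integral_rho_pos.ne', sub_self])
  have p2 := h ψ cψ hU0
  have hre : ∀ z, DifferentiableAt ℝ (fun w => (U w).re) z := fun z =>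
    reCLM.differentiableAt.comp z (hUd z)
  have j1 := (ba.bm.2.1.sq.add ba.bm.2.2.sq).integrableOn
  have j2 := (bψ.bm.2.1.sq.add bψ.bm.2.2.sq).integrableOn
  have p3 : (∫ z in D, (dx a z ^ 2 + dy a z ^ 2)) + ∫ z in D, (dx ψ z ^ 2 + dy ψ z ^ 2) =
      ∫ z in D, ‖dD U z‖ ^ 2 := by
    have e := (UC.of_contDiff hU2 hU0).integral_dD_eq
    have e2 : ∫ z in D, ‖dD U z‖ ^ 2 = ∫ z in D, 1 / 2 * (‖dD U z‖ ^ 2 + ‖dB U z‖ ^ 2) := by
      rw [integral_const_mul, integral_add bD.norm.sq.integrableOn bB.norm.sq.integrableOn, ← e]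
      ring
    rw [e2, ← integral_add j1 j2]
    refine integral_congr_ae (Eventually.of_forall fun z => ?_)
    simp only [ha, hψ, dx_sub (hre z) (differentiableAt_const m),
      dy_sub (hre z) (differentiableAt_const m), dx_re (hUd z), dy_re (hUd z), dx_im (hUd z),
      dy_im (hUd z), dx_const, dy_const, dD, dB, Complex.sq_norm, normSq_apply]
    simp
    ring
  have k1 := integrableOn_mul_conj_re hv bD.memLp
  have k2 : IntegrableOn (fun z => (F z * conj (U z)).re) D := by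
    simp only [mul_comm (F _)]
    exact (bU.conj.mul_integrableOn hF1).re
  have p4 := hw U hU hU0
  simp only [add_re] at p4
  rw [integral_add k1 k2] at p4
  have k3 : IntegrableOn (fun z => m * (F z).re) D :=
    hF1.re.const_mul m
  have p5 : ∫ z in D, (v z * conj (dD U z)).re =
      ∫ z in D, (m * (F z).re - (F z * conj (U z)).re) := by
    rw [integral_sub k3 k2, integral_const_mul, h1]
    simp only [hF]
    linarith
  have l1 : IntegrableOn (fun z => 1 / (2 * μ) * ((F z).re ^ 2 / rho φ z)) D := iP.const_mul _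
  have l2 : IntegrableOn (fun z => μ / 2 * (rho φ z * a z ^ 2)) D :=
    (T.int_rho_mul ba.bm.1.sq).const_mul _
  have l3 : IntegrableOn (fun z => θ / (2 * μ) * ((F z).im ^ 2 / rho φ z)) D := iQ.const_mul _
  have l4 : IntegrableOn (fun z => μ / (2 * θ) * (rho φ z * ψ z ^ 2)) D :=
    (T.int_rho_mul bψ.bm.1.sq).const_mul _
  have p6 := setIntegral_mono_on (Integrable.sub' k3 k2)
    ((l1.fun_add l2).fun_add (l3.fun_add l4)) measurableSet_ball (fun z hz => by
      have hρ := T.rho_pos hz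
      have q1 := amgm_aux (F := (F z).re) (a := a z) (mul_pos hμ hρ)
      have q2 := amgm_aux (F := (F z).im) (a := ψ z) (div_pos (mul_pos hμ hρ) hθ0)
      have q3 : m * (F z).re - (F z * conj (U z)).re = -((F z).re * a z) + -((F z).im * ψ z) := by
        simp [ha, hψ]; ring
      rw [q3]
      refine (add_le_add q1 q2).trans (le_of_eq ?_)
      field_simp)
  rw [← p5, integral_add (l1.fun_add l2) (l3.fun_add l4), integral_add l1 l2, integral_add l3 l4,
    integral_const_mul, integral_const_mul, integral_const_mul, integral_const_mul, ← hP,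
    ← hQ] at p6
  have p7 : ∫ z in D, ‖v z - dD U z‖ ^ 2 = (∫ z in D, ‖v z‖ ^ 2) -
      2 * (∫ z in D, (v z * conj (dD U z)).re) + ∫ z in D, ‖dD U z‖ ^ 2 := by
    rw [← integral_const_mul, ← integral_sub (integrableOn_norm_sq hv) (k1.const_mul 2),
      ← integral_add (Integrable.sub' (integrableOn_norm_sq hv) (k1.const_mul 2))
        bD.norm.sq.integrableOn]
    refine integral_congr_ae (Eventually.of_forall fun z => ?_)
    simp only [Complex.sq_norm, normSq_sub]
    ring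
  have p8 : μ / (2 * θ) * ∫ z in D, rho φ z * ψ z ^ 2 ≤
      1 / 2 * ∫ z in D, (dx ψ z ^ 2 + dy ψ z ^ 2) := by
    have : μ / (2 * θ) * ∫ z in D, rho φ z * ψ z ^ 2 =
        1 / (2 * θ) * (μ * ∫ z in D, rho φ z * ψ z ^ 2) := by ring
    rw [this]
    refine (mul_le_mul_of_nonneg_left p2 (by positivity)).trans (le_of_eq ?_)
    field_simp
  have p9 : ∫ z in D, ‖v z‖ ^ 2 ≤ 1 / μ * P + θ / μ * Q + ε / μ := by
    have e1 : 1 / (2 * μ) * P = 1 / 2 * (1 / μ * P) := by field_simp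
    have e2 : θ / (2 * μ) * Q = 1 / 2 * (θ / μ * Q) := by field_simp
    linarith
  refine (mul_le_mul_of_nonneg_left p9 hμ.le).trans (le_of_eq ?_)
  field_simp

/-- Riesz bounds are inherited by rescaled weights. -/
lemma Riesz.scale {w w' : ℂ → ℝ} {τ B c r : ℝ} (h : Riesz w τ B) (hτ : 0 ≤ τ) (hc : 0 ≤ c)
    (hr : 0 < r) (hr1 : r ≤ 1) (hw : ∀ y, 0 ≤ w y) (hm : Measurable w') (h0 : ∀ y, 0 ≤ w' y)
    (hle : ∀ y ∈ D, w' y ≤ c * (r ^ 2 * w (r * y))) : Riesz w' τ (c * B) := by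
  intro x hx
  have hrx : (r : ℂ) * x ∈ Db := by
    rw [mem_closedBall_zero_iff] at hx ⊢
    rw [norm_mul, norm_real, Real.norm_of_nonneg hr.le]
    exact mul_le_one₀ hr1 (norm_nonneg _) hx
  obtain ⟨h1, h2⟩ := h _ hrx
  have i1 := ((integrableOn_ball_scale hr (h1.mono_set (ball_subset_ball hr1))).const_mul
    (r ^ 2)).const_mul c
  have hp : ∀ y ∈ D, w' y * ‖y - x‖ ^ (-τ) ≤
      c * (r ^ 2 * (w (r * y) * ‖(r : ℂ) * y - r * x‖ ^ (-τ))) := fun y hy => by
    have a1 : ‖y - x‖ ^ (-τ) ≤ ‖(r : ℂ) * y - r * x‖ ^ (-τ) := by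
      rw [← mul_sub, norm_mul, norm_real, Real.norm_of_nonneg hr.le,
        Real.mul_rpow hr.le (norm_nonneg _)]
      exact le_mul_of_one_le_left (Real.rpow_nonneg (norm_nonneg _) _)
        (Real.one_le_rpow_of_pos_of_le_one_of_nonpos hr hr1 (by linarith))
    have a2 := hw (r * y)
    refine (mul_le_mul (hle y hy) a1 (Real.rpow_nonneg (norm_nonneg _) _) (by positivity)).trans
      (le_of_eq (by ring))
  have i2 : IntegrableOn (fun y => w' y * ‖y - x‖ ^ (-τ)) D := by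
    refine i1.mono' (hm.mul ((measurable_id.sub_const x).norm.pow_const _)).aestronglyMeasurable
      (sl_ae_mem.mono fun y hy => ?_)
    rw [Real.norm_of_nonneg (mul_nonneg (h0 y) (Real.rpow_nonneg (norm_nonneg _) _))]
    exact hp y hy
  refine ⟨i2, (setIntegral_mono_on i2 i1 measurableSet_ball hp).trans ?_⟩
  rw [integral_const_mul, integral_const_mul, ← smul_eq_mul (r ^ 2),
    ← integral_ball_scale (fun y => w y * ‖y - r * x‖ ^ (-τ)) hr]
  refine mul_le_mul_of_nonneg_left (le_trans ?_ h2) hc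
  exact setIntegral_mono_set h1 (Eventually.of_forall fun y =>
    mul_nonneg (hw y) (Real.rpow_nonneg (norm_nonneg _) _)) (ball_subset_ball hr1).eventuallyLE

theorem exists_groundL (S : LSetup φ μ) : ∃ θ C η : ℝ, θ < 1 ∧ Unif φ μ θ C η ∧ Ground φ μ θ := by
  obtain ⟨θ, h0, h1, h⟩ := S.exists_contr
  have T := S.toLAn
  have hμ := S.mu_pos
  have h2 : ∀ r : ℝ, r < 1 → ∀ g : ℂ → ℝ, BM g → (∀ z ∈ D, 0 ≤ g z) →
      ∫ x in D, nuR φ μ r x * GR (fun y => nuR φ μ r y * g y) x ^ 2 ≤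
        θ ^ 2 * ∫ x in D, nuR φ μ r x * g x ^ 2 := fun r hr =>
    h _ (S.nuR_props hr).2.2.2 (S.nuR_props hr).1 fun z _ => (S.nuR_props hr).2.1 z
  have hp : ∀ r : ℝ, 0 < r → r < 1 → ∃ A, Pot (nu φ μ r) A θ := fun r hr hr1 =>
    S.pot h0 h1 hr hr1 (h2 r hr1)
  obtain ⟨η, B, η0, η1, hB, hN⟩ := S.kato
  obtain ⟨ε, hε, hc⟩ := cgt η0 η1
  obtain ⟨N, hN0, hN⟩ := hN (ε / μ) (by positivity)
  obtain ⟨C, hC, hc⟩ := hc (μ * B) (μ * N) θ
  have hb : ∀ r : ℝ, 0 < r → r < 1 → _ := fun r hr hr1 => hc _ _ (hp r hr hr1).choose_spec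
    (hB.scale η0.le hμ.le hr hr1.le (rho_nonneg φ) (measurable_nu φ μ r) (S.nu_nonneg r)
      fun y hy => by rw [nu_of_mem φ μ r hy]; exact le_of_eq (by ring))
    (by
      have c0 : ∀ {w : ℂ → ℝ} {N : ℝ}, (∀ y, 0 ≤ w y) → ∀ y, 0 ≤ cut w N y := fun hw y => by
        unfold cut; split_ifs
        exacts [hw y, le_rfl]
      have := hN.scale (w' := cut (nu φ μ r) (μ * N)) η0.le hμ.le hr hr1.le (c0 (rho_nonneg φ))
        (Measurable.ite (measurableSet_lt measurable_const (measurable_nu φ μ r))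
          (measurable_nu φ μ r) measurable_const) (c0 (S.nu_nonneg r)) fun y hy => by
          have a0 := c0 (N := N) (rho_nonneg φ) (r * y)
          by_cases hy' : μ * N < nu φ μ r y
          · rw [cut, if_pos hy']
            rw [nu_of_mem φ μ r hy] at hy' ⊢
            have a1 : r ^ 2 ≤ 1 := pow_le_one₀ hr.le hr1.le
            have a2 := mul_nonneg hμ.le (rho_nonneg φ (r * y))
            have a3 : N < rho φ (r * y) := lt_of_mul_lt_mul_left (by nlinarith) hμ.le
            rw [cut, if_pos a3]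
            exact le_of_eq (by ring)
          · rw [cut, if_neg hy']
            positivity
      rwa [mul_div_cancel₀ _ hμ.ne'] at this)
  refine ⟨θ, C, η, h1, ⟨η0, hC, hp, fun r hr hr1 => (hb r hr hr1).1,
    fun r hr hr1 => (hb r hr hr1).2⟩, S.ground h0 fun ψ hψ hψ0 => ?_⟩
  have t := (tendsto_setIntegral_ball
    (T.int_rho_mul (BM.of_continuous hψ.continuous).sq)).const_mul μ
  refine le_of_tendsto t ?_
  filter_upwards [self_mem_nhdsWithin] with r hr
  refine le_trans (le_of_eq ?_)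
    (dirichlet_weight (S.nuR_props hr).2.2.2 (S.nuR_props hr).1 h0 (h2 r hr) hψ hψ0)
  rw [← integral_const_mul, ← inter_eq_right.2 (ball_subset_ball (le_of_lt hr) : _ ⊆ D),
    ← setIntegral_indicator measurableSet_ball]
  refine integral_congr_ae (Eventually.of_forall fun z => ?_)
  by_cases hz : z ∈ ball (0 : ℂ) r <;> simp [nuR, hz, mul_assoc]

end Vale.Agent.P071
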