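import Vale.Agent.P071L.Reg
import Vale.Agent.P071.ModeZeroAux

/-!
# Zero modes have multiplicity at most two
-/

open Complex Metric Set Filter Topology MeasureTheory
open scoped ContDiff ComplexConjugate Real

namespace Vale.Agent.P071

variable {φ : ℂ → ℂ} {μ θ : ℝ}

/-- Dominated convergence along `d → 0+`. -/
lemma mzL_dct {F : ℝ → ℂ → ℝ} {f g : ℂ → ℝ} (hg : IntegrableOn g D)
    (hm : ∀ d, 0 < d → ContinuousOn (F d) D)
    (hb : ∀ᵐ z ∂(volume.restrict D), ∀ d, 0 < d → |F d z| ≤ g z)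
    (hl : ∀ z ∈ D, Tendsto (fun d => F d z) (𝓝[>] 0) (𝓝 (f z))) :
    Tendsto (fun d => ∫ z in D, F d z) (𝓝[>] 0) (𝓝 (∫ z in D, f z)) := by
  refine tendsto_integral_filter_of_dominated_convergence g ?_ ?_ hg (sl_ae_mem.mono hl)
  · filter_upwards [self_mem_nhdsWithin] with d hd
    exact sl_aesm (hm d hd)
  · filter_upwards [self_mem_nhdsWithin] with d hd
    exact hb.mono fun z hz => hz d hd

lemma mzL_riesz_smul {w : ℂ → ℝ} {τ B K : ℝ} (hK : 0 ≤ K) (h : Riesz w τ B) :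
    Riesz (fun y => K * w y) τ (K * B) := by
  intro x hx
  obtain ⟨h1, h2⟩ := h x hx
  simp only [mul_assoc]
  refine ⟨h1.const_mul K, ?_⟩
  rw [integral_const_mul]
  exact mul_le_mul_of_nonneg_left h2 hK

lemma mzL_contV {a : ℂ → ℝ} (ha : ContDiffOn ℝ ∞ a D) :
    ContinuousOn (dD fun w => (a w : ℂ)) D := fun _ hz =>
  (contDiffAt_dD (m := 0) (contDiffAt_ofReal' (sl_contDiffAt ha hz))
    (by norm_cast)).continuousAt.continuousWithinAt

lemma mzL_diff {a : ℂ → ℝ} (ha : ContDiffOn ℝ ∞ a D) {z : ℂ} (hz : z ∈ D) :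
    DifferentiableAt ℝ a z := (sl_contDiffAt ha hz).differentiableAt (by simp)

lemma mzL_contFR (S : LAn φ) {a : ℂ → ℝ} (ha : ContDiffOn ℝ ∞ a D) :
    ContinuousOn (FR φ μ a) D := by
  have c2 : ContinuousOn (rho φ) D := fun z hz => (S.continuousAt_rho hz).continuousWithinAt
  exact ((continuousOn_const.mul c2).mul ha.continuousOn).neg

lemma mzL_FR_le (hμ : 0 < μ) {a : ℂ → ℝ} {M : ℝ} (hM : ∀ z ∈ D, |a z| ≤ M) {y : ℂ} (hy : y ∈ D) :
    |FR φ μ a y| ≤ μ * M * rho φ y := by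
  have h0 := rho_nonneg φ y
  rw [FR, abs_neg, abs_mul, abs_of_nonneg (by positivity), mul_right_comm μ M]
  exact mul_le_mul_of_nonneg_left (hM y hy) (by positivity)

/-- Decay of the potential and of the field at the point one. -/
lemma mzL_decay (S : LSetup φ μ) {v Φ : ℂ → ℂ} {a : ℂ → ℝ} (hm : LMode φ μ v Φ a)
    (ha : ∀ z ∈ D, a z = NN (FR φ μ a) z - NN (FR φ μ a) 1) (hV : VT φ μ a 1 = 0) :
    ∃ (W : ℂ → ℝ) (C : ℝ), MemLp W 2 (volume.restrict D) ∧
      IntegrableOn (fun z => W z * ‖z - 1‖⁻¹) D ∧ (∀ z ∈ D, |a z| ≤ C * ‖z - 1‖) ∧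
      ∀ᵐ z ∂(volume.restrict D), ‖dD (fun w => (a w : ℂ)) z‖ ≤ ‖z - 1‖ * W z ∧
        |a z| ≤ ‖z - 1‖ ^ 2 * W z := by
  obtain ⟨M, hM⟩ := hm.bdd
  have hM0 : 0 ≤ M := (abs_nonneg _).trans (hM 0 (by simp))
  have hμ := S.mu_pos
  obtain ⟨τ, B, h0, h1, hR⟩ := S.good
  have hR' := mzL_riesz_smul (K := μ * M) (by positivity) hR
  simp only [← mul_assoc] at hR'
  have mw : Measurable fun y => μ * M * rho φ y := (measurable_rho φ).const_mul _
  obtain ⟨-, ⟨C, hC⟩, h3⟩ := NN_taylor (w := fun y => μ * M * rho φ y) hR' h0 h1 mw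
    (sl_aesm (mzL_contFR S.toLAn hm.smooth)) fun y hy => mzL_FR_le hμ hM hy
  obtain ⟨k1, k2, k3⟩ := hR'.memLp_pot h0 h1 (mw.mul (by fun_prop)) fun y _ => by
    have := rho_nonneg φ y
    positivity
  refine ⟨_, C, k2, k3 1 (by simp), fun z hz => by rw [ha z hz]; exact hC z hz, ?_⟩
  filter_upwards [k1, sl_ae_mem, hm.TT_eq] with z hz1 hz hz2
  obtain ⟨h4, h5⟩ := h3 z hz hz1
  have hV' : TT (fun y => (FR φ μ a y : ℂ)) 1 = 0 := hV
  rw [hV', sub_zero] at h4
  rw [hV', zero_mul, zero_re, sub_zero, ← ha z hz] at h5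
  exact ⟨by rw [hz2]; exact h4, h5⟩

theorem lmode_eq_zero (S : LSetup φ μ) (hθ : θ < 1) (hG : Ground φ μ θ) {v Φ : ℂ → ℂ}
    (h : Adm φ v Φ) {a : ℂ → ℝ} (hm : LMode φ μ v Φ a)
    (ha : ∀ z ∈ D, a z = NN (FR φ μ a) z - NN (FR φ μ a) 1) (hV : VT φ μ a 1 = 0) :
    ∀ z ∈ D, a z = 0 := by
  obtain ⟨W, C, lW, iW, hC, hH⟩ := mzL_decay S hm ha hV
  have hμ := S.mu_pos
  have hC0 : 0 ≤ C := by simpa using (abs_nonneg _).trans (hC 0 (by simp))
  set V : ℂ → ℂ := dD fun w => (a w : ℂ) with hVd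
  set P : ℂ → ℂ := fun z => (FR φ μ a z : ℂ) with hP
  set Ψ : ℂ → ℂ := fun z => P z / deriv φ z with hΨ
  have hPΨ : ∀ z ∈ D, deriv φ z * Ψ z = P z := fun z hz => by
    rw [hΨ]
    exact mul_div_cancel₀ _ (S.ne z hz)
  have h1 : Adm φ V Ψ := by
    refine h.congr hm.v_eq ?_
    filter_upwards [hm.F_eq, sl_ae_mem] with z h1 hz
    rw [hΨ]
    simp only [hP]
    rw [← h1, mul_div_cancel_left₀ _ (S.ne z hz)]
  have cV : ContinuousOn V D := mzL_contV hm.smooth
  have ca : ContinuousOn (fun z => (a z : ℂ)) D :=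
    continuous_ofReal.comp_continuousOn hm.smooth.continuousOn
  have cP : ContinuousOn P D := continuous_ofReal.comp_continuousOn (mzL_contFR S.toLAn hm.smooth)
  have cφ : ContinuousOn (deriv φ) D := fun z hz =>
    (S.analyticAt_deriv hz).continuousAt.continuousWithinAt
  have da : ∀ z ∈ D, DifferentiableAt ℝ (fun w => (a w : ℂ)) z := fun z hz =>
    differentiableAt_ofReal' (mzL_diff hm.smooth hz)
  have iW2 : IntegrableOn (fun z => W z ^ 2) D := (memLp_two_iff_integrable_sq lW.1).1 lW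
  have iW1 : IntegrableOn W D := integrableOn_of_memLp lW
  have iρ := S.integrableOn_rho
  -- pointwise bounds
  set G : ℂ → Prop := fun z => z ∈ D ∧ ‖V z‖ ≤ ‖z - 1‖ * W z ∧ |a z| ≤ ‖z - 1‖ ^ 2 * W z with hGd
  have aG : ∀ᵐ z ∂(volume.restrict D), G z := sl_ae_mem.and hH
  have P1 : ∀ z, G z → ∀ u : ℂ, ‖u‖ ≤ 2 * mzT z ^ 2 → ‖u * V z‖ ≤ 2 * W z := by
    intro z hz u hu
    have := mz_norm_pos hz.1
    rw [mzT_sq] at hu
    calc ‖u * V z‖ = ‖u‖ * ‖V z‖ := norm_mul _ _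
      _ ≤ 2 * ‖z - 1‖⁻¹ * (‖z - 1‖ * W z) := by gcongr; exact hz.2.1
      _ = 2 * W z := by field_simp
  have P2 : ∀ z, G z → ∀ u : ℂ, ‖u‖ ≤ 8 * mzT z ^ 4 → ‖u * a z‖ ≤ 8 * W z := by
    intro z hz u hu
    have := mz_norm_pos hz.1
    rw [mzT_four] at hu
    calc ‖u * a z‖ = ‖u‖ * |a z| := by rw [norm_mul, norm_real, Real.norm_eq_abs]
      _ ≤ 8 * (‖z - 1‖ ^ 2)⁻¹ * (‖z - 1‖ ^ 2 * W z) := by gcongr; exact hz.2.2
      _ = 8 * W z := by field_simp
  have P3 : ∀ z ∈ D, ∀ u : ℂ, ‖u‖ ≤ 2 * mzT z ^ 2 → ‖u * a z‖ ≤ 2 * C := by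
    intro z hz u hu
    have := mz_norm_pos hz
    rw [mzT_sq] at hu
    calc ‖u * a z‖ = ‖u‖ * |a z| := by rw [norm_mul, norm_real, Real.norm_eq_abs]
      _ ≤ 2 * ‖z - 1‖⁻¹ * (C * ‖z - 1‖) := by gcongr; exact hC z hz
      _ = 2 * C := by field_simp
  have P4 : ∀ z, G z → ∀ u : ℂ, ‖u‖ ≤ 8 * mzT z ^ 4 → ‖u * V z‖ ≤ 8 * (W z * ‖z - 1‖⁻¹) := by
    intro z hz u hu
    have := mz_norm_pos hz.1
    rw [mzT_four] at hu
    calc ‖u * V z‖ = ‖u‖ * ‖V z‖ := norm_mul _ _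
      _ ≤ 8 * (‖z - 1‖ ^ 2)⁻¹ * (‖z - 1‖ * W z) := by gcongr; exact hz.2.1
      _ = 8 * (W z * ‖z - 1‖⁻¹) := by field_simp
  have P5 : ∀ z ∈ D, ∀ u : ℂ, ‖u‖ ≤ 2 * mzT z ^ 2 → ‖u * P z‖ ≤ μ * (2 * C) * rho φ z := by
    intro z hz u hu
    have e : u * P z = -((μ * rho φ z : ℝ) * (u * a z)) := by simp only [hP, FR]; push_cast; ring
    have h2 := rho_nonneg φ z
    rw [e, norm_neg, norm_mul, norm_real, Real.norm_of_nonneg (by positivity), mul_right_comm μ]
    gcongr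
    exact P3 z hz u hu
  have lf : MemLp (fun z => mzH z * V z) 2 (volume.restrict D) :=
    (lW.const_mul 2).mono' (sl_aesm (mzH_continuousOn.mul cV))
      (aG.mono fun z hz => P1 z hz _ (mzH_le hz.1))
  have lg : MemLp (fun z => mzH' z * a z) 2 (volume.restrict D) :=
    (lW.const_mul 8).mono' (sl_aesm (mzH'_continuousOn.mul ca))
      (aG.mono fun z hz => P2 z hz _ (mzH'_le z))
  have lw : MemLp (fun z => mzH z * Ψ z) 2 (volume.restrict D) := by
    refine (S.memLp_deriv.norm.const_mul (μ * (2 * C))).mono'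
      (sl_aesm (mzH_continuousOn.mul (cP.div cφ S.ne))) (sl_ae_mem.mono fun z hz => ?_)
    have h2 := norm_pos_iff.2 (S.ne z hz)
    have h3 := P5 z hz _ (mzH_le hz)
    simp only [hΨ]
    rw [← mul_div_assoc, norm_div, div_le_iff₀ h2, mul_assoc _ ‖deriv φ z‖, ← pow_two]
    exact h3
  -- the multiplied pair is admissible
  have h2 : Adm φ (fun z => mzH z * V z) (fun z => mzH z * Ψ z) := by
    refine ⟨lf, lw, fun U hU => ?_⟩
    obtain ⟨M, hM⟩ := hU.bdd
    have hM0 : 0 ≤ M := (norm_nonneg _).trans (hM 0 (by simp)).1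
    have cU : ContinuousOn (fun z => conj (U z)) D := hU.conj.continuousOn
    have cD : ContinuousOn (fun z => conj (dD U z)) D :=
      continuous_conj.comp_continuousOn hU.continuousOn_dD
    have key := mzL_dct (F := fun d z => (mzM d z * V z * conj (dD U z) +
        (mzM d z * P z + dB (mzM d) z * V z) * conj (U z)).re)
      (f := fun z => (mzH z * V z * conj (dD U z) + mzH z * P z * conj (U z)).re)
      (g := fun z => 2 * W z * (2 * M) + (μ * (2 * C) * rho φ z + 8 * (W z * ‖z - 1‖⁻¹)) * M)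
      (((iW1.const_mul 2).mul_const _).add (((iρ.const_mul _).add (iW.const_mul 8)).mul_const M))
      (fun d hd => continuous_re.comp_continuousOn
        ((((mzM_UC hd).continuousOn.mul cV).mul cD).add ((((mzM_UC hd).continuousOn.mul cP).add
          ((mzM_UC hd).continuousOn_dB.mul cV)).mul cU)))
      (aG.mono fun z hz d hd => by
        have b1 := P1 z hz _ (mzM_le hd hz.1)
        have b2 := P5 z hz.1 _ (mzM_le hd hz.1)
        have b3 := P4 z hz _ (mz_dB_le hd hz.1)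
        have b4 : ‖dD U z‖ ≤ 2 * M := by linarith [norm_dD_le U z, (hM z hz.1).2.1]
        have b5 := (norm_add_le _ _).trans (add_le_add b2 b3)
        refine (abs_re_le_norm _).trans ((norm_add_le _ _).trans ?_)
        rw [norm_mul _ (conj _), norm_mul _ (conj _), norm_conj, norm_conj]
        exact add_le_add (mul_le_mul b1 b4 (norm_nonneg _) ((norm_nonneg _).trans b1))
          (mul_le_mul b5 (hM z hz.1).1 (norm_nonneg _) ((norm_nonneg _).trans b5)))
      (fun z hz => by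
        have t1 := mzM_tendsto hz
        have t2 := mz_dB_tendsto hz
        have t3 := (((t1.mul_const (V z)).mul_const (conj (dD U z))).add
          (((t1.mul_const (P z)).add (t2.mul_const (V z))).mul_const (conj (U z))))
        rw [zero_mul, add_zero] at t3
        exact (continuous_re.tendsto _).comp t3)
    have key2 := tendsto_nhds_unique key ((tendsto_const_nhds (x := (0 : ℝ))).congr' (by
      filter_upwards [self_mem_nhdsWithin] with d hd
      rw [← h1.eq _ ((mzM_UC hd).conj.mul hU)]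
      refine setIntegral_congr_fun measurableSet_ball fun z hz => ?_
      have d1 := (mzM_UC hd).differentiableAt hz
      have d2 := hU.differentiableAt hz
      rw [dD_mul (differentiableAt_conj' d1) d2, dD_conj d1, hPΨ z hz]
      congr 1
      simp only [map_add, map_mul, conj_conj]
      ring))
    rw [← key2]
    refine setIntegral_congr_fun measurableSet_ball fun z hz => ?_
    rw [← hPΨ z hz, mul_left_comm (deriv φ z)]
  -- the test functions
  have hU : ∀ d, 0 < d → UH fun z => mzM d z * a z := fun d hd =>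
    UH.of_mul (mzM_UC hd) hm.smooth hm.bdd h1.l2v
  have eD : ∀ d, 0 < d → ∀ z ∈ D,
      dD (fun z => mzM d z * a z) z = mzM d z * V z + dD (mzM d) z * a z := by
    intro d hd z hz
    rw [dD_mul ((mzM_UC hd).differentiableAt hz) (da z hz), add_comm]
  have eB : ∀ d, 0 < d → ∀ z ∈ D,
      dB (fun z => mzM d z * a z) z = mzM d z * conj (V z) + dB (mzM d) z * a z := by
    intro d hd z hz
    rw [dB_mul ((mzM_UC hd).differentiableAt hz) (da z hz),
      dB_ofReal_eq_conj (mzL_diff hm.smooth hz), add_comm]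
  have cD : ∀ d, 0 < d → ContinuousOn (dD fun z => mzM d z * a z) D := fun d hd =>
    (((mzM_UC hd).continuousOn.mul cV).add ((mzM_UC hd).continuousOn_dD.mul ca)).congr (eD d hd)
  have cB : ∀ d, 0 < d → ContinuousOn (dB fun z => mzM d z * a z) D := fun d hd =>
    (((mzM_UC hd).continuousOn.mul (continuous_conj.comp_continuousOn cV)).add
      ((mzM_UC hd).continuousOn_dB.mul ca)).congr (eB d hd)
  have bD : ∀ d, 0 < d → ∀ z, G z → ‖dD (fun z => mzM d z * a z) z‖ ≤ 10 * W z := by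
    intro d hd z hz
    rw [eD d hd z hz.1]
    refine (norm_add_le _ _).trans ?_
    linarith [P1 z hz _ (mzM_le hd hz.1), P2 z hz _ (mz_dD_le hd hz.1)]
  have bB : ∀ d, 0 < d → ∀ z, G z → ‖dB (fun z => mzM d z * a z) z‖ ≤ 10 * W z := by
    intro d hd z hz
    rw [eB d hd z hz.1]
    refine (norm_add_le _ _).trans ?_
    have := P1 z hz _ (mzM_le hd hz.1)
    rw [norm_mul] at this
    rw [norm_mul, norm_conj]
    linarith [P2 z hz _ (mz_dB_le hd hz.1)]
  have tD : ∀ z ∈ D, Tendsto (fun d => dD (fun z => mzM d z * a z) z) (𝓝[>] 0)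
      (𝓝 (mzH z * V z + (2 : ℝ) * (mzH' z * a z))) := by
    intro z hz
    have t := ((mzM_tendsto hz).mul_const (V z)).add ((mz_dD_tendsto hz).mul_const (a z : ℂ))
    rw [mul_assoc] at t
    refine t.congr' ?_
    filter_upwards [self_mem_nhdsWithin] with d hd
    exact (eD d hd z hz).symm
  have tB : ∀ z ∈ D, Tendsto (fun d => dB (fun z => mzM d z * a z) z) (𝓝[>] 0)
      (𝓝 (mzH z * conj (V z))) := by
    intro z hz
    have t := ((mzM_tendsto hz).mul_const (conj (V z))).add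
      ((mz_dB_tendsto hz).mul_const (a z : ℂ))
    rw [zero_mul, add_zero] at t
    refine t.congr' ?_
    filter_upwards [self_mem_nhdsWithin] with d hd
    exact (eB d hd z hz).symm
  have sq : ∀ z, ∀ x : ℂ, ‖x‖ ≤ 10 * W z → |‖x‖ ^ 2| ≤ 100 * W z ^ 2 := by
    intro z x hx
    rw [abs_of_nonneg (sq_nonneg _)]
    refine (pow_le_pow_left₀ (norm_nonneg _) hx 2).trans (le_of_eq (by ring))
  have k1 := mzL_dct (F := fun d z => ‖dD (fun z => mzM d z * a z) z‖ ^ 2) (iW2.const_mul 100)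
    (fun d hd => (cD d hd).norm.pow 2)
    (aG.mono fun z hz d hd => sq z _ (bD d hd z hz)) (fun z hz => (tD z hz).norm.pow 2)
  have k2 := mzL_dct (F := fun d z => ‖dB (fun z => mzM d z * a z) z‖ ^ 2) (iW2.const_mul 100)
    (fun d hd => (cB d hd).norm.pow 2)
    (aG.mono fun z hz d hd => sq z _ (bB d hd z hz)) (fun z hz => (tB z hz).norm.pow 2)
  have k3 := tendsto_nhds_unique k1 (k2.congr' (by
    filter_upwards [self_mem_nhdsWithin] with d hd
    exact (hU d hd).integral_dD_eq.symm))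
  have e1 : ∀ z, ‖mzH z * conj (V z)‖ = ‖mzH z * V z‖ := fun z => by
    rw [norm_mul, norm_mul, norm_conj]
  simp only [e1] at k3
  rw [sl_integral_norm_add_sq lf lg] at k3
  have k4 := mzL_dct (F := fun d z => (mzH z * V z * conj (dD (fun z => mzM d z * a z) z) +
      deriv φ z * (mzH z * Ψ z) * conj (mzM d z * a z)).re)
    (f := fun z => (mzH z * V z * conj (mzH z * V z + (2 : ℝ) * (mzH' z * a z)) +
      deriv φ z * (mzH z * Ψ z) * conj (mzH z * a z)).re)
    (g := fun z => 20 * W z ^ 2 + μ * (2 * C) * rho φ z * (2 * C))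
    (by exact (iW2.const_mul 20).add ((iρ.const_mul (μ * (2 * C))).mul_const (2 * C)))
    (fun d hd => continuous_re.comp_continuousOn (((mzH_continuousOn.mul cV).mul
      (continuous_conj.comp_continuousOn (cD d hd))).add
      ((cφ.mul (mzH_continuousOn.mul (cP.div cφ S.ne))).mul
        (continuous_conj.comp_continuousOn ((mzM_UC hd).continuousOn.mul ca)))))
    (aG.mono fun z hz d hd => by
      have e : deriv φ z * (mzH z * Ψ z) = mzH z * P z := by rw [← hPΨ z hz.1]; ring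
      have a1 := P1 z hz _ (mzH_le hz.1)
      have a2 := P5 z hz.1 _ (mzH_le hz.1)
      have b1 := mul_le_mul a1 (bD d hd z hz) (norm_nonneg _) ((norm_nonneg _).trans a1)
      have b2 := mul_le_mul a2 (P3 z hz.1 _ (mzM_le hd hz.1)) (norm_nonneg _)
        ((norm_nonneg _).trans a2)
      refine (abs_re_le_norm _).trans ((norm_add_le _ _).trans ?_)
      rw [e, norm_mul _ (conj _), norm_mul _ (conj _), norm_conj, norm_conj]
      linarith)
    (fun z hz => by
      have t1 := (continuous_conj.tendsto _).comp (tD z hz)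
      have t2 := (continuous_conj.tendsto _).comp ((mzM_tendsto hz).mul_const (a z : ℂ))
      exact (continuous_re.tendsto _).comp
        ((t1.const_mul (mzH z * V z)).add (t2.const_mul (deriv φ z * (mzH z * Ψ z)))))
  have k5 := tendsto_nhds_unique k4 (tendsto_const_nhds.congr' (by
    filter_upwards [self_mem_nhdsWithin] with d hd
    exact (h2.eq_UH S.toLAn (hU d hd)).symm))
  have e2 : ∀ z ∈ D, (mzH z * V z * conj (mzH z * V z + (2 : ℝ) * (mzH' z * a z)) +
      deriv φ z * (mzH z * Ψ z) * conj (mzH z * a z)).re =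
      ‖mzH z * V z‖ ^ 2 + 2 * (mzH z * V z * conj (mzH' z * a z)).re -
        μ⁻¹ * ‖mzH z * Ψ z‖ ^ 2 := by
    intro z hz
    have e : deriv φ z * (mzH z * Ψ z) = mzH z * P z := by rw [← hPΨ z hz]; ring
    have r0 := (S.rho_pos hz).ne'
    have e3 : ‖mzH z * Ψ z‖ ^ 2 = μ ^ 2 * rho φ z * (‖mzH z‖ ^ 2 * a z ^ 2) := by
      have e4 : ‖Ψ z‖ ^ 2 = (μ * rho φ z * a z) ^ 2 / rho φ z := by
        simp only [hΨ, hP, FR]
        rw [norm_div, div_pow, norm_real, norm_neg, Real.norm_eq_abs, sq_abs]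
        rfl
      rw [norm_mul, mul_pow, e4]
      field_simp
    have e5 : (mzH z * P z * conj (mzH z * a z)).re =
        -(μ * rho φ z * (‖mzH z‖ ^ 2 * a z ^ 2)) := by
      have e6 : mzH z * P z * conj (mzH z * a z) =
          ((-(μ * rho φ z * a z ^ 2) : ℝ) : ℂ) * (mzH z * conj (mzH z)) := by
        simp only [hP, FR, map_mul, conj_ofReal]
        push_cast
        ring
      rw [e6, re_ofReal_mul, sl_re_mul_conj_self]
      ring
    rw [e, add_re, e5, e3, map_add, mul_add, add_re, sl_re_mul_conj_self, map_mul, conj_ofReal,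
      mul_left_comm, re_ofReal_mul]
    field_simp
    ring
  have i1 := sl_integrable_norm_sq lf
  have i2 := (sl_integrable_re_mul_conj lf lg).const_mul 2
  have i3 := (sl_integrable_norm_sq lw).const_mul μ⁻¹
  have i4 : Integrable (fun z => ‖mzH z * V z‖ ^ 2 + 2 * (mzH z * V z * conj (mzH' z * a z)).re)
      (volume.restrict D) := i1.add i2
  rw [setIntegral_congr_fun measurableSet_ball e2, integral_sub i4 i3, integral_add i1 i2,
    integral_const_mul, integral_const_mul] at k5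
  have k6 := hG.EB_nonnegL S.toLAn hθ.le h2
  rw [sl_EB_self] at k6
  set A := ∫ z in D, ‖mzH z * V z‖ ^ 2
  set B := ∫ z in D, (mzH z * V z * conj (mzH' z * a z)).re
  set W' := ∫ z in D, ‖mzH z * Ψ z‖ ^ 2
  set E := ∫ z in D, ‖mzH' z * a z‖ ^ 2 with hE
  have k7 : W' = μ * (A + 2 * B) := by
    have : μ⁻¹ * W' = A + 2 * B := by linarith
    rw [← this]
    field_simp
  have k8 : E ≤ 0 := by
    have : μ * E ≤ 0 := by nlinarith
    exact nonpos_of_mul_nonpos_right this hμ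
  have k9 : E = 0 := le_antisymm k8 (integral_nonneg fun _ => sq_nonneg _)
  rw [hE, integral_eq_zero_iff_of_nonneg (fun _ => sq_nonneg _) (sl_integrable_norm_sq lg)] at k9
  have k10 : a =ᵐ[volume.restrict D] fun _ => 0 := by
    filter_upwards [k9, sl_ae_mem] with z h0 hz
    have h3 : mzH' z ≠ 0 :=
      div_ne_zero (mul_ne_zero two_ne_zero I_ne_zero) (pow_ne_zero 2 (mz_ne hz))
    simpa [h3] using h0
  exact Measure.eqOn_open_of_ae_eq k10 isOpen_ball hm.smooth.continuousOn continuousOn_const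

/-- The integrand of the logarithmic potential is integrable on the closed disc. -/
lemma mzL_NN_int (S : LAn φ) {F : ℂ → ℝ} (hF : AEStronglyMeasurable F (volume.restrict D)) {K : ℝ}
    (hK : ∀ y ∈ D, |F y| ≤ K * rho φ y) {z : ℂ} (hz : z ∈ Db) :
    IntegrableOn (fun y => (Real.log ‖z - y‖ + Real.log ‖1 - z * conj y‖) / (2 * π) * F y) D := by
  obtain ⟨η, B, h0, h1, hR, -⟩ := S.kato
  have hm : Measurable fun y : ℂ => (Real.log ‖z - y‖ + Real.log ‖1 - z * conj y‖) / (2 * π) := by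
    have := regT_meas_conj
    fun_prop
  refine ((hR z hz).1.const_mul (4 / η * K)).mono' (hm.aestronglyMeasurable.mul hF) ?_
  filter_upwards [regT_ae_mem, mD.ae_ne z] with y hy hne
  have hd : 0 < ‖z - y‖ := norm_pos_iff.2 (sub_ne_zero.2 hne.symm)
  have a1 := regT_norm_sub_le hz (regT_D_sub hy)
  have a2 : ‖1 - z * conj y‖ ≤ 2 := by
    refine (norm_sub_le _ _).trans ?_
    rw [norm_one, norm_mul, Complex.norm_conj]
    nlinarith [regT_norm_le hz, regT_norm_lt hy, norm_nonneg z, norm_nonneg y]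
  have b1 := sing_log h0 h1 hd (a1.trans a2)
  have b2 := sing_log h0 h1 (hd.trans_le a1) a2
  have b3 : ‖1 - z * conj y‖ ^ (-η) ≤ ‖z - y‖ ^ (-η) :=
    Real.rpow_le_rpow_of_nonpos hd a1 (by linarith)
  have b4 : 2 / η * ‖1 - z * conj y‖ ^ (-η) ≤ 2 / η * ‖z - y‖ ^ (-η) := by gcongr
  have b5 : |(Real.log ‖z - y‖ + Real.log ‖1 - z * conj y‖) / (2 * π)| ≤
      4 / η * ‖z - y‖ ^ (-η) := by
    rw [abs_div, abs_of_pos (show 0 < 2 * π by positivity)]
    refine (div_le_self (abs_nonneg _) (by linarith [Real.pi_gt_three])).trans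
      ((abs_add_le _ _).trans ?_)
    have : 4 / η * ‖z - y‖ ^ (-η) = 2 / η * ‖z - y‖ ^ (-η) + 2 / η * ‖z - y‖ ^ (-η) := by ring
    linarith
  rw [Real.norm_eq_abs, abs_mul, norm_sub_rev y z]
  refine (mul_le_mul b5 (hK y hy) (abs_nonneg _) (by positivity)).trans (le_of_eq (by ring))

lemma mzL_FR_add (a a' : ℂ → ℝ) :
    FR φ μ (fun z => a z + a' z) = fun y => FR φ μ a y + FR φ μ a' y := by
  funext y
  simp only [FR]
  ring

lemma mzL_FR_smul (a : ℂ → ℝ) (t : ℝ) :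
    FR φ μ (fun z => t * a z) = fun y => t * FR φ μ a y := by
  funext y
  simp only [FR]
  ring

lemma mzL_NN_add (S : LSetup φ μ) {v Φ v' Φ' : ℂ → ℂ} {a a' : ℂ → ℝ} (h : LMode φ μ v Φ a)
    (h' : LMode φ μ v' Φ' a') {z : ℂ} (hz : z ∈ Db) :
    NN (FR φ μ fun z => a z + a' z) z = NN (FR φ μ a) z + NN (FR φ μ a') z := by
  obtain ⟨M, hM⟩ := h.bdd
  obtain ⟨M', hM'⟩ := h'.bdd
  have i1 := mzL_NN_int S.toLAn (sl_aesm (mzL_contFR (μ := μ) S.toLAn h.smooth))
    (fun y hy => mzL_FR_le S.mu_pos hM hy) hz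
  have i2 := mzL_NN_int S.toLAn (sl_aesm (mzL_contFR (μ := μ) S.toLAn h'.smooth))
    (fun y hy => mzL_FR_le S.mu_pos hM' hy) hz
  rw [NN, NN, NN, ← integral_add i1 i2, mzL_FR_add]
  simp only [mul_add]

lemma mzL_NN_smul (a : ℂ → ℝ) (t : ℝ) (z : ℂ) :
    NN (FR φ μ fun z => t * a z) z = t * NN (FR φ μ a) z := by
  rw [NN, NN, ← integral_const_mul, mzL_FR_smul]
  simp only [mul_left_comm _ t]

lemma mzL_VT_smul (a : ℂ → ℝ) (t : ℝ) (z : ℂ) :
    VT φ μ (fun z => t * a z) z = t * VT φ μ a z := by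
  rw [VT, VT, TT, TT, ← integral_const_mul, mzL_FR_smul]
  congr 1
  funext y
  simp only [tau, ofReal_mul, map_mul, conj_ofReal]
  ring

lemma mzL_VT_add {a a' : ℂ → ℝ} {z : ℂ}
    (h : Integrable (tau (fun y => (FR φ μ a y : ℂ)) z) mD)
    (h' : Integrable (tau (fun y => (FR φ μ a' y : ℂ)) z) mD) :
    VT φ μ (fun z => a z + a' z) z = VT φ μ a z + VT φ μ a' z := by
  rw [VT, VT, VT, TT, TT, TT, ← integral_add h h', mzL_FR_add]
  congr 1
  funext y
  simp only [tau, ofReal_add, map_add]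
  ring

lemma mzL_FR_int (S : LSetup φ μ) {v Φ : ℂ → ℂ} {a : ℂ → ℝ} (h : LMode φ μ v Φ a) :
    IntegrableOn (FR φ μ a) D ∧ IntegrableOn (fun y => ‖(FR φ μ a y : ℂ)‖ * ‖1 - y‖⁻¹) D := by
  obtain ⟨M, hM⟩ := h.bdd
  have hm := sl_aesm (mzL_contFR (μ := μ) S.toLAn h.smooth)
  refine ⟨(S.integrableOn_rho.const_mul (μ * M)).mono' hm
    (sl_ae_mem.mono fun y hy => mzL_FR_le S.mu_pos hM hy), ?_⟩
  obtain ⟨τ, B, h0, h1, hR⟩ := S.good
  have hi := (hR.integrableOn h0.le h1 ((measurable_rho φ).mul (by fun_prop)) fun y _ => by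
    have := rho_nonneg φ y
    positivity).1
  refine (hi.const_mul (μ * M)).mono' ((continuous_ofReal.comp_aestronglyMeasurable hm).norm.mul
    (by fun_prop : Measurable fun y : ℂ => ‖1 - y‖⁻¹).aestronglyMeasurable)
    (sl_ae_mem.mono fun y hy => ?_)
  rw [Real.norm_of_nonneg (by positivity), norm_real, Real.norm_eq_abs, norm_sub_rev, ← mul_assoc]
  exact mul_le_mul_of_nonneg_right (mzL_FR_le S.mu_pos hM hy) (by positivity)

lemma mzL_tau_one (S : LSetup φ μ) {v Φ : ℂ → ℂ} {a : ℂ → ℝ} (h : LMode φ μ v Φ a) :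
    Integrable (tau (fun y => (FR φ μ a y : ℂ)) 1) mD := by
  obtain ⟨h1, h2⟩ := mzL_FR_int S h
  refine h2.mono' (regT_tau_meas_right h1.ofReal.1 1) ?_
  filter_upwards [regT_ae_mem, mD.ae_ne 1] with y hy hne
  rw [mul_comm]
  exact regT_tau_le _ (by simp) hy hne.symm

lemma LMode.add (S : LSetup φ μ) {v Φ v' Φ' : ℂ → ℂ} {a a' : ℂ → ℝ} (h : LMode φ μ v Φ a)
    (h' : LMode φ μ v' Φ' a') :
    LMode φ μ (fun z => v z + v' z) (fun z => Φ z + Φ' z) (fun z => a z + a' z) := by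
  have e : ∀ z ∈ D, dD (fun w => ((a w + a' w : ℝ) : ℂ)) z =
      dD (fun w => (a w : ℂ)) z + dD (fun w => (a' w : ℂ)) z := fun z hz => by
    simp only [ofReal_add]
    exact dD_add (differentiableAt_ofReal' (mzL_diff h.smooth hz))
      (differentiableAt_ofReal' (mzL_diff h'.smooth hz))
  refine ⟨h.smooth.add h'.smooth, ?_, fun z hz => ?_, ?_, ?_, ?_, ?_, ?_⟩
  · obtain ⟨M, hM⟩ := h.bdd
    obtain ⟨M', hM'⟩ := h'.bdd
    exact ⟨M + M', fun z hz => (abs_add_le _ _).trans (add_le_add (hM z hz) (hM' z hz))⟩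
  · rw [lap_add ((sl_contDiffAt h.smooth hz).of_le (by norm_cast))
      ((sl_contDiffAt h'.smooth hz).of_le (by norm_cast)), h.eq z hz, h'.eq z hz, mzL_FR_add]
  · rw [mzL_FR_add, integral_add (mzL_FR_int S h).1 (mzL_FR_int S h').1, h.mean, h'.mean, add_zero]
  · filter_upwards [h.v_eq, h'.v_eq, sl_ae_mem] with z h1 h2 hz
    rw [h1, h2, e z hz]
  · filter_upwards [h.F_eq, h'.F_eq] with z h1 h2
    rw [mul_add, h1, h2, mzL_FR_add, ofReal_add]
  · filter_upwards [h.TT_eq, h'.TT_eq, sl_ae_mem,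
      (regT_tau_int (mzL_FR_int S h).1.ofReal).prod_right_ae,
      (regT_tau_int (mzL_FR_int S h').1.ofReal).prod_right_ae] with z h1 h2 hz h3 h4
    rw [e z hz, h1, h2, mzL_VT_add h3 h4]
  · obtain ⟨c, hc⟩ := h.rep
    obtain ⟨c', hc'⟩ := h'.rep
    refine ⟨c + c', fun z hz => ?_⟩
    rw [mzL_NN_add S h h' (kern0_D_sub hz)]
    linarith [hc z hz, hc' z hz]

lemma LMode.smul {v Φ : ℂ → ℂ} {a : ℂ → ℝ} (h : LMode φ μ v Φ a) (t : ℝ) :
    LMode φ μ (fun z => t * v z) (fun z => t * Φ z) (fun z => t * a z) := by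
  have e : ∀ z ∈ D, dD (fun w => ((t * a w : ℝ) : ℂ)) z = t * dD (fun w => (a w : ℂ)) z :=
    fun z hz => by
      simp only [ofReal_mul]
      exact dD_const_mul _ (differentiableAt_ofReal' (mzL_diff h.smooth hz))
  refine ⟨contDiffOn_const.mul h.smooth, ?_, fun z hz => ?_, ?_, ?_, ?_, ?_, ?_⟩
  · obtain ⟨M, hM⟩ := h.bdd
    refine ⟨|t| * M, fun z hz => ?_⟩
    rw [abs_mul]
    exact mul_le_mul_of_nonneg_left (hM z hz) (abs_nonneg _)
  · rw [lap_mul contDiffAt_const ((sl_contDiffAt h.smooth hz).of_le (by norm_cast)), h.eq z hz,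
      mzL_FR_smul]
    simp
  · rw [mzL_FR_smul, integral_const_mul, h.mean, mul_zero]
  · filter_upwards [h.v_eq, sl_ae_mem] with z h1 hz
    rw [h1, e z hz]
  · filter_upwards [h.F_eq] with z h1
    rw [mul_left_comm, h1, mzL_FR_smul, ofReal_mul]
  · filter_upwards [h.TT_eq, sl_ae_mem] with z h1 hz
    rw [e z hz, h1, mzL_VT_smul]
  · obtain ⟨c, hc⟩ := h.rep
    refine ⟨t * c, fun z hz => ?_⟩
    rw [mzL_NN_smul, ← mul_add, ← hc z hz]

lemma mzL_VT_re (S : LSetup φ μ) {v Φ : ℂ → ℂ} {a : ℂ → ℝ} (h : LMode φ μ v Φ a) :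
    (VT φ μ a 1).re = 0 := by
  obtain ⟨h1, h2⟩ := mzL_FR_int S h
  have := TT_re_boundary (F := fun y => (FR φ μ a y : ℂ)) h1.ofReal
    (by simpa only [ofReal_re] using h.mean) (s := 1) (by simp) h2
  rwa [one_mul] at this

theorem three_dependentL (S : LSetup φ μ) (hθ : θ < 1) (hG : Ground φ μ θ)
    {v Φ : Fin 3 → ℂ → ℂ} (h : ∀ i, ZeroMode φ μ (v i) (Φ i)) :
    ∃ t : Fin 3 → ℝ, t ≠ 0 ∧ (∀ᵐ z ∂(volume.restrict D), ∑ i, (t i : ℂ) * v i z = 0) ∧
      ∀ᵐ z ∂(volume.restrict D), ∑ i, (t i : ℂ) * Φ i z = 0 := by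
  choose a hm using fun i => exists_lmode S hθ hG (h i)
  choose c hc using fun i => (hm i).rep
  let L : (Fin 3 → ℝ) →ₗ[ℝ] ℝ × ℝ :=
    { toFun := fun t => (t 0 * (c 0 + NN (FR φ μ (a 0)) 1) + t 1 * (c 1 + NN (FR φ μ (a 1)) 1) +
        t 2 * (c 2 + NN (FR φ μ (a 2)) 1),
        t 0 * (VT φ μ (a 0) 1).im + t 1 * (VT φ μ (a 1) 1).im + t 2 * (VT φ μ (a 2) 1).im)
      map_add' := fun s t => by
        ext <;> simp only [Pi.add_apply, Prod.fst_add, Prod.snd_add] <;> ring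
      map_smul' := fun s t => by
        ext <;> simp only [Pi.smul_apply, smul_eq_mul, Prod.smul_fst, Prod.smul_snd,
          RingHom.id_apply] <;> ring }
  have hL : LinearMap.ker L ≠ ⊥ := L.ker_ne_bot_of_finrank_lt (by simp)
  obtain ⟨t, ht, ht0⟩ := Submodule.exists_mem_ne_zero_of_ne_bot hL
  have ht1 : t 0 * (c 0 + NN (FR φ μ (a 0)) 1) + t 1 * (c 1 + NN (FR φ μ (a 1)) 1) +
        t 2 * (c 2 + NN (FR φ μ (a 2)) 1) = 0 := congrArg Prod.fst (LinearMap.mem_ker.mp ht)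
  have ht2 : t 0 * (VT φ μ (a 0) 1).im + t 1 * (VT φ μ (a 1) 1).im +
      t 2 * (VT φ μ (a 2) 1).im = 0 := congrArg Prod.snd (LinearMap.mem_ker.mp ht)
  have hA := (((h 0).adm.smul (t 0)).addL S.toLAn ((h 1).adm.smul (t 1))).addL S.toLAn
    ((h 2).adm.smul (t 2))
  have m0 := (hm 0).smul (t 0)
  have m1 := (hm 1).smul (t 1)
  have m2 := (hm 2).smul (t 2)
  have hM := (m0.add S m1).add S m2
  have eN : ∀ z ∈ Db, NN (FR φ μ fun z => t 0 * a 0 z + t 1 * a 1 z + t 2 * a 2 z) z =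
      t 0 * NN (FR φ μ (a 0)) z + t 1 * NN (FR φ μ (a 1)) z + t 2 * NN (FR φ μ (a 2)) z := by
    intro z hz
    rw [mzL_NN_add S (m0.add S m1) m2 hz, mzL_NN_add S m0 m1 hz, mzL_NN_smul, mzL_NN_smul,
      mzL_NN_smul]
  have hz := lmode_eq_zero S hθ hG hA hM (fun z hz => by
    rw [eN z (kern0_D_sub hz), eN 1 (by simp), hc 0 z hz, hc 1 z hz, hc 2 z hz]
    linarith) (by
    refine Complex.ext (mzL_VT_re S hM) ?_
    rw [mzL_VT_add (mzL_tau_one S (m0.add S m1)) (mzL_tau_one S m2),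
      mzL_VT_add (mzL_tau_one S m0) (mzL_tau_one S m1), mzL_VT_smul, mzL_VT_smul, mzL_VT_smul]
    simp only [add_im, im_ofReal_mul]
    exact ht2)
  refine ⟨t, ht0, ?_, ?_⟩
  · filter_upwards [hM.v_eq, sl_ae_mem] with z h1 hzD
    rw [Fin.sum_univ_three, h1]
    have h2 : (fun w => ((t 0 * a 0 w + t 1 * a 1 w + t 2 * a 2 w : ℝ) : ℂ)) =ᶠ[𝓝 z]
        fun _ => 0 := by
      filter_upwards [isOpen_ball.mem_nhds hzD] with w hw
      rw [hz w hw, ofReal_zero]
    rw [dD_congr h2, dD_const]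
  · filter_upwards [hM.F_eq, sl_ae_mem] with z h1 hzD
    rw [FR, hz z hzD, mul_zero, neg_zero, ofReal_zero] at h1
    rw [Fin.sum_univ_three]
    exact (mul_eq_zero.mp h1).resolve_left (S.ne z hzD)

end Vale.Agent.P071
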