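import Vale.Agent.P071L.Poincare

/-!
# Transfer of the Neumann problem to the disc
-/

open Complex Metric Set Filter Topology MeasureTheory
open scoped ContDiff ComplexConjugate Real

namespace Vale.Agent.P071

variable {Ω : Set ℂ} {p : ℂ} {φ ψ : ℂ → ℂ}

lemma LPair.tl_an (h : LPair Ω p φ ψ) {z : ℂ} (hz : z ∈ D) : AnalyticAt ℂ φ z :=
  h.diff.analyticAt (isOpen_ball.mem_nhds hz)

lemma LPair.tl_an' (h : LPair Ω p φ ψ) {z : ℂ} (hz : z ∈ Ω) : AnalyticAt ℂ ψ z :=
  h.diff'.analyticAt (h.isOpen.mem_nhds hz)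

lemma LPair.tl_deriv_mul (h : LPair Ω p φ ψ) {z : ℂ} (hz : z ∈ D) :
    deriv ψ (φ z) * deriv φ z = 1 := by
  have h1 := (h.tl_an' (h.maps hz)).differentiableAt.hasDerivAt.comp z
    (h.tl_an hz).differentiableAt.hasDerivAt
  have h2 : ψ ∘ φ =ᶠ[𝓝 z] id := by
    filter_upwards [isOpen_ball.mem_nhds hz] with w hw using h.left w hw
  exact (h1.congr_of_eventuallyEq h2.symm).unique (hasDerivAt_id z)

lemma LPair.tl_cd (h : LPair Ω p φ ψ) {n : WithTop ℕ∞} {z : ℂ} (hz : z ∈ D) :
    ContDiffAt ℝ n φ z := ((h.tl_an hz).contDiffAt (n := n)).restrict_scalars ℝ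

lemma LPair.tl_cd' (h : LPair Ω p φ ψ) {n : WithTop ℕ∞} {z : ℂ} (hz : z ∈ Ω) :
    ContDiffAt ℝ n ψ z := ((h.tl_an' hz).contDiffAt (n := n)).restrict_scalars ℝ

lemma LPair.tl_ae_comp (h : LPair Ω p φ ψ) {P : ℂ → Prop}
    (hP : ∀ᵐ x ∂(volume.restrict Ω), P x) : ∀ᵐ z ∂(volume.restrict D), P (φ z) := by
  rw [ae_restrict_iff' h.isOpen.measurableSet, ae_iff] at hP
  rw [ae_restrict_iff' measurableSet_ball, ae_iff]
  have h1 := addHaar_image_eq_zero_of_differentiableOn_of_addHaar_eq_zero volume (f := ψ)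
    ((h.diff'.restrictScalars ℝ).mono fun x hx => (Classical.not_imp.1 hx).1) hP
  refine measure_mono_null (fun z hz => ?_) h1
  obtain ⟨h2, h3⟩ := Classical.not_imp.1 hz
  exact ⟨φ z, fun k => h3 (k (h.maps h2)), h.left z h2⟩

/-- Pulling back a test function. -/
lemma LPair.tl_test (h : LPair Ω p φ ψ) {ζ : ℂ → ℝ} (h1 : ContDiff ℝ ∞ ζ)
    (h2 : HasCompactSupport ζ) (h3 : tsupport ζ ⊆ Ω) :
    ContDiff ℝ ∞ (D.indicator fun z => ζ (φ z)) ∧
      HasCompactSupport (D.indicator fun z => ζ (φ z)) ∧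
      tsupport (D.indicator fun z => ζ (φ z)) ⊆ D ∧
      ∀ z ∈ D, (D.indicator fun z => ζ (φ z)) =ᶠ[𝓝 z] fun z => ζ (φ z) := by
  have hK : IsCompact (ψ '' tsupport ζ) := h2.isCompact.image_of_continuousOn
    (h.diff'.continuousOn.mono h3)
  have hKU : ψ '' tsupport ζ ⊆ D := by
    rintro _ ⟨x, hx, rfl⟩; exact h.maps' (h3 hx)
  have hz : ∀ z, z ∉ ψ '' tsupport ζ → D.indicator (fun z => ζ (φ z)) z = 0 := by
    intro z hz
    by_cases hU : z ∈ D
    · rw [indicator_of_mem hU]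
      exact image_eq_zero_of_notMem_tsupport fun k => hz ⟨φ z, k, h.left z hU⟩
    · exact indicator_of_notMem hU _
  have hs : tsupport (D.indicator fun z => ζ (φ z)) ⊆ ψ '' tsupport ζ :=
    closure_minimal (fun z hz' => by_contra fun k => hz' (hz z k)) hK.isClosed
  have he : ∀ z ∈ D, (D.indicator fun z => ζ (φ z)) =ᶠ[𝓝 z] fun z => ζ (φ z) := fun z hz => by
    filter_upwards [isOpen_ball.mem_nhds hz] with w hw using indicator_of_mem hw _
  refine ⟨contDiff_iff_contDiffAt.2 fun z => ?_, HasCompactSupport.intro hK hz, hs.trans hKU, he⟩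
  by_cases hU : z ∈ D
  · exact (h1.contDiffAt.comp z (h.tl_cd hU)).congr_of_eventuallyEq (he z hU)
  · refine (contDiffAt_const (c := (0 : ℝ))).congr_of_eventuallyEq ?_
    filter_upwards [hK.isClosed.isOpen_compl.mem_nhds fun k => hU (hKU k)] with w hw using hz w hw

lemma LPair.tl_dB (h : LPair Ω p φ ψ) {a : ℂ → ℝ} (ha : ContDiffOn ℝ 1 a D) {x : ℂ}
    (hx : x ∈ Ω) :
    dB (fun x => (a (ψ x) : ℂ)) x = conj (deriv ψ x) * dB (fun w => (a w : ℂ)) (ψ x) :=
  dB_comp_holo (f := fun w => (a w : ℂ)) (differentiableAt_ofReal'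
    ((sl_contDiffAt ha (h.maps' hx)).differentiableAt (by simp))) (h.tl_an' hx).differentiableAt

lemma LPair.tl_density (h : LPair Ω p φ ψ) {a : ℂ → ℝ} (ha : ContDiffOn ℝ 1 a D) {z : ℂ}
    (hz : z ∈ D) :
    rho φ z • ‖dB (fun x => (a (ψ x) : ℂ)) (φ z)‖ ^ 2 = dx a z ^ 2 + dy a z ^ 2 := by
  have k := congrArg norm (h.tl_deriv_mul hz)
  have hd : DifferentiableAt ℝ a z := (sl_contDiffAt ha hz).differentiableAt (by simp)
  rw [norm_mul, norm_one] at k
  rw [h.tl_dB ha (h.maps hz), h.left z hz, dB_ofReal_eq_conj hd, norm_mul, norm_conj,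
    norm_conj, mul_pow, norm_dD_ofReal_sq hd, smul_eq_mul, rho, ← mul_assoc,
    ← mul_pow, mul_comm ‖deriv φ z‖, k]
  ring

lemma LPair.tl_isH1 (h : LPair Ω p φ ψ) {a : ℂ → ℝ} (ha : ContDiffOn ℝ 1 a D)
    (hb : ∃ M : ℝ, ∀ z ∈ D, |a z| ≤ M) (h1 : MemLp (dx a) 2 (volume.restrict D))
    (h2 : MemLp (dy a) 2 (volume.restrict D)) :
    IsH1 Ω (fun x => a (ψ x)) (dB fun x => (a (ψ x) : ℂ)) := by
  obtain ⟨M, hM⟩ := hb
  have hc : ∀ x ∈ Ω, ContDiffAt ℝ 1 (fun x => a (ψ x)) x := fun x hx =>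
    (sl_contDiffAt ha (h.maps' hx)).comp x (h.tl_cd' hx)
  have hc' : ContDiffOn ℝ 1 (fun x => a (ψ x)) Ω := fun x hx => (hc x hx).contDiffWithinAt
  have : IsFiniteMeasure (volume.restrict Ω) :=
    isFiniteMeasure_restrict.2 h.bounded.measure_lt_top.ne
  refine isH1_of_contDiffOn h.isOpen hc' ?_ ?_
  · refine MemLp.of_bound (hc'.continuousOn.aestronglyMeasurable h.isOpen.measurableSet) M ?_
    filter_upwards [ae_restrict_mem h.isOpen.measurableSet] with x hx using hM _ (h.maps' hx)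
  · have hB : ContinuousOn (dB fun x => (a (ψ x) : ℂ)) Ω := fun x hx =>
      (contDiffAt_dB (m := 0) (contDiffAt_ofReal' (hc x hx))
        (by simp)).continuousAt.continuousWithinAt
    rw [memLp_two_iff_integrable_sq_norm (hB.aestronglyMeasurable h.isOpen.measurableSet)]
    refine (h.integrableOn_comp _).2 ?_
    exact IntegrableOn.congr_fun (h1.integrable_sq.add h2.integrable_sq)
      (fun z hz => (h.tl_density ha hz).symm) measurableSet_ball

lemma LPair.tl_integral (h : LPair Ω p φ ψ) (f : ℂ → ℝ) :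
    ∫ x in Ω, f (ψ x) = ∫ z in D, rho φ z * f z := by
  rw [h.integral_comp]
  refine setIntegral_congr_fun measurableSet_ball fun z hz => ?_
  simp only [h.left z hz, smul_eq_mul]

theorem lsetup_of_lpair (h : LPair Ω p φ ψ) (S : LAn φ) : LSetup φ (mu1 Ω) := by
  refine ⟨S, mu1_posL h S, fun a ha hb l1 l2 h0 => ?_, fun f hf hi hU => ?_⟩
  · have e1 := h.tl_integral fun z => a z ^ 2
    have h1 : 0 ≤ ∫ z in D, rho φ z * a z ^ 2 :=
      integral_nonneg fun z => mul_nonneg (sq_nonneg _) (sq_nonneg _)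
    rcases h1.eq_or_lt with h2 | h2
    · rw [← h2, mul_zero]
      exact integral_nonneg fun z => by positivity
    · have := csInf_le (tr_bddBelow Ω) ⟨_, _, h.tl_isH1 ha hb l1 l2, (h.tl_integral a).trans h0,
        (e1.trans_ne h2.ne'), rfl⟩
      rw [h.integral_comp (fun x => ‖dB (fun x => (a (ψ x) : ℂ)) x‖ ^ 2),
        setIntegral_congr_fun measurableSet_ball fun z hz => h.tl_density ha hz, e1,
        le_div_iff₀ h2] at this
      exact this
  · have hF : IntegrableOn (fun x => f (ψ x)) Ω := by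
      refine (h.integrableOn_comp _).2 (IntegrableOn.congr_fun (f := fun z => rho φ z * f z) ?_
        (fun z hz => by simp only [h.left z hz, smul_eq_mul]) measurableSet_ball)
      refine (S.integrableOn_rho.add hi).mono'
        ((measurable_rho φ).aestronglyMeasurable.mul hf) (Eventually.of_forall fun z => ?_)
      have h0 := rho_nonneg φ z
      rw [Real.norm_eq_abs, abs_mul, abs_of_nonneg h0, Pi.add_apply, ← sq_abs (f z)]
      nlinarith [mul_nonneg h0 (sq_nonneg (|f z| - 1)), mul_nonneg h0 (abs_nonneg (f z))]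
    obtain ⟨g, g1, g2, g3⟩ := weyl h.isOpen (mu1_posL h S).le hF.locallyIntegrableOn (by
      intro W h1 h2 h3
      obtain ⟨t1, t2, t3, t4⟩ := h.tl_test h1 h2 h3
      rw [h.integral_comp, ← hU _ t1 t2 t3]
      refine setIntegral_congr_fun measurableSet_ball fun z hz => ?_
      rw [lap_congr (t4 z hz), lap_comp_holo_real (h1.contDiffAt.of_le (by norm_cast))
        (h.tl_an hz), indicator_of_mem hz, h.left z hz, smul_eq_mul, rho]
      ring)
    refine ⟨fun z => g (φ z), fun z hz => ?_, ?_, fun z hz => ?_⟩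
    · exact ((g1.contDiffAt (h.isOpen.mem_nhds (h.maps hz))).comp z
        (h.tl_cd hz)).contDiffWithinAt
    · filter_upwards [h.tl_ae_comp g2, ae_restrict_mem measurableSet_ball] with z e hz
      rwa [h.left z hz] at e
    · rw [lap_comp_holo_real ((g1.contDiffAt (h.isOpen.mem_nhds (h.maps hz))).of_le
        (by norm_cast)) (h.tl_an hz), rho]
      linear_combination (‖deriv φ z‖ ^ 2) * g3 _ (h.maps hz)

theorem leigen_of_eigen (h : LPair Ω p φ ψ) (S : LAn φ) {u : ℂ → ℝ}
    (hu : IsNeumannEigen Ω u) (hc : ContinuousOn u (closure Ω)) :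
    ContDiffOn ℝ ∞ u Ω ∧ LEigen φ (mu1 Ω) (fun z => u (φ z)) := by
  obtain ⟨g, hg, hw⟩ := hu
  obtain ⟨u', g1, g2, g3⟩ := weyl h.isOpen (mu1_posL h S).le (tr_locInt h.isOpen hg.1) (by
    intro W h1 h2 h3
    have c1 : ContDiff ℝ ∞ fun w => (W w : ℂ) := ofRealCLM.contDiff.comp h1
    have c2 : HasCompactSupport fun w => (W w : ℂ) := h2.comp_left (g := ofReal) rfl
    have mW : MemLp W 2 (volume.restrict Ω) := h1.continuous.memLp_of_hasCompactSupport h2
    have hW : IsH1 Ω W (dB fun w => (W w : ℂ)) :=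
      isH1_of_contDiffOn h.isOpen (h1.of_le (by norm_cast)).contDiffOn mW (tr_memLp_dB c1 c2 Ω)
    have e := hw _ _ hW
    have hd := h1.differentiable (by simp)
    simp only [tr_dB_re (hd _), tr_dB_im (hd _)] at e
    have s1 : ∀ v : ℂ, ContDiff ℝ ∞ fun z => fderiv ℝ W z v := fun v =>
      (h1.fderiv_right (m := ∞) (by norm_cast)).clm_apply contDiff_const
    have s2 : ∀ v : ℂ, HasCompactSupport fun z => fderiv ℝ W z v := fun v => h2.fderiv_apply ℝ v
    have s3 : ∀ v : ℂ, tsupport (fun z => fderiv ℝ W z v) ⊆ Ω := fun v =>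
      (tsupport_fderiv_apply_subset ℝ v).trans h3
    have e1 : ∫ z in Ω, u z * dx (dx W) z = -∫ z in Ω, (g z).re * dx W z :=
      (hg.2.2 _ (s1 1) (s2 1) (s3 1)).1
    have e2 : ∫ z in Ω, u z * dy (dy W) z = -∫ z in Ω, (g z).im * dy W z :=
      (hg.2.2 _ (s1 I) (s2 I) (s3 I)).2
    have m1 : MemLp (dx (dx W)) 2 (volume.restrict Ω) := tr_memLp_fderiv (s1 1) (s2 1) 1 Ω
    have m2 : MemLp (dy (dy W)) 2 (volume.restrict Ω) := tr_memLp_fderiv (s1 I) (s2 I) I Ω
    have m3 : MemLp (dx W) 2 (volume.restrict Ω) := tr_memLp_fderiv h1 h2 1 Ω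
    have m4 : MemLp (dy W) 2 (volume.restrict Ω) := tr_memLp_fderiv h1 h2 I Ω
    have gr : MemLp (fun z => (g z).re) 2 (volume.restrict Ω) := hg.2.1.re
    have gi : MemLp (fun z => (g z).im) 2 (volume.restrict Ω) := hg.2.1.im
    have : ∀ z, u z * (lap W z + mu1 Ω * W z) =
        u z * dx (dx W) z + u z * dy (dy W) z + mu1 Ω * (u z * W z) := fun z => by
      rw [lap]; ring
    simp only [this]
    rw [integral_add (tr_mul gr m3) (tr_mul gi m4)] at e
    rw [integral_add ((tr_mul hg.1 m1).fun_add (tr_mul hg.1 m2)) ((tr_mul hg.1 mW).const_mul _),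
      integral_add (tr_mul hg.1 m1) (tr_mul hg.1 m2), integral_const_mul, e1, e2, ← e]
    ring)
  have hE : EqOn u u' Ω :=
    Measure.eqOn_open_of_ae_eq g2 h.isOpen (hc.mono subset_closure) g1.continuousOn
  have hs : ContDiffOn ℝ ∞ u Ω := g1.congr hE
  have hsa : ∀ z ∈ D, ContDiffAt ℝ ∞ u (φ z) := fun z hz =>
    hs.contDiffAt (h.isOpen.mem_nhds (h.maps hz))
  have hae := h.tl_ae_comp (hg.ae_eq_dB h.isOpen (hs.of_le (by norm_cast)))
  have hca : ∀ z ∈ D, ContDiffAt ℝ ∞ (fun z => u (φ z)) z := fun z hz =>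
    (hsa z hz).comp z (h.tl_cd hz)
  have hda : ∀ z ∈ D, DifferentiableAt ℝ (fun z => u (φ z)) z := fun z hz =>
    (hca z hz).differentiableAt (by simp)
  have hdB : ∀ z ∈ D, dB (fun z => (u (φ z) : ℂ)) z =
      conj (deriv φ z) * dB (fun w => (u w : ℂ)) (φ z) := fun z hz =>
    dB_comp_holo (f := fun w => (u w : ℂ))
      (differentiableAt_ofReal' ((hsa z hz).differentiableAt (by simp)))
      (h.tl_an hz).differentiableAt
  refine ⟨hs, fun z hz => (hca z hz).contDiffWithinAt, fun z hz => ?_, ?_, ?_, fun b hb => ?_⟩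
  · have e : u =ᶠ[𝓝 (φ z)] u' := by
      filter_upwards [h.isOpen.mem_nhds (h.maps hz)] with w hw using hE hw
    rw [lap_comp_holo_real ((hsa z hz).of_le (by norm_cast)) (h.tl_an hz), rho, lap_congr e,
      hE (h.maps hz)]
    linear_combination (‖deriv φ z‖ ^ 2) * g3 _ (h.maps hz)
  · obtain ⟨M, hM⟩ := h.bounded.isCompact_closure.exists_bound_of_continuousOn hc
    exact ⟨M, fun z hz => hM _ (subset_closure (h.maps hz))⟩
  · have hB : ContinuousOn (dD fun z => (u (φ z) : ℂ)) D := fun z hz =>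
      (contDiffAt_dD (m := 0) (contDiffAt_ofReal' (hca z hz))
        (by simp)).continuousAt.continuousWithinAt
    rw [memLp_two_iff_integrable_sq_norm (sl_aesm hB)]
    have m := (h.integrableOn_comp fun x => ‖g x‖ ^ 2).1
      ((memLp_two_iff_integrable_sq_norm hg.2.1.1).1 hg.2.1)
    refine Integrable.congr m ?_
    filter_upwards [hae, ae_restrict_mem measurableSet_ball] with z e hz
    have k := congrArg norm (dB_ofReal_eq_conj (hda z hz))
    rw [hdB z hz, ← e, norm_mul, norm_conj, norm_conj] at k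
    rw [← k, mul_pow, rho, smul_eq_mul]
  · have e := hw _ _ (h.tl_isH1 hb.cd ⟨_, fun z hz => (hb.bdd.choose_spec z hz).1⟩
      hb.bm.2.1.memLp hb.bm.2.2.memLp)
    rw [h.integral_comp, h.integral_comp] at e
    convert e using 1
    · refine integral_congr_ae ?_
      filter_upwards [hae, ae_restrict_mem measurableSet_ball] with z e hz
      have k := h.tl_deriv_mul hz
      have k1 := hdB z hz
      have k2 := h.tl_dB hb.cd (h.maps hz)
      rw [h.left z hz] at k2
      rw [← tr_dB_re (hda z hz), ← tr_dB_im (hda z hz), ← tr_dB_re (hb.tr_diff hz),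
        ← tr_dB_im (hb.tr_diff hz), k1, k2, e, smul_eq_mul, rho]
      generalize dB (fun w => (u w : ℂ)) (φ z) = X
      generalize dB (fun w => (b w : ℂ)) z = Y
      have r := congrArg re k
      have i := congrArg im k
      simp only [mul_re, mul_im, one_re, one_im] at r i
      simp only [mul_re, mul_im, conj_re, conj_im, Complex.sq_norm, normSq_apply]
      generalize (deriv ψ (φ z)).re = s at *
      generalize (deriv ψ (φ z)).im = t at *
      generalize (deriv φ z).re = a at *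
      generalize (deriv φ z).im = b at *
      linear_combination (-(a * (X.re * Y.re + X.im * Y.im) + b * (X.im * Y.re - X.re * Y.im))) * r
        + (-(b * (X.re * Y.re + X.im * Y.im) - a * (X.im * Y.re - X.re * Y.im))) * i
    · congr 1
      refine setIntegral_congr_fun measurableSet_ball fun z hz => ?_
      simp only [h.left z hz, smul_eq_mul]

end Vale.Agent.P071
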