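import Vale.Agent.P071L.Limit
import Vale.Agent.P071L.ModeZero
import Vale.Agent.P071L.Ground
import Vale.Agent.P071L.Transfer
import Vale.Agent.P071L.Conf
import Vale.Agent.P071.Final

/-!
# No interior critical points
-/

open Complex Metric Set Filter Topology MeasureTheory
open scoped ContDiff ComplexConjugate Real

namespace Vale.Agent.P071

lemma finL_arg_ec {s : ℝ} (hs : s ∈ Ioc (-π) π) : arg (ec s) = s := by
  have e : ec s = exp (s * I) := by simp [circleMap]
  rw [e, arg_exp_mul_I, toIocMod_eq_self]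
  exact ⟨hs.1, by linarith [hs.2]⟩

lemma finL_int {c g : ℝ → ℝ} (hc : Continuous c) (hg : Integrable g mc) :
    Integrable (fun s => c s * g s) mc :=
  IntegrableOn.continuousOn_mul_of_subset hc.continuousOn hg isCompact_Icc measurableSet_Ioc
    Ioc_subset_Icc_self

lemma finL_cont_arg {k : ℝ → ℝ} (hk : Continuous k) (h1 : k π = 0) (h2 : k (-π) = 0) :
    ContinuousOn (fun z => k (arg z)) S1 := by
  intro z hz
  refine ContinuousAt.continuousWithinAt ?_
  by_cases hs : z ∈ slitPlane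
  · exact hk.continuousAt.comp (continuousAt_arg hs)
  have hz0 : z ≠ 0 := by
    rintro rfl
    simp at hz
  rw [mem_slitPlane_iff, not_or, not_lt, not_not] at hs
  have hre : z.re < 0 := lt_of_le_of_ne hs.1 fun h => hz0 (Complex.ext h hs.2)
  have t1 := (hk.tendsto _).comp (tendsto_arg_nhdsWithin_im_neg_of_re_neg_of_im_zero hre hs.2)
  have t2 := (hk.tendsto _).comp (tendsto_arg_nhdsWithin_im_nonneg_of_re_neg_of_im_zero hre hs.2)
  rw [h2] at t1
  rw [h1] at t2
  have e : {w : ℂ | w.im < 0} ∪ {w : ℂ | 0 ≤ w.im} = univ :=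
    eq_univ_of_forall fun w => lt_or_ge w.im 0
  rw [ContinuousAt, arg_eq_pi_iff.2 ⟨hre, hs.2⟩, h1, ← nhdsWithin_univ z, ← e, nhdsWithin_union]
  exact t1.sup t2

/-- An integrable function orthogonal to all smooth functions vanishes almost everywhere. -/
lemma finL_ae_zero {f : ℝ → ℝ} (hf : Integrable f mc)
    (h : ∀ K : ℂ → ℝ, ContDiff ℝ ∞ K → ∫ s, K (ec s) * f s ∂mc = 0) : ∀ᵐ s ∂mc, f s = 0 := by
  have h1 : ∀ K : ℂ → ℝ, ContinuousOn K S1 → ∫ s, K (ec s) * f s ∂mc = 0 := by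
    intro K hK
    have h0 : 0 ≤ ∫ s, |f s| ∂mc := integral_nonneg fun s => abs_nonneg _
    refine abs_nonpos_iff.1 (le_of_forall_pos_le_add fun ε hε => ?_)
    obtain ⟨K', hK', hK''⟩ := dense_circle hK
      (div_pos hε (show 0 < (∫ s, |f s| ∂mc) + 1 by linarith))
    have i1 := finL_int (fin_comp hK) hf
    have i2 := finL_int (fin_comp hK'.continuous.continuousOn) hf
    have h2 := integral_sub i1 i2
    rw [h K' hK', sub_zero] at h2
    rw [← h2, zero_add, ← Real.norm_eq_abs]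
    refine (norm_integral_le_of_norm_le (hf.abs.const_mul (ε / ((∫ s, |f s| ∂mc) + 1)))
      (Eventually.of_forall fun s => ?_)).trans ?_
    · rw [← sub_mul, Real.norm_eq_abs, abs_mul]
      exact mul_le_mul_of_nonneg_right (hK'' _ (ec_mem s)) (abs_nonneg _)
    · rw [integral_const_mul, div_mul_eq_mul_div, div_le_iff₀ (by linarith)]
      nlinarith
  have h2 := isOpen_Ioo.ae_eq_zero_of_integral_contDiff_smul_eq_zero (U := Ioo (-π) π)
    (hf.locallyIntegrable.locallyIntegrableOn _) fun k k1 _ k3 => by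
      rw [← h1 _ (finL_cont_arg k1.continuous
        (image_eq_zero_of_notMem_tsupport fun h => lt_irrefl _ (k3 h).2)
        (image_eq_zero_of_notMem_tsupport fun h => lt_irrefl _ (k3 h).1))]
      refine setIntegral_congr_fun measurableSet_Ioc fun s hs => ?_
      simp only [finL_arg_ec hs, smul_eq_mul]
  filter_upwards [h2, ae_restrict_mem measurableSet_Ioc, mc.ae_ne π] with s e1 e2 e3
  exact e1 ⟨e2.1, lt_of_le_of_ne e2.2 e3⟩

/-- Three points in the essential support. -/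
lemma finL_three {g : ℝ → ℝ} (hg : ¬∀ᵐ s ∂mc, g s = 0) :
    ∃ t : Fin 3 → ℝ, Function.Injective (fun i => ec (t i)) ∧
      ∀ F : ℝ → ℝ, Continuous F → (∀ᵐ s ∂mc, F s * g s = 0) → ∀ i, F (t i) = 0 := by
  set A : Set ℝ := {x | x ∈ Ioc (-π) π ∧
    ∀ F : ℝ → ℝ, Continuous F → (∀ᵐ s ∂mc, F s * g s = 0) → F x = 0} with hA
  have hinf : A.Infinite := by
    intro hfin
    refine hg ?_
    have h1 : mc {s | s ∈ Ioc (-π) π ∧ s ∉ A ∧ g s ≠ 0} = 0 := by
      refine measure_null_of_locally_null _ fun x hx => ?_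
      have h2 := hx.2.1
      simp only [hA, mem_ofPred_eq, not_and, not_forall] at h2
      obtain ⟨F, hF, hF0, hFx⟩ := h2 hx.1
      refine ⟨{s | F s ≠ 0} ∩ {s | s ∈ Ioc (-π) π ∧ s ∉ A ∧ g s ≠ 0}, inter_mem
        (mem_nhdsWithin_of_mem_nhds (hF.continuousAt.eventually_ne hFx)) self_mem_nhdsWithin, ?_⟩
      exact measure_mono_null (fun s hs => mul_ne_zero hs.1 hs.2.2.2) (ae_iff.1 hF0)
    filter_upwards [measure_eq_zero_iff_ae_notMem.1 h1, ae_restrict_mem measurableSet_Ioc,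
      measure_eq_zero_iff_ae_notMem.1 (hfin.measure_zero mc)] with s e1 e2 e3
    by_contra e4
    exact e1 ⟨e2, e3, e4⟩
  refine ⟨fun i => hinf.natEmbedding A i, fun i j hij => ?_,
    fun F hF hF0 i => (hinf.natEmbedding A i).2.2 F hF hF0⟩
  have h1 := congrArg arg hij
  rw [finL_arg_ec (hinf.natEmbedding A i).2.1, finL_arg_ec (hinf.natEmbedding A j).2.1] at h1
  exact Fin.ext ((hinf.natEmbedding A).injective (Subtype.ext h1))

lemma finL_ell {φ : ℂ → ℂ} (S : LAn φ) {v Φ : Fin 3 → ℂ → ℂ}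
    (h : ∀ i, Adm φ (v i) (Φ i)) {l : Fin 3 → ℝ}
    (h1 : ∀ᵐ z ∂(volume.restrict D), ∑ i, (l i : ℂ) * v i z = 0)
    (h2 : ∀ᵐ z ∂(volume.restrict D), ∑ i, (l i : ℂ) * Φ i z = 0) {K : ℂ → ℝ}
    (hK : ContDiff ℝ ∞ K) : ∑ i, l i * ell φ K (v i) (Φ i) = 0 := by
  have k1 : ContDiff ℝ 1 fun w => I * (K w : ℂ) := contDiff_const.mul
    (contDiff_iff_contDiffAt.2 fun z => contDiffAt_ofReal' (hK.of_le zm_one_le).contDiffAt)
  have hi : ∀ i, Integrable (fun z => l i * (v i z * conj (dD (fun w => I * (K w : ℂ)) z) +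
      deriv φ z * Φ i z * conj (I * (K z : ℂ))).re) (volume.restrict D) := fun i =>
    (S.adm_integrable (h i).l2v (h i).l2F (BM.of_continuous k1.continuous)
      (BM.dD_of_contDiff k1).memLp).const_mul (l i)
  simp only [ell, ← integral_const_mul]
  rw [← integral_finsetSum _ fun i _ => hi i]
  refine integral_eq_zero_of_ae ?_
  filter_upwards [h1, h2] with z e1 e2
  have e3 := congrArg re (show (∑ i, (l i : ℂ) * v i z) * conj (dD (fun w => I * (K w : ℂ)) z) +
    deriv φ z * (∑ i, (l i : ℂ) * Φ i z) * conj (I * (K z : ℂ)) = 0 by rw [e1, e2]; simp)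
  rw [Pi.zero_apply, ← zero_re, ← e3]
  simp only [← re_ofReal_mul, ← re_sum, Fin.sum_univ_three]
  congr 1
  ring

/-- No nontrivial combination of the kernel at three boundary points is constant. -/
lemma finL_no_relation {d : ℂ → ℂ → ℝ} (hdiag : ∀ s ∈ S1, d s s = 0)
    (hsymm : ∀ s ∈ S1, ∀ t ∈ S1, d s t = d t s) (hpos : ∀ s ∈ S1, ∀ t ∈ S1, s ≠ t → 0 < d s t)
    {k : ℝ → ℝ} (hk : Tendsto k (𝓝[>] 0) atTop)
    (hk' : ∀ s ∈ S1, Tendsto (fun t : ℝ => d s t - k t) (𝓝[>] 0) (𝓝 0))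
    {s : Fin 3 → ℂ} (hs : ∀ i, s i ∈ S1) (hinj : Function.Injective s) {γ : Fin 3 → ℝ} {κ : ℝ}
    (h : ∀ t ∈ Db, t ≠ 0 → ∑ i, γ i * d (s i) t = κ) : γ = 0 := by
  have t1 : Tendsto (fun t : ℝ => κ - (∑ i, γ i) * k t) (𝓝[>] 0) (𝓝 0) := by
    have t2 := tendsto_finsetSum Finset.univ fun i _ => (hk' (s i) (hs i)).const_mul (γ i)
    simp only [mul_zero, Finset.sum_const_zero] at t2
    refine t2.congr' ?_
    filter_upwards [Ioo_mem_nhdsGT (zero_lt_one' ℝ)] with t ht
    rw [← h t (by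
      rw [mem_closedBall_zero_iff, norm_real, Real.norm_of_nonneg ht.1.le]
      exact ht.2.le) (ofReal_ne_zero.2 ht.1.ne')]
    simp only [mul_sub, Finset.sum_sub_distrib, Finset.sum_mul]
  have hγ : ∑ i, γ i = 0 := by
    by_contra h0
    have t3 := ((tendsto_const_nhds (x := κ)).sub t1).div_const (∑ i, γ i)
    refine not_tendsto_nhds_of_tendsto_atTop hk _ (t3.congr fun t => ?_)
    field_simp
    ring
  have hκ : κ = 0 := by
    simp only [hγ, zero_mul, sub_zero] at t1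
    exact tendsto_nhds_unique tendsto_const_nhds t1
  have hs' : ∀ i, s i ∈ Db := fun i => kern0_S1_sub (hs i)
  have hne : ∀ i, s i ≠ 0 := fun i h1 => by
    have h2 : ‖s i‖ = 1 := by simpa using hs i
    rw [h1] at h2
    simp at h2
  have e0 := h (s 0) (hs' 0) (hne 0)
  have e1 := h (s 1) (hs' 1) (hne 1)
  have e2 := h (s 2) (hs' 2) (hne 2)
  rw [Fin.sum_univ_three, hκ, hdiag _ (hs _)] at e0 e1 e2
  rw [hsymm _ (hs 1) _ (hs 0), hsymm _ (hs 2) _ (hs 0)] at e0
  rw [hsymm _ (hs 2) _ (hs 1)] at e1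
  have ha := hpos _ (hs 0) _ (hs 1) (hinj.ne (by decide))
  have hb := hpos _ (hs 0) _ (hs 2) (hinj.ne (by decide))
  have hc := hpos _ (hs 1) _ (hs 2) (hinj.ne (by decide))
  generalize d (s 0) (s 1) = a at *
  generalize d (s 0) (s 2) = b at *
  generalize d (s 1) (s 2) = c at *
  have g0 : γ 0 = 0 := by
    have : γ 0 * (2 * a * b) = 0 := by linear_combination b * e1 + a * e2 - c * e0
    exact (mul_eq_zero.1 this).resolve_right (by positivity)
  have g1 : γ 1 = 0 := by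
    have : γ 1 * c = 0 := by rw [g0] at e2; linarith
    exact (mul_eq_zero.1 this).resolve_right hc.ne'
  have g2 : γ 2 = 0 := by
    have : γ 2 * c = 0 := by rw [g0] at e1; linarith
    exact (mul_eq_zero.1 this).resolve_right hc.ne'
  funext i
  fin_cases i
  · exact g0
  · exact g1
  · exact g2

theorem disc_no_criticalL {φ : ℂ → ℂ} {μ : ℝ} (S : LSetup φ μ) {a : ℂ → ℝ}
    (h : LEigen φ μ a) (hne : ∃ z ∈ D, a z ≠ 0) : dD (fun z => (a z : ℂ)) 0 ≠ 0 := by
  intro hcrit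
  obtain ⟨θ, C, η, hθ, hU, hG⟩ := exists_groundL S
  have h₀ := h.zeroMode S
  obtain ⟨a', hm⟩ := exists_lmode S hθ hG h₀
  have hE : EqOn a a' D := by
    have e : a =ᵐ[volume.restrict D] a' := by
      filter_upwards [sl_ae_mem, hm.F_eq] with z hz e
      have e1 : deriv φ z * -(μ * conj (deriv φ z) * a z) = (FR φ μ a z : ℝ) := by
        rw [FR]; push_cast; rw [rho_eq]; ring
      rw [e1, ofReal_inj, FR, FR, neg_inj] at e
      exact mul_left_cancel₀ (mul_pos S.mu_pos (S.rho_pos hz)).ne' e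
    exact Measure.eqOn_open_of_ae_eq e isOpen_ball h.smooth.continuousOn hm.smooth.continuousOn
  have hV : dD (fun z => (a' z : ℂ)) 0 = 0 := by
    refine (dD_congr ?_).trans hcrit
    filter_upwards [ball_mem_nhds (0 : ℂ) one_pos] with z hz
    rw [hE hz]
  have hne' : ∃ z ∈ D, a' z ≠ 0 := by
    obtain ⟨z, hz, hz0⟩ := hne
    exact ⟨z, hz, by rwa [← hE hz]⟩
  have hg := hm.integrable_trace S.toLAn
  obtain ⟨s, hinj, hs⟩ := finL_three (hm.not_ae_zero S hθ hG h₀ hne')
  obtain ⟨p1, p2, p3, p4, k, p5, p6⟩ := hU.dU_props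
  have hb : ∀ t ∈ Db \ {0}, Continuous fun s : ℝ => dU φ μ (ec s) 1 - dU φ μ (ec s) t :=
    fun t ht => fin_comp ((p1 1 (by simp) one_ne_zero).sub (p1 t ht.1 ht.2))
  obtain ⟨γ, hγ, hγ'⟩ := fin_linalg (T := Db \ {0})
    (w := fun t i => dU φ μ (ec (s i)) 1 - dU φ μ (ec (s i)) t) fun t ht t' ht' => by
      obtain ⟨v₁, Φ₁, z₁, e₁⟩ := exists_zeroMode_pointL S hθ hG hU h₀ hm hV ht.1 ht.2
      obtain ⟨v₂, Φ₂, z₂, e₂⟩ := exists_zeroMode_pointL S hθ hG hU h₀ hm hV ht'.1 ht'.2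
      have hz : ∀ i, ZeroMode φ μ (![dD fun z => (a z : ℂ), v₁, v₂] i)
          (![fun z => -(μ * conj (deriv φ z) * a z), Φ₁, Φ₂] i) := fun i => by
        fin_cases i
        · exact h₀
        · exact z₁
        · exact z₂
      obtain ⟨l, hl, h1, h2⟩ := three_dependentL S hθ hG hz
      have cF : Continuous fun s : ℝ => l 0 + l 1 * (dU φ μ (ec s) 1 - dU φ μ (ec s) t) +
          l 2 * (dU φ μ (ec s) 1 - dU φ μ (ec s) t') :=
        (continuous_const.add (continuous_const.mul (hb t ht))).add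
          (continuous_const.mul (hb t' ht'))
      refine ⟨l, hl, hs _ cF (finL_ae_zero (finL_int cF hg) fun K hK => ?_)⟩
      have e := finL_ell S.toLAn (fun i => (hz i).adm) h1 h2 hK
      have e₀ := hm.ell_mul S.toLAn (m := fun _ => 1) contDiff_const hK
      simp only [ofReal_one, one_mul, dB_const, zero_mul, zero_div, add_zero] at e₀
      simp only [Fin.sum_univ_three, Matrix.cons_val_zero, Matrix.cons_val_one,
        Matrix.cons_val] at e
      have cK := fin_comp hK.continuous.continuousOn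
      have i0 := (finL_int cK hg).const_mul (l 0)
      have i1 := (finL_int ((hb t ht).mul cK) hg).const_mul (l 1)
      have i2 := (finL_int ((hb t' ht').mul cK) hg).const_mul (l 2)
      have i3 := integral_add i0 i1
      have i4 := integral_add (i0.add i1) i2
      simp only [Pi.add_apply, Pi.mul_apply] at i3 i4
      rw [i3] at i4
      simp only [integral_const_mul] at i4
      rw [← e₀, ← e₁ K hK, ← e₂ K hK, e] at i4
      rw [← i4]
      refine integral_congr_ae (Eventually.of_forall fun s => ?_)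
      beta_reduce
      ring
  refine hγ (finL_no_relation p2 p3 p4 p5 p6 (fun i => ec_mem (s i)) hinj
    (κ := ∑ i, γ i * dU φ μ (ec (s i)) 1) fun t ht ht0 => ?_)
  have e := hγ' t ⟨ht, ht0⟩
  simp only [mul_sub, Finset.sum_sub_distrib] at e
  linarith

theorem no_critical_pointL {Ω : Set ℂ} (hopen : IsOpen Ω) (hbdd : Bornology.IsBounded Ω)
    (hsc : IsSimplyConnected Ω) (hL : HasLipschitzBoundary Ω) {u : ℂ → ℝ}
    (hu : IsNeumannEigen Ω u) (hc : ContinuousOn u (closure Ω)) (hne : ∃ x ∈ Ω, u x ≠ 0) :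
    ∀ x ∈ Ω, fderiv ℝ u x ≠ 0 := by
  intro x hx h0
  obtain ⟨φ, ψ, h, S⟩ := exists_lpair hopen hbdd hsc hL hx
  obtain ⟨hu', hD⟩ := leigen_of_eigen h S hu hc
  obtain ⟨y, hy, hy0⟩ := hne
  refine disc_no_criticalL (lsetup_of_lpair h S) hD ⟨ψ y, h.maps' hy, by rwa [h.right y hy]⟩ ?_
  have d1 : DifferentiableAt ℝ u (φ 0) := by
    rw [h.zero]
    exact (hu'.contDiffAt (hopen.mem_nhds hx)).differentiableAt (by simp)
  rw [dD_comp_holo (f := fun w => (u w : ℂ)) (differentiableAt_ofReal' d1)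
    (h.diff.differentiableAt (ball_mem_nhds 0 one_pos)), dD_ofReal d1, h.zero, dx, dy, h0]
  simp

end Vale.Agent.P071
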