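import Vale.Agent.P071L.Lemmas
import Vale.Agent.P071.Ground

/-!
# The strict Dirichlet inequality
-/

open Complex Metric Set Filter Topology MeasureTheory
open scoped ContDiff ComplexConjugate Real

namespace Vale.Agent.P071

variable {φ : ℂ → ℂ} {μ : ℝ}

/-- Bounded `C¹` functions with square integrable gradient. -/
structure Bdd2 (a : ℂ → ℝ) : Prop where
  cd : ContDiffOn ℝ 1 a D
  bm : BM a
  lx : MemLp (dx a) 2 (volume.restrict D)
  ly : MemLp (dy a) 2 (volume.restrict D)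

lemma Bdd1.bdd2 {a : ℂ → ℝ} (h : Bdd1 a) : Bdd2 a :=
  ⟨h.cd, h.bm.1, h.bm.2.1.memLp, h.bm.2.2.memLp⟩

lemma Bdd2.differentiableAt {a : ℂ → ℝ} (h : Bdd2 a) {z : ℂ} (hz : z ∈ D) :
    DifferentiableAt ℝ a z :=
  (h.cd.contDiffAt (isOpen_ball.mem_nhds hz)).differentiableAt (by norm_num)

lemma Bdd2.int_grad {a : ℂ → ℝ} (h : Bdd2 a) :
    IntegrableOn (fun z => dx a z ^ 2 + dy a z ^ 2) D := h.lx.integrable_sq.add h.ly.integrable_sq

lemma LAn.int_rho_mul (S : LAn φ) {f : ℂ → ℝ} (hf : BM f) :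
    IntegrableOn (fun z => rho φ z * f z) D := by
  simpa only [mul_comm] using hf.mul_integrableOn S.integrableOn_rho

lemma LSetup.poincare2 (S : LSetup φ μ) {a : ℂ → ℝ} (h : Bdd2 a)
    (h0 : ∫ z in D, rho φ z * a z = 0) :
    μ * ∫ z in D, rho φ z * a z ^ 2 ≤ ∫ z in D, (dx a z ^ 2 + dy a z ^ 2) :=
  S.poincare a h.cd h.bm.bdd h.lx h.ly h0

lemma LAn.bm_comp (S : LAn φ) {E : ℂ → ℝ} (hE : Continuous E) : BM fun z => E (φ z) := by
  obtain ⟨B, hB⟩ := S.bdd
  obtain ⟨M, hM⟩ := (isCompact_closedBall (0 : ℂ) B).exists_bound_of_continuousOn hE.continuousOn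
  exact .of_continuousOn (hE.comp_continuousOn S.diff.continuousOn)
    ⟨M, fun z hz => hM _ (mem_closedBall_zero_iff.2 (hB z hz))⟩

lemma LAn.comp_wave (S : LAn φ) {E : ℂ → ℝ} (hE : ContDiff ℝ 2 E)
    (hl : ∀ w, lap E w = -(μ * E w)) :
    Bdd2 (fun z => E (φ z)) ∧ ContDiffOn ℝ 2 (fun z => E (φ z)) D ∧
      (∀ z ∈ D, lap (fun z => E (φ z)) z = -(μ * rho φ z * E (φ z))) ∧
      ∀ z ∈ D, dx (fun z => E (φ z)) z ^ 2 + dy (fun z => E (φ z)) z ^ 2 =
        rho φ z * (dx E (φ z) ^ 2 + dy E (φ z) ^ 2) := by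
  have hc : ContDiffOn ℝ 2 (fun z => E (φ z)) D := fun z hz =>
    (hE.contDiffAt.comp z (S.contDiffAt hz)).contDiffWithinAt
  have hd : ∀ w, DifferentiableAt ℝ E w := fun w => hE.contDiffAt.differentiableAt (by norm_num)
  have b1 : BM fun z => dx E (φ z) := S.bm_comp (continuous_iff_continuousAt.2 fun w =>
    (differentiableAt_dx hE.contDiffAt).continuousAt)
  have b2 : BM fun z => dy E (φ z) := S.bm_comp (continuous_iff_continuousAt.2 fun w =>
    (differentiableAt_dy hE.contDiffAt).continuousAt)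
  have l1 := memLp_re S.memLp_deriv
  have l2 := memLp_im S.memLp_deriv
  refine ⟨⟨hc.of_le (by norm_num), S.bm_comp hE.continuous, ?_, ?_⟩, hc, fun z hz => ?_,
    fun z hz => ?_⟩
  · exact ((b1.memLp_mul l1).add (b2.memLp_mul l2)).ae_eq (sl_ae_mem.mono fun z hz =>
      (dx_comp_holo (hd _) (S.analyticAt hz).differentiableAt).symm)
  · exact ((b1.memLp_mul l2.neg).add (b2.memLp_mul l1)).ae_eq (sl_ae_mem.mono fun z hz =>
      (dy_comp_holo (hd _) (S.analyticAt hz).differentiableAt).symm)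
  · rw [lap_comp_holo_real hE.contDiffAt (S.analyticAt hz), hl, rho]; ring
  · rw [dx_comp_holo (hd _) (S.analyticAt hz).differentiableAt,
      dy_comp_holo (hd _) (S.analyticAt hz).differentiableAt, rho, Complex.sq_norm, normSq_apply]
    simp only [smul_eq_mul]; ring

/-- A plane wave with negative Neumann energy. -/
lemma LSetup.exists_wave (S : LSetup φ μ) : ∃ a : ℂ → ℝ, Bdd2 a ∧ ContDiffOn ℝ 2 a D ∧
    (∀ z ∈ D, lap a z = -(μ * rho φ z * a z)) ∧
    ∫ z in D, (dx a z ^ 2 + dy a z ^ 2 - μ * (rho φ z * a z ^ 2)) < 0 := by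
  obtain ⟨B, hB⟩ := S.bdd
  have hB0 : 0 ≤ B := (norm_nonneg _).trans (hB 0 (mem_ball_self one_pos))
  have hμ := S.mu_pos
  set β := min (Real.sqrt μ) (1 / (2 * (B + 1))) with hβ
  have hβ0 : 0 < β := lt_min (Real.sqrt_pos.2 hμ) (by positivity)
  have hβ1 : β ^ 2 ≤ μ := by
    have := pow_le_pow_left₀ hβ0.le (min_le_left (Real.sqrt μ) (1 / (2 * (B + 1)))) 2
    rwa [Real.sq_sqrt hμ.le] at this
  have hβ2 : β * (2 * (B + 1)) ≤ 1 := (le_div_iff₀ (by positivity)).1 (min_le_right _ _)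
  set α := Real.sqrt (μ - β ^ 2) with hα
  have hα2 : α ^ 2 = μ - β ^ 2 := Real.sq_sqrt (by linarith)
  have hcos : ∀ k t : ℝ, HasDerivAt (fun t => Real.cos (k * t)) (-k * Real.sin (k * t)) t :=
    fun k t => by
      refine ((hasDerivAt_id t).const_mul k).cos.congr_deriv ?_
      simp [mul_comm]
  have hsin : ∀ k t : ℝ, HasDerivAt (fun t => Real.sin (k * t)) (k * Real.cos (k * t)) t :=
    fun k t => by
      refine ((hasDerivAt_id t).const_mul k).sin.congr_deriv ?_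
      simp [mul_comm]
  set E₁ : ℂ → ℝ := fun w => Real.cos (α * w.re) * Real.cos (β * w.im) with hE₁
  set E₂ : ℂ → ℝ := fun w => Real.sin (α * w.re) * Real.cos (β * w.im) with hE₂
  have hre : ContDiff ℝ 2 fun w : ℂ => w.re := reCLM.contDiff
  have him : ContDiff ℝ 2 fun w : ℂ => w.im := imCLM.contDiff
  have c1 : ContDiff ℝ 2 E₁ := (contDiff_const.mul hre).cos.mul (contDiff_const.mul him).cos
  have c2 : ContDiff ℝ 2 E₂ := (contDiff_const.mul hre).sin.mul (contDiff_const.mul him).cos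
  have d1 := dx_dy_sep (hcos α) (hcos β)
  have d2 := dx_dy_sep (hsin α) (hcos β)
  have l1 : ∀ w, lap E₁ w = -(μ * E₁ w) := fun w => by
    rw [lap, d1.1, d1.2, (dx_dy_sep (fun t => (hsin α t).const_mul (-α)) (hcos β)).1,
      (dx_dy_sep (hcos α) (fun t => (hsin β t).const_mul (-β))).2]
    simp only [hE₁]
    linear_combination (-Real.cos (α * w.re) * Real.cos (β * w.im)) * hα2
  have l2 : ∀ w, lap E₂ w = -(μ * E₂ w) := fun w => by
    rw [lap, d2.1, d2.2, (dx_dy_sep (fun t => (hcos α t).const_mul α) (hcos β)).1,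
      (dx_dy_sep (hsin α) (fun t => (hsin β t).const_mul (-β))).2]
    simp only [hE₂]
    linear_combination (-Real.sin (α * w.re) * Real.cos (β * w.im)) * hα2
  obtain ⟨a1, a2, a3, a4⟩ := S.toLAn.comp_wave c1 l1
  obtain ⟨b1, b2, b3, b4⟩ := S.toLAn.comp_wave c2 l2
  by_contra hcon
  push Not at hcon
  have h1 := hcon _ a1 a2 a3
  have h2 := hcon _ b1 b2 b3
  have hi : ∀ {a : ℂ → ℝ}, Bdd2 a →
      IntegrableOn (fun z => dx a z ^ 2 + dy a z ^ 2 - μ * (rho φ z * a z ^ 2)) D := fun h =>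
    h.int_grad.sub ((S.toLAn.int_rho_mul h.bm.sq).const_mul μ)
  have h3 := add_nonneg h1 h2
  rw [← integral_add (hi a1) (hi b1)] at h3
  have h4 := h3.trans (setIntegral_mono_on ((hi a1).add (hi b1))
    (S.toLAn.integrableOn_rho.const_mul (-(β ^ 2 * Real.cos 1))) measurableSet_ball ?_)
  · rw [integral_const_mul] at h4
    have := S.toLAn.integral_rho_pos
    have := Real.cos_one_pos
    have : 0 < β ^ 2 * Real.cos 1 * ∫ z in D, rho φ z := by positivity
    linarith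
  · intro z hz
    simp only [a4 z hz, b4 z hz]
    rw [d1.1, d1.2, d2.1, d2.2]
    simp only [hE₁, hE₂]
    have e1 := Real.sin_sq_add_cos_sq (α * (φ z).re)
    have e2 := Real.cos_two_mul' (β * (φ z).im)
    have e3 : Real.cos 1 ≤ Real.cos (2 * (β * (φ z).im)) := by
      rw [← Real.cos_abs (2 * _)]
      refine Real.cos_le_cos_of_nonneg_of_le_pi (abs_nonneg _) (by linarith [Real.pi_gt_three]) ?_
      rw [abs_mul, abs_mul, abs_of_pos hβ0, abs_two]
      have := (abs_im_le_norm (φ z)).trans (hB z hz)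
      nlinarith
    have e5 : rho φ z * β ^ 2 * Real.cos 1 ≤ rho φ z * β ^ 2 * Real.cos (2 * (β * (φ z).im)) := by
      have := Real.cos_one_pos
      have := rho_nonneg φ z
      gcongr
    have e6 : μ = α ^ 2 + β ^ 2 := by linarith
    rw [e2] at e5
    rw [e6]
    have e7 : Real.sin (α * (φ z).re) ^ 2 = 1 - Real.cos (α * (φ z).re) ^ 2 := by linarith
    ring_nf at e5 ⊢
    rw [e7]
    linarith

lemma dirichlet_orthL {ψ a : ℂ → ℝ} (hψ : ContDiff ℝ 2 ψ) (h0 : ∀ z ∈ S1, ψ z = 0)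
    (ha : ContDiffOn ℝ 2 a D) (h1 : Bdd2 a) (h3 : IntegrableOn (lap a) D) :
    ∫ z in D, (dx ψ z * dx a z + dy ψ z * dy a z + ψ z * lap a z) = 0 := by
  obtain ⟨M, hM⟩ := exists_vanish_bound hψ h0
  have ha' : ∀ z ∈ D, ContDiffAt ℝ 2 a z := fun z hz => ha.contDiffAt (isOpen_ball.mem_nhds hz)
  have e1 : ∀ z ∈ D, dD (fun w => (a w : ℂ)) z = (dx a z : ℝ) - I * (dy a z : ℝ) := fun z hz =>
    dD_ofReal ((ha' z hz).differentiableAt (by norm_num))
  have e2 : ∀ z ∈ D, (dB (dD fun w => (a w : ℂ)) z).re = lap a z := fun z hz => by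
    rw [dB_dD (contDiffAt_ofReal' (ha' z hz)), lap_ofReal (ha' z hz), ofReal_re]
  have h := green_zero_mul (V := dD fun w => (a w : ℂ)) (ψ := ψ)
    (fun z hz => (contDiffAt_dD (contDiffAt_ofReal' (ha' z hz)) (by norm_num)).contDiffWithinAt)
    (integrableOn_of_memLp (((memLp_ofReal h1.lx).sub ((memLp_ofReal h1.ly).const_mul I)).ae_eq
      (sl_ae_mem.mono fun z hz => (e1 z hz).symm)))
    (h3.congr (sl_ae_mem.mono fun z hz => (e2 z hz).symm))
    (Bdd1.of_contDiff (hψ.of_le (by norm_num))) hM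
  rw [← h]
  refine setIntegral_congr_fun measurableSet_ball fun z hz => ?_
  simp only [e1 z hz, e2 z hz]
  simp

/-- Strict Dirichlet inequality for smooth functions. -/
lemma LSetup.exists_gap_smooth (S : LSetup φ μ) : ∃ γ : ℝ, 0 < γ ∧ ∀ ψ : ℂ → ℝ,
    ContDiff ℝ 2 ψ → (∀ z ∈ S1, ψ z = 0) → γ * (∫ z in D, rho φ z * ψ z) ^ 2 ≤
      (∫ z in D, (dx ψ z ^ 2 + dy ψ z ^ 2)) - μ * ∫ z in D, rho φ z * ψ z ^ 2 := by
  obtain ⟨a, a1, a2, a3, a4⟩ := S.exists_wave
  have T := S.toLAn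
  have hi1 : ∀ {a : ℂ → ℝ}, Bdd2 a → IntegrableOn (fun z => dx a z ^ 2 + dy a z ^ 2) D := fun h =>
    h.int_grad
  have hi2 : ∀ {a : ℂ → ℝ}, Bdd2 a → IntegrableOn (fun z => μ * (rho φ z * a z ^ 2)) D := fun h =>
    (T.int_rho_mul h.bm.sq).const_mul μ
  have hq : ∀ {a : ℂ → ℝ}, Bdd2 a → ∫ z in D, rho φ z * a z = 0 →
      0 ≤ ∫ z in D, (dx a z ^ 2 + dy a z ^ 2 - μ * (rho φ z * a z ^ 2)) := fun h h0 => by
    rw [integral_sub (hi1 h) (hi2 h), integral_const_mul, sub_nonneg]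
    exact S.poincare2 h h0
  set m := ∫ z in D, rho φ z * a z with hm
  have hm0 : m ≠ 0 := fun h => absurd (hq a1 h) (not_le.2 a4)
  set κ := ∫ z in D, (dx a z ^ 2 + dy a z ^ 2 - μ * (rho φ z * a z ^ 2)) with hκ
  refine ⟨-κ / m ^ 2, div_pos (by linarith) (by positivity), fun ψ hψ h0 => ?_⟩
  have p0 : Bdd1 ψ := .of_contDiff (hψ.of_le (by norm_num))
  have p1 := p0.bdd2
  set t := (∫ z in D, rho φ z * ψ z) / m with ht
  have e1 : ∀ z ∈ D, dx (fun w => ψ w - t * a w) z = dx ψ z - t * dx a z := fun z hz => by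
    rw [dx_sub (p1.differentiableAt hz) ((a1.differentiableAt hz).const_mul t),
      dx_mul (differentiableAt_const t) (a1.differentiableAt hz)]; simp
  have e2 : ∀ z ∈ D, dy (fun w => ψ w - t * a w) z = dy ψ z - t * dy a z := fun z hz => by
    rw [dy_sub (p1.differentiableAt hz) ((a1.differentiableAt hz).const_mul t),
      dy_mul (differentiableAt_const t) (a1.differentiableAt hz)]; simp
  have f1 : Bdd2 fun w => ψ w - t * a w :=
    ⟨p1.cd.sub (contDiffOn_const.mul a1.cd), p1.bm.sub (a1.bm.const_mul t),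
      (p1.lx.sub (a1.lx.const_mul t)).ae_eq (sl_ae_mem.mono fun z hz => (e1 z hz).symm),
      (p1.ly.sub (a1.ly.const_mul t)).ae_eq (sl_ae_mem.mono fun z hz => (e2 z hz).symm)⟩
  have f2 : ∫ z in D, rho φ z * (ψ z - t * a z) = 0 := by
    have : ∫ z in D, rho φ z * (ψ z - t * a z) =
        ∫ z in D, (rho φ z * ψ z - t * (rho φ z * a z)) :=
      integral_congr_ae (Eventually.of_forall fun z => by simp only; ring)
    rw [this, integral_sub (T.int_rho_mul p1.bm)
      ((T.int_rho_mul a1.bm).const_mul t), integral_const_mul, ← hm, ht,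
      div_mul_cancel₀ _ hm0, sub_self]
  have bl : IntegrableOn (lap a) D :=
    ((T.int_rho_mul a1.bm).const_mul (-μ)).congr (sl_ae_mem.mono fun z hz => by
      simp only [a3 z hz]; ring)
  have f3 := dirichlet_orthL hψ h0 a2 a1 bl
  have f4 := hq f1 f2
  have i1 := Integrable.sub' (hi1 p1) (hi2 p1)
  have i2 : IntegrableOn (fun z => -2 * t * (dx ψ z * dx a z + dy ψ z * dy a z + ψ z * lap a z))
      D := (((p1.lx.integrable_mul a1.lx).add (p1.ly.integrable_mul a1.ly)).add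
        (p1.bm.mul_integrableOn bl)).const_mul _
  have i3 : IntegrableOn (fun z => t ^ 2 * (dx a z ^ 2 + dy a z ^ 2 - μ * (rho φ z * a z ^ 2)))
      D := ((hi1 a1).sub (hi2 a1)).const_mul _
  have f5 : ∫ z in D, (dx (fun w => ψ w - t * a w) z ^ 2 + dy (fun w => ψ w - t * a w) z ^ 2 -
      μ * (rho φ z * (ψ z - t * a z) ^ 2)) =
      ∫ z in D, ((dx ψ z ^ 2 + dy ψ z ^ 2 - μ * (rho φ z * ψ z ^ 2)) +
        (-2 * t * (dx ψ z * dx a z + dy ψ z * dy a z + ψ z * lap a z) +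
          t ^ 2 * (dx a z ^ 2 + dy a z ^ 2 - μ * (rho φ z * a z ^ 2)))) :=
    setIntegral_congr_fun measurableSet_ball fun z hz => by
      simp only [e1 z hz, e2 z hz, a3 z hz]; ring
  rw [f5, integral_add i1 (i2.fun_add i3), integral_add i2 i3, integral_sub (hi1 p1) (hi2 p1),
    integral_const_mul, integral_const_mul, integral_const_mul, f3, ← hκ] at f4
  have : -κ / m ^ 2 * (∫ z in D, rho φ z * ψ z) ^ 2 = -(t ^ 2 * κ) := by
    rw [ht]; field_simp
  rw [this]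
  linarith

/-- Strict Dirichlet inequality for Green potentials. -/
lemma LSetup.exists_gap (S : LSetup φ μ) : ∃ γ : ℝ, 0 < γ ∧ ∀ k : ℂ → ℝ,
    MemLp k 2 (volume.restrict D) → γ * (∫ z in D, rho φ z * GR k z) ^ 2 ≤
      (∫ z in D, k z * GR k z) - μ * ∫ z in D, rho φ z * GR k z ^ 2 := by
  obtain ⟨γ, hγ, h⟩ := S.exists_gap_smooth
  obtain ⟨G, hG0, hG⟩ := exists_GR_bound
  refine ⟨γ, hγ, fun k hk => ?_⟩
  have hε : ∀ j : ℕ, (0 : ℝ) < 1 / ((j : ℝ) + 1) := fun j => by positivity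
  choose ψ h1 h2 h3 using fun j => dense_lap_real hk (hε j)
  have h4 : ∀ j, ContDiff ℝ 2 (ψ j) := fun j => (h1 j).of_le (by norm_cast)
  have bψ : ∀ j, BM (ψ j) := fun j => .of_continuous (h4 j).continuous
  have bl : ∀ j, BM (lap (ψ j)) := fun j => .lap_of_contDiff (h4 j)
  have hd : ∀ j, MemLp (fun z => k z + lap (ψ j) z) 2 (volume.restrict D) := fun j =>
    hk.add (bl j).memLp
  have hε0 : Tendsto (fun j : ℕ => (1 : ℝ) / ((j : ℝ) + 1)) atTop (𝓝 0) :=
    tendsto_one_div_add_atTop_nhds_zero_nat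
  have hε1 : ∀ j : ℕ, (1 : ℝ) / ((j : ℝ) + 1) ≤ 1 := fun j => by
    rw [div_le_one (by positivity)]; linarith [Nat.cast_nonneg (α := ℝ) j]
  have h5 : ∀ j, ∀ x ∈ D, |ψ j x - GR k x| ≤ Real.sqrt (G * (1 / ((j : ℝ) + 1))) := by
    intro j x hx
    refine Real.abs_le_sqrt ?_
    have e := GR_sub_mul hk (bl j).neg.memLp 1 (ball_subset_closedBall hx)
    rw [← GR_rep (h4 j) (h2 j) hx] at e
    have e2 := (hG _ (hd j)).1 x (ball_subset_closedBall hx)
    simp only [one_mul, sub_neg_eq_add] at e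
    rw [e] at e2
    calc (ψ j x - GR k x) ^ 2 = (GR k x - ψ j x) ^ 2 := by ring
      _ ≤ _ := e2.trans (mul_le_mul_of_nonneg_left (h3 j) hG0.le)
  have hδ : Tendsto (fun j : ℕ => Real.sqrt (G * (1 / ((j : ℝ) + 1)))) atTop (𝓝 0) := by
    simpa using (hε0.const_mul G).sqrt
  have h6 : ∀ x ∈ D, Tendsto (fun j => ψ j x) atTop (𝓝 (GR k x)) := fun x hx =>
    tendsto_sub_nhds_zero_iff.1 (squeeze_zero_norm (fun j => h5 j x hx) hδ)
  obtain ⟨B, hB0, hB⟩ := (bm_GR hk).bdd'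
  have h7 : ∀ j, ∀ x ∈ D, |ψ j x| ≤ B + Real.sqrt G := fun j x hx => by
    have a1 := h5 j x hx
    have a2 : |GR k x| ≤ B := hB x hx
    have a3 : Real.sqrt (G * (1 / ((j : ℝ) + 1))) ≤ Real.sqrt G :=
      Real.sqrt_le_sqrt (by nlinarith [hε1 j])
    have a4 := abs_sub_abs_le_abs_sub (ψ j x) (GR k x)
    linarith
  set B' := B + Real.sqrt G with hB'
  have hB'0 : 0 ≤ B' := by positivity
  have t0 : ∀ {w : ℂ → ℝ}, IntegrableOn w D → ∀ n : ℕ,
      Tendsto (fun j => ∫ z in D, w z * ψ j z ^ n) atTop (𝓝 (∫ z in D, w z * GR k z ^ n)) := by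
    intro w hw n
    refine tendsto_integral_of_dominated_convergence (fun z => ‖w z‖ * B' ^ n)
      (fun j => hw.aestronglyMeasurable.mul ((bψ j).meas.pow n)) (hw.norm.mul_const _)
      (fun j => ae_restrict_of_forall_mem measurableSet_ball fun z hz => ?_)
      (ae_restrict_of_forall_mem measurableSet_ball fun z hz => ((h6 z hz).pow n).const_mul _)
    rw [norm_mul, norm_pow]
    exact mul_le_mul_of_nonneg_left (pow_le_pow_left₀ (norm_nonneg _) (h7 j z hz) n)
      (norm_nonneg _)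
  have t1 := t0 S.toLAn.integrableOn_rho 1
  have t2 := t0 S.toLAn.integrableOn_rho 2
  have t3 := t0 (integrableOn_of_memLp hk) 1
  simp only [pow_one] at t1 t3
  have t4 : Tendsto (fun j => ∫ z in D, (k z + lap (ψ j) z) * ψ j z) atTop (𝓝 0) := by
    have hδ' : Tendsto (fun j : ℕ => Real.sqrt (π * (1 / ((j : ℝ) + 1))) * B') atTop (𝓝 0) := by
      simpa using (hε0.const_mul π).sqrt.mul_const B'
    refine squeeze_zero_norm (fun j => ?_) hδ'
    have a1 := sq_integral_norm_le (hd j)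
    simp only [Real.norm_eq_abs, sq_abs] at a1
    have a2 : ∫ z in D, |k z + lap (ψ j) z| ≤ Real.sqrt (π * (1 / ((j : ℝ) + 1))) :=
      Real.le_sqrt_of_sq_le (a1.trans (mul_le_mul_of_nonneg_left (h3 j) Real.pi_pos.le))
    refine le_trans (norm_integral_le_of_norm_le ((integrableOn_of_memLp (hd j)).norm.mul_const B')
      (ae_restrict_of_forall_mem measurableSet_ball fun z hz => ?_)) ?_
    · rw [norm_mul]
      exact mul_le_mul_of_nonneg_left (h7 j z hz) (norm_nonneg _)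
    · rw [integral_mul_const]
      exact mul_le_mul_of_nonneg_right a2 hB'0
  have t5 := t3.sub t4
  rw [sub_zero] at t5
  refine le_of_tendsto_of_tendsto' ((t1.pow 2).const_mul γ) (t5.sub (t2.const_mul μ)) fun j => ?_
  refine (h _ (h4 j) (h2 j)).trans (le_of_eq ?_)
  rw [dirichlet_energy (h4 j) (h2 j), ← integral_sub ((bψ j).memLp_mul hk |> integrableOn_of_memLp)
    ((bψ j).memLp_mul (hd j) |> integrableOn_of_memLp)]
  congr 1
  exact integral_congr_ae (Eventually.of_forall fun z => by simp only; ring)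

end Vale.Agent.P071
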