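import Vale.Agent.P071L.Setup
import Vale.Agent.P071.Conf

/-!
# Boundary extension of the conformal map
-/

open Complex Metric Set Filter Topology MeasureTheory
open scoped ContDiff ComplexConjugate Real

namespace Vale.Agent.P071

open Vale.Agent.Lib.RMT

variable {Ω : Set ℂ} {p : ℂ} {φ ψ σ : ℂ → ℂ} {K t₀ : ℝ}

lemma LPair.deriv_ne (h : LPair Ω p φ ψ) {z : ℂ} (hz : z ∈ D) : deriv φ z ≠ 0 := by
  have hφz : HasDerivAt φ (deriv φ z) z :=
    (h.diff.differentiableAt (isOpen_ball.mem_nhds hz)).hasDerivAt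
  have h2 := ((h.diff'.differentiableAt (h.isOpen.mem_nhds (h.maps hz))).hasDerivAt.comp z hφz).deriv
  have h3 : (ψ ∘ φ) =ᶠ[𝓝 z] id := mem_of_superset (isOpen_ball.mem_nhds hz) h.left
  rw [h3.deriv_eq, deriv_id] at h2
  intro h0
  rw [h0, mul_zero] at h2
  exact one_ne_zero h2

lemma growth_compl_ne (h : LPair Ω p φ ψ) : Ωᶜ.Nonempty := by
  refine nonempty_compl.2 ?_
  rintro rfl
  exact NormedSpace.unbounded_univ ℝ ℂ h.bounded

lemma growth_move (hc : Cone Ω σ K t₀) {y x w : ℂ} (hy : y ∈ frontier Ω) (hx : x ∈ closure Ω)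
    (hxy : ‖x - y‖ ≤ t₀) (hσ : σ y ≠ 0) {t : ℝ} (ht : 0 < t) (ht' : 2 * t ≤ t₀)
    (hw : ‖w - (x + t * σ y)‖ < ‖σ y‖ / (K + 1) * t) : w ∈ Ω := by
  have hK := hc.K_nonneg
  have hn : 0 < ‖σ y‖ := norm_pos_iff.2 hσ
  set e : ℂ := (w - (x + t * σ y)) / σ y with he
  have h1 : (K + 1) * ‖e‖ < t := by
    rw [he, norm_div, mul_div_assoc', div_lt_iff₀ hn]
    rw [div_mul_eq_mul_div, lt_div_iff₀ (by linarith)] at hw
    linarith
  have h2 : w = x + (t + e) * σ y := by rw [he]; field_simp; ring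
  have h3 := abs_re_le_norm e
  have h4 := abs_im_le_norm e
  have h5 := norm_nonneg e
  rw [h2]
  refine hc.mem y hy x hx hxy _ ?_ ?_
  · simp only [add_im, ofReal_im, zero_add, add_re, ofReal_re]
    have := neg_abs_le e.re
    nlinarith
  · have := norm_add_le (t : ℂ) e
    rw [Complex.norm_real, Real.norm_of_nonneg ht.le] at this
    nlinarith

lemma growth_geo (h : LPair Ω p φ ψ) (hc : Cone Ω σ K t₀) : ∃ a M t₁ : ℝ, 0 < a ∧ a ≤ M ∧ 0 < t₁ ∧
    ∀ x ∈ Ω, infDist x Ωᶜ ≤ t₁ → ∃ y v : ℂ, ‖x - y‖ = infDist x Ωᶜ ∧ ‖v‖ ≤ M ∧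
      ∀ t : ℝ, 0 < t → t ≤ t₁ → ball (x + t * v) (a * t) ⊆ Ω ∧ ball (y - t * v) (a * t) ⊆ Ωᶜ := by
  have hK := hc.K_nonneg
  have ht₀ := hc.t_pos
  have hne := growth_compl_ne h
  have hcp : IsCompact (frontier Ω) :=
    Metric.isCompact_of_isClosed_isBounded isClosed_frontier
      (h.bounded.closure.subset frontier_subset_closure)
  have hnot : ∀ y ∈ frontier Ω, y ∉ Ω := fun y hy => by
    rw [h.isOpen.frontier_eq] at hy; exact hy.2
  have hσ : ∀ y ∈ frontier Ω, σ y ≠ 0 := by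
    intro y hy h0
    have := hc.mem y hy y (frontier_subset_closure hy) (by simpa using ht₀.le) t₀
      (by simpa using ht₀) (by rw [Complex.norm_real, Real.norm_of_nonneg ht₀.le])
    rw [h0, mul_zero, add_zero] at this
    exact hnot y hy this
  obtain ⟨-, -, y₀, hy₀, -⟩ := conf_nearest h.isOpen hne (h.maps (mem_ball_self one_pos))
  obtain ⟨y₁, hy₁, hmin⟩ := hcp.exists_isMinOn ⟨y₀, hy₀⟩ hc.cont.norm.continuousOn
  obtain ⟨y₂, hy₂, hmax⟩ := hcp.exists_isMaxOn ⟨y₀, hy₀⟩ hc.cont.norm.continuousOn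
  have hm : 0 < ‖σ y₁‖ := norm_pos_iff.2 (hσ y₁ hy₁)
  have hmM : ‖σ y₁‖ ≤ ‖σ y₂‖ := hmax hy₁
  have hM : 0 < ‖σ y₂‖ := hm.trans_le hmM
  have ha : ‖σ y₁‖ / (K + 1) ≤ ‖σ y₁‖ := div_le_self hm.le (by linarith)
  refine ⟨‖σ y₁‖ / (K + 1), ‖σ y₂‖, min (t₀ / 2) (t₀ / (2 * ‖σ y₂‖)), by positivity,
    ha.trans hmM, by positivity, fun x hx hd => ?_⟩
  obtain ⟨-, -, y, hy, hxy⟩ := conf_nearest h.isOpen hne hx
  have e1 := min_le_left (t₀ / 2) (t₀ / (2 * ‖σ y₂‖))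
  have e2 := min_le_right (t₀ / 2) (t₀ / (2 * ‖σ y₂‖))
  have b1 : ‖σ y₁‖ ≤ ‖σ y‖ := hmin hy
  have b2 : ‖σ y‖ ≤ ‖σ y₂‖ := hmax hy
  refine ⟨y, σ y, hxy, b2, fun t ht ht' => ⟨fun w hw => ?_, fun w hw hwΩ => ?_⟩⟩
  · rw [mem_ball, dist_eq_norm] at hw
    refine growth_move hc hy (subset_closure hx) (by linarith) (hσ y hy) ht (by linarith)
      (hw.trans_le (by gcongr))
  · rw [mem_ball, dist_eq_norm] at hw
    have h3 : 2 * ‖σ y₂‖ * t ≤ t₀ := by
      have := ht'.trans e2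
      rw [le_div_iff₀ (by positivity)] at this
      linarith
    refine hnot y hy (growth_move hc hy (subset_closure hwΩ) ?_ (hσ y hy) ht (by linarith) ?_)
    · have h4 := norm_sub_le (w - (y - t * σ y)) (t * σ y)
      rw [show w - (y - t * σ y) - t * σ y = w - y by ring, norm_mul, Complex.norm_real,
        Real.norm_of_nonneg ht.le] at h4
      have h5 : ‖σ y₁‖ / (K + 1) * t ≤ ‖σ y₂‖ * t := by gcongr; exact ha.trans hmM
      have h6 : t * ‖σ y‖ ≤ t * ‖σ y₂‖ := by gcongr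
      linarith
    · rw [show y - (w + t * σ y) = -(w - (y - t * σ y)) by ring, norm_neg]
      exact hw.trans_le (by gcongr)

lemma growth_harnack {g : ℂ → ℂ} {c x : ℂ} {r : ℝ} (hr : 0 < r)
    (hg : DifferentiableOn ℂ g (ball c r)) (hm : MapsTo g (ball c r) D) (hx : ‖x - c‖ ≤ r / 2) :
    3 / 16 * (1 - ‖g c‖ ^ 2) ≤ 1 - ‖g x‖ ^ 2 ∧ 3 / 16 * (1 - ‖g x‖ ^ 2) ≤ 1 - ‖g c‖ ^ 2 := by
  have hx' : x ∈ ball c r := by rw [mem_ball, dist_eq_norm]; linarith
  have ha : ‖g c‖ < 1 := mem_ball_zero_iff.1 (hm (mem_ball_self hr))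
  have hw : ‖g x‖ < 1 := mem_ball_zero_iff.1 (hm hx')
  have h1 := norm_mob_le_of_ball hg (fun w hw => ball_subset_closedBall (hm hw)) ha hx'
  have h2 : ‖mob (g c) (g x)‖ ≤ 1 / 2 := h1.trans (by rw [div_le_iff₀ hr]; linarith)
  have h3 := one_sub_norm_mob_sq ha hw.le
  generalize g c = a at *
  generalize g x = w at *
  have hN : 0 < ‖1 - conj a * w‖ := norm_pos_iff.2 (mob_den_ne ha hw.le)
  have h4 : 3 / 4 * ‖1 - conj a * w‖ ^ 2 ≤ (1 - ‖a‖ ^ 2) * (1 - ‖w‖ ^ 2) := by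
    rw [← le_div_iff₀ (by positivity), ← h3]
    nlinarith [norm_nonneg (mob a w)]
  have h5 := norm_sub_norm_le (1 : ℂ) (conj a * w)
  rw [norm_one, norm_mul, RCLike.norm_conj] at h5
  have ha0 := norm_nonneg a
  have hw0 := norm_nonneg w
  have hA : 0 < 1 - ‖a‖ ^ 2 := by nlinarith
  have hW : 0 < 1 - ‖w‖ ^ 2 := by nlinarith
  have h6 : (1 - ‖a‖ ^ 2) / 2 ≤ ‖1 - conj a * w‖ := by nlinarith
  have h7 : (1 - ‖w‖ ^ 2) / 2 ≤ ‖1 - conj a * w‖ := by nlinarith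
  have h8 : ((1 - ‖a‖ ^ 2) / 2) ^ 2 ≤ ‖1 - conj a * w‖ ^ 2 := by gcongr
  have h9 : ((1 - ‖w‖ ^ 2) / 2) ^ 2 ≤ ‖1 - conj a * w‖ ^ 2 := by gcongr
  generalize 1 - ‖a‖ ^ 2 = A at *
  generalize 1 - ‖w‖ ^ 2 = W at *
  constructor
  · refine le_of_mul_le_mul_left ?_ hA
    nlinarith
  · refine le_of_mul_le_mul_left ?_ hW
    nlinarith

lemma growth_bdd (h : LPair Ω p φ ψ) : ∃ B : ℝ, 0 < B ∧ (∀ x ∈ Ω, infDist x Ωᶜ ≤ B) ∧
    ∀ z ∈ D, ‖deriv φ z‖ * (1 - ‖z‖ ^ 2) ≤ B := by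
  obtain ⟨q, hq⟩ := growth_compl_ne h
  obtain ⟨B, hB0, hB⟩ := h.bounded.subset_ball_lt 0 q
  refine ⟨B, hB0, fun x hx => (infDist_le_dist_of_mem hq).trans (mem_ball.1 (hB hx)).le,
    fun z hz => ?_⟩
  have hB' : (B : ℂ) ≠ 0 := ofReal_ne_zero.2 hB0.ne'
  have hn : ∀ w ∈ D, ‖(φ w - q) / B‖ < 1 := fun w hw => by
    rw [norm_div, Complex.norm_real, Real.norm_of_nonneg hB0.le, div_lt_one hB0, ← dist_eq_norm]
    exact hB (h.maps hw)
  have h1 := schwarz_pick (g := fun w => (φ w - q) / B) ((h.diff.sub_const q).div_const _)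
    (fun w hw => mem_closedBall_zero_iff.2 (hn w hw).le) (mem_ball_zero_iff.1 hz) (hn z hz)
  have hφz : HasDerivAt φ (deriv φ z) z :=
    (h.diff.differentiableAt (isOpen_ball.mem_nhds hz)).hasDerivAt
  rw [((hφz.sub_const q).div_const (B : ℂ)).deriv, norm_div, Complex.norm_real,
    Real.norm_of_nonneg hB0.le, div_mul_eq_mul_div, div_le_iff₀ hB0] at h1
  nlinarith [sq_nonneg ‖(φ z - q) / B‖]

lemma growth_ext {q z : ℂ} {R T : ℝ} (hφ : DifferentiableOn ℂ φ D) (hR : 0 < R)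
    (hfar : ∀ w ∈ D, R ≤ ‖φ w - q‖) (hz : z ∈ D) (h1 : R < ‖φ z - q‖) (h2 : ‖φ z - q‖ ≤ T) :
    ‖deriv φ z‖ * (1 - ‖z‖ ^ 2) * R ≤ T ^ 2 := by
  have hz1 : ‖z‖ < 1 := mem_ball_zero_iff.1 hz
  have hφz : HasDerivAt φ (deriv φ z) z :=
    (hφ.differentiableAt (isOpen_ball.mem_nhds hz)).hasDerivAt
  have hnz : ∀ w ∈ D, φ w - q ≠ 0 := fun w hw => norm_pos_iff.1 (hR.trans_le (hfar w hw))
  set G : ℂ → ℂ := fun w => (R : ℂ) / (φ w - q) with hG
  have hGn : ∀ w, ‖G w‖ = R / ‖φ w - q‖ := by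
    intro w
    rw [hG]
    simp only
    rw [norm_div, Complex.norm_real, Real.norm_of_nonneg hR.le]
  have hGd : DifferentiableOn ℂ G (ball 0 1) :=
    (differentiableOn_const _).div (hφ.sub_const _) hnz
  have hGm : MapsTo G (ball 0 1) (closedBall 0 1) := by
    intro w hw
    rw [mem_closedBall_zero_iff, hGn, div_le_one (hR.trans_le (hfar w hw))]
    exact hfar w hw
  have hp : 0 < ‖φ z - q‖ := hR.trans h1
  have h3 := schwarz_pick hGd hGm hz1 (by rw [hGn, div_lt_one hp]; exact h1)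
  have h4 : HasDerivAt G ((0 * (φ z - q) - R * deriv φ z) / (φ z - q) ^ 2) z :=
    (hasDerivAt_const z (R : ℂ)).fun_div (hφz.sub_const _) (hnz z hz)
  rw [h4.deriv, zero_mul, zero_sub, norm_div, norm_neg, norm_mul, norm_pow,
    Complex.norm_real, Real.norm_of_nonneg hR.le, div_mul_eq_mul_div,
    div_le_iff₀ (by positivity)] at h3
  have h5 : ‖φ z - q‖ ^ 2 ≤ T ^ 2 := by gcongr
  nlinarith [mul_nonneg (sq_nonneg ‖G z‖) (sq_nonneg ‖φ z - q‖)]

lemma growth_upper (h : LPair Ω p φ ψ) (hc : Cone Ω σ K t₀) : ∃ C : ℝ, 0 ≤ C ∧ ∀ z ∈ D,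
    ‖deriv φ z‖ * (1 - ‖z‖ ^ 2) ≤ C * infDist (φ z) Ωᶜ := by
  obtain ⟨a, M, t₁, ha, haM, ht₁, hg⟩ := growth_geo h hc
  obtain ⟨B, hB, -, hB'⟩ := growth_bdd h
  refine ⟨(1 + M) ^ 2 / a + B / t₁, by positivity, fun z hz => ?_⟩
  obtain ⟨hd, hbx, -⟩ := conf_nearest h.isOpen (growth_compl_ne h) (h.maps hz)
  have hg' := hg _ (h.maps hz)
  generalize infDist (φ z) Ωᶜ = d at *
  have p1 : 0 ≤ (1 + M) ^ 2 / a * d := by positivity
  have p2 : 0 ≤ B / t₁ * d := by positivity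
  rw [add_mul]
  rcases le_total d t₁ with hdt | hdt
  · obtain ⟨y, v, hxy, hv, hb⟩ := hg' hdt
    obtain ⟨-, hout⟩ := hb d hd hdt
    have h1 := conf_far hd (by positivity) hbx hout
    have h2 : ‖φ z - (y - d * v)‖ ≤ d * (1 + M) := by
      have := norm_add_le (φ z - y) (d * v)
      rw [show φ z - y + d * v = φ z - (y - d * v) by ring, hxy, norm_mul, Complex.norm_real,
        Real.norm_of_nonneg hd.le] at this
      have h3 : d * ‖v‖ ≤ d * M := by gcongr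
      linarith
    have h3 := growth_ext (R := a * d) h.diff (by positivity) (fun w hw => by
      by_contra hcon
      exact hout (by rw [mem_ball, dist_eq_norm]; exact not_le.1 hcon) (h.maps hw)) hz
      (by linarith) h2
    have h4 : ‖deriv φ z‖ * (1 - ‖z‖ ^ 2) ≤ (1 + M) ^ 2 / a * d := by
      rw [div_mul_eq_mul_div, le_div_iff₀ ha]
      refine le_of_mul_le_mul_left ?_ hd
      nlinarith
    linarith
  · have h1 : B ≤ B / t₁ * d := by
      rw [div_mul_eq_mul_div, le_div_iff₀ ht₁]; gcongr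
    linarith [hB' z hz]

lemma growth_lower (h : LPair Ω p φ ψ) (hc : Cone Ω σ K t₀) : ∃ α C : ℝ, 0 < α ∧ α ≤ 1 ∧ 0 ≤ C ∧
    ∀ z ∈ D, infDist (φ z) Ωᶜ ≤ C * (1 - ‖z‖) ^ α := by
  obtain ⟨a, M, t₁, ha, haM, ht₁, hg⟩ := growth_geo h hc
  obtain ⟨B, hB, hB', -⟩ := growth_bdd h
  have hM : 0 < M := ha.trans_le haM
  have hne := growth_compl_ne h
  set θ : ℝ := 1 - a / (2 * M) with hθ
  have hθ0 : 0 < θ := by
    have : a / (2 * M) ≤ 1 / 2 := by rw [div_le_div_iff₀ (by positivity) two_pos]; linarith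
    linarith
  have hθ1 : θ < 1 := by
    have : 0 < a / (2 * M) := by positivity
    linarith
  obtain ⟨n₀, hn₀⟩ := exists_pow_lt_of_lt_one (show (0 : ℝ) < 3 / 16 by norm_num) hθ1
  have hN : θ ^ (n₀ + 1) ≤ 3 / 16 :=
    (pow_le_pow_of_le_one hθ0.le hθ1.le (Nat.le_succ _)).trans hn₀.le
  set d₀ : ℝ := min t₁ (2 * t₁ * M) with hd₀
  have hd₀' : 0 < d₀ := by positivity
  obtain ⟨s, hs1, hs⟩ := conf_core h.bounded h.diff' h.maps' (R := min d₀ (a * t₁)) (by positivity)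
  have hs' : 0 < 1 - s := by linarith
  set α : ℝ := ((n₀ + 1 : ℕ) : ℝ)⁻¹ with hα
  have hα0 : 0 < α := by positivity
  have hα1 : α ≤ 1 := inv_le_one_of_one_le₀ (by exact_mod_cast Nat.le_add_left 1 n₀)
  set c₀ : ℝ := 2 / ((3 / 16) ^ 2 * (1 - s)) with hc₀
  have hc₀' : 0 < c₀ := by positivity
  refine ⟨α, 2 * t₁ * M * c₀ ^ α + B / (1 - s), hα0, hα1, by positivity, fun z hz => ?_⟩
  have hz1 : ‖z‖ < 1 := mem_ball_zero_iff.1 hz
  have hz0 := norm_nonneg z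
  obtain ⟨hd, hbx, -⟩ := conf_nearest h.isOpen hne (h.maps hz)
  have hg' := hg _ (h.maps hz)
  have hB'' := hB' _ (h.maps hz)
  have hsz := hs (φ z)
  rw [h.left z hz] at hsz
  generalize infDist (φ z) Ωᶜ = d at *
  have hq : 0 < (1 - ‖z‖) ^ α := Real.rpow_pos_of_pos (by linarith) _
  have p1 : 0 ≤ 2 * t₁ * M * c₀ ^ α * (1 - ‖z‖) ^ α := by positivity
  have p2 : 0 ≤ B / (1 - s) * (1 - ‖z‖) ^ α := by positivity
  rw [add_mul]
  rcases le_total d d₀ with hdt | hdt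
  · obtain ⟨y, v, -, hv, hb⟩ := hg' (hdt.trans (min_le_left _ _))
    have htk : ∀ k : ℕ, 0 < t₁ * θ ^ k ∧ t₁ * θ ^ k ≤ t₁ := fun k =>
      ⟨by positivity, mul_le_of_le_one_right ht₁.le (pow_le_one₀ hθ0.le hθ1.le)⟩
    have chain : ∀ k : ℕ, (3 / 16) ^ k * (1 - s) ≤ 1 - ‖ψ (φ z + (t₁ * θ ^ k : ℝ) * v)‖ ^ 2 := by
      intro k
      induction k with
      | zero =>
        have h1 := (hb t₁ ht₁ le_rfl).1
        have h2 : ‖ψ (φ z + t₁ * v)‖ ≤ s := by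
          refine hs _ ((min_le_right _ _).trans ((le_infDist hne).2 fun w hw => ?_))
          by_contra hcon
          exact hw (h1 (by rw [mem_ball, dist_comm]; exact not_le.1 hcon))
        simp only [pow_zero, one_mul, mul_one]
        nlinarith [norm_nonneg (ψ (φ z + t₁ * v))]
      | succ k ih =>
        obtain ⟨k1, k2⟩ := htk k
        have h1 := (hb _ k1 k2).1
        have h2 := (growth_harnack (x := φ z + (t₁ * θ ^ (k + 1) : ℝ) * v) (by positivity)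
          (h.diff'.mono h1) (h.maps'.mono_left h1) (by
            have e : φ z + (t₁ * θ ^ (k + 1) : ℝ) * v - (φ z + (t₁ * θ ^ k : ℝ) * v) =
                -((t₁ * θ ^ k * (a / (2 * M)) : ℝ) * v) := by
              rw [pow_succ, hθ]; push_cast; ring
            rw [e, norm_neg, norm_mul, Complex.norm_real, Real.norm_of_nonneg (by positivity)]
            calc t₁ * θ ^ k * (a / (2 * M)) * ‖v‖ ≤ t₁ * θ ^ k * (a / (2 * M)) * M := by gcongr
              _ = a * (t₁ * θ ^ k) / 2 := by field_simp)).1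
        rw [pow_succ]
        linarith
    have hx1 : d / (2 * t₁ * M) ≤ 1 := by
      rw [div_le_one (by positivity)]; exact hdt.trans (min_le_right _ _)
    obtain ⟨n, hn1, hn2⟩ := exists_nat_pow_near_of_lt_one (x := d / (2 * t₁ * M))
      (by positivity) hx1 hθ0 hθ1
    have h3 := (growth_harnack (x := φ z + (t₁ * θ ^ (n + 1) : ℝ) * v) hd
      (h.diff'.mono hbx) (h.maps'.mono_left hbx) (by
        rw [add_sub_cancel_left, norm_mul, Complex.norm_real, Real.norm_of_nonneg (htk _).1.le]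
        rw [lt_div_iff₀ (by positivity)] at hn1
        calc t₁ * θ ^ (n + 1) * ‖v‖ ≤ t₁ * θ ^ (n + 1) * M := by gcongr
          _ ≤ d / 2 := by linarith)).2
    rw [h.left z hz] at h3
    have h4 := chain (n + 1)
    have h5 : (d / (2 * t₁ * M)) ^ (n₀ + 1) ≤ (3 / 16) ^ n := by
      calc (d / (2 * t₁ * M)) ^ (n₀ + 1) ≤ (θ ^ n) ^ (n₀ + 1) := by gcongr
        _ = (θ ^ (n₀ + 1)) ^ n := by rw [← pow_mul, ← pow_mul, mul_comm]
        _ ≤ (3 / 16) ^ n := by gcongr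
    have h6 : (d / (2 * t₁ * M)) ^ (n₀ + 1) ≤ c₀ * (1 - ‖z‖) := by
      refine h5.trans ?_
      rw [hc₀, div_mul_eq_mul_div, le_div_iff₀ (by positivity)]
      rw [pow_succ] at h4
      nlinarith
    have h7 : d / (2 * t₁ * M) ≤ c₀ ^ α * (1 - ‖z‖) ^ α := by
      rw [← Real.mul_rpow hc₀'.le (by linarith)]
      calc d / (2 * t₁ * M) = ((d / (2 * t₁ * M)) ^ (n₀ + 1)) ^ α :=
            (Real.pow_rpow_inv_natCast (by positivity) (Nat.succ_ne_zero _)).symm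
        _ ≤ _ := Real.rpow_le_rpow (by positivity) h6 hα0.le
    rw [div_le_iff₀ (by positivity)] at h7
    linarith
  · have h1 := hsz ((min_le_left _ _).trans hdt)
    have h2 : 1 - ‖z‖ ≤ (1 - ‖z‖) ^ α := by
      have := Real.rpow_le_rpow_of_exponent_ge (x := 1 - ‖z‖) (by linarith) (by linarith) hα1
      rwa [Real.rpow_one] at this
    have h3 : B ≤ B / (1 - s) * (1 - ‖z‖) ^ α := by
      rw [div_mul_eq_mul_div, le_div_iff₀ hs']
      gcongr
      linarith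
    linarith

theorem LPair.exists_growth (h : LPair Ω p φ ψ) (hc : Cone Ω σ K t₀) :
    ∃ α C : ℝ, 0 < α ∧ α ≤ 1 ∧ 0 ≤ C ∧ ∀ z ∈ D, ‖deriv φ z‖ ≤ C * (1 - ‖z‖) ^ (α - 1) ∧
      infDist (φ z) Ωᶜ ≤ C * (1 - ‖z‖) ^ α := by
  obtain ⟨C₁, hC₁, h1⟩ := growth_upper h hc
  obtain ⟨α, C₂, hα0, hα1, hC₂, h2⟩ := growth_lower h hc
  refine ⟨α, C₁ * C₂ + C₂, hα0, hα1, by positivity, fun z hz => ⟨?_, ?_⟩⟩
  · have hz1 : 0 < 1 - ‖z‖ := by linarith [mem_ball_zero_iff.1 hz]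
    have hz0 := norm_nonneg z
    have hq : 0 < (1 - ‖z‖) ^ α := Real.rpow_pos_of_pos hz1 _
    rw [Real.rpow_sub_one hz1.ne', mul_div_assoc', le_div_iff₀ hz1]
    have h3 := h1 z hz
    have h4 : C₁ * infDist (φ z) Ωᶜ ≤ C₁ * (C₂ * (1 - ‖z‖) ^ α) := by gcongr; exact h2 z hz
    have h5 : ‖deriv φ z‖ * (1 - ‖z‖) ≤ ‖deriv φ z‖ * (1 - ‖z‖ ^ 2) := by
      gcongr; nlinarith
    nlinarith [mul_nonneg hC₂ hq.le]
  · have hz1 : 0 ≤ 1 - ‖z‖ := by linarith [mem_ball_zero_iff.1 hz]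
    refine (h2 z hz).trans ?_
    gcongr
    linarith [mul_nonneg hC₁ hC₂]

lemma growth_mem {s : ℂ} (hs : s ∈ Db) {r : ℝ} (h0 : 0 ≤ r) (h1 : r < 1) :
    (r : ℂ) * s ∈ D ∧ ‖(r : ℂ) * s‖ ≤ r := by
  have : ‖(r : ℂ) * s‖ ≤ r := by
    rw [norm_mul, Complex.norm_real, Real.norm_of_nonneg h0]
    exact mul_le_of_le_one_right h0 (mem_closedBall_zero_iff.1 hs)
  exact ⟨mem_ball_zero_iff.2 (this.trans_lt h1), this⟩

lemma growth_radial (hφ : DifferentiableOn ℂ φ D) {α C : ℝ} (hα0 : 0 < α) (hα1 : α ≤ 1)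
    (hC : 0 ≤ C) (hb : ∀ z ∈ D, ‖deriv φ z‖ ≤ C * (1 - ‖z‖) ^ (α - 1)) {s : ℂ} (hs : s ∈ Db)
    {r r' : ℝ} (h0 : 0 ≤ r) (hr : r ≤ r') (h1 : r' < 1) :
    ‖φ (r' * s) - φ (r * s)‖ ≤ C / α * (1 - r) ^ α := by
  have hd : ∀ t ∈ Icc r r', HasDerivAt (fun t : ℝ => φ (t * s) - φ (r * s))
      (deriv φ (t * s) * s) t := by
    intro t ht
    have hm := (growth_mem hs (h0.trans ht.1) (ht.2.trans_lt h1)).1
    have e1 : HasDerivAt (fun w : ℂ => φ (w * s)) (deriv φ (t * s) * s) t :=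
      (hφ.differentiableAt (isOpen_ball.mem_nhds hm)).hasDerivAt.comp (t : ℂ)
        (hasDerivAt_mul_const s)
    exact e1.comp_ofReal.sub_const _
  have hB : ∀ t ∈ Icc r r', HasDerivAt (fun t : ℝ => C / α * ((1 - r) ^ α - (1 - t) ^ α))
      (C * (1 - t) ^ (α - 1)) t := by
    intro t ht
    have e1 : HasDerivAt (fun t : ℝ => (1 - t) ^ α) (-1 * α * (1 - t) ^ (α - 1)) t :=
      ((hasDerivAt_id t).const_sub 1).rpow_const (Or.inl (by simp only [id]; linarith [ht.2]))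
    have e2 : C * (1 - t) ^ (α - 1) = C / α * -(-1 * α * (1 - t) ^ (α - 1)) := by
      have := hα0.ne'
      field_simp
    rw [e2]
    exact (e1.const_sub ((1 - r) ^ α)).const_mul (C / α)
  have := image_norm_le_of_norm_deriv_right_le_deriv_boundary'
    (f := fun t : ℝ => φ (t * s) - φ (r * s)) (a := r) (b := r')
    (fun t ht => (hd t ht).continuousAt.continuousWithinAt)
    (fun t ht => (hd t (Ico_subset_Icc_self ht)).hasDerivWithinAt)
    (B := fun t : ℝ => C / α * ((1 - r) ^ α - (1 - t) ^ α)) (by simp)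
    (fun t ht => (hB t ht).continuousAt.continuousWithinAt)
    (fun t ht => (hB t (Ico_subset_Icc_self ht)).hasDerivWithinAt)
    (fun t ht => by
      obtain ⟨hm, hm'⟩ := growth_mem hs (h0.trans ht.1) (ht.2.trans h1)
      rw [norm_mul]
      calc ‖deriv φ (t * s)‖ * ‖s‖ ≤ ‖deriv φ (t * s)‖ :=
            mul_le_of_le_one_right (norm_nonneg _) (mem_closedBall_zero_iff.1 hs)
        _ ≤ C * (1 - ‖(t : ℂ) * s‖) ^ (α - 1) := hb _ hm
        _ ≤ C * (1 - t) ^ (α - 1) := by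
            refine mul_le_mul_of_nonneg_left (Real.rpow_le_rpow_of_nonpos ?_ ?_ ?_) hC <;>
              linarith [ht.2]) (right_mem_Icc.2 hr)
  refine this.trans ?_
  have : 0 ≤ (1 - r') ^ α := Real.rpow_nonneg (by linarith) _
  gcongr
  linarith

/-- Continuous extension to the closed disc. -/
theorem LPair.exists_extension (h : LPair Ω p φ ψ) (hc : Cone Ω σ K t₀) :
    ∃ f : ℂ → ℂ, ContinuousOn f Db ∧ (∀ z ∈ D, f z = φ z) ∧ ∀ s ∈ S1, f s ∈ frontier Ω := by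
  obtain ⟨α, C, hα0, hα1, hC, hb⟩ := h.exists_growth hc
  have hev : ∀ᶠ r in 𝓝[<] (1 : ℝ), r ∈ Ico (0 : ℝ) 1 := Ico_mem_nhdsLT one_pos
  have hz : ∀ c : ℝ, Tendsto (fun r : ℝ => c * (1 - r) ^ α) (𝓝[<] 1) (𝓝 0) := by
    intro c
    have : ContinuousAt (fun r : ℝ => c * (1 - r) ^ α) 1 :=
      continuousAt_const.mul ((continuousAt_const.sub continuousAt_id).rpow_const (Or.inr hα0.le))
    have h2 := this.tendsto.mono_left (nhdsWithin_le_nhds (s := Iio 1))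
    simpa [Real.zero_rpow hα0.ne'] using h2
  have hrad := fun s (hs : s ∈ Db) r r' => growth_radial h.diff hα0 hα1 hC
    (fun z hz => (hb z hz).1) hs (r := r) (r' := r')
  have hlim : ∀ s ∈ Db, ∃ w, Tendsto (fun r : ℝ => φ (r * s)) (𝓝[<] 1) (𝓝 w) := by
    intro s hs
    refine cauchy_map_iff_exists_tendsto.1 (Metric.cauchy_iff.2 ⟨inferInstance, fun ε hε => ?_⟩)
    refine ⟨_, image_mem_map (hev.and ((hz (C / α)).eventually (gt_mem_nhds hε))), ?_⟩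
    rintro _ ⟨r, hr, rfl⟩ _ ⟨r', hr', rfl⟩
    rcases le_total r r' with hh | hh
    · rw [dist_comm, dist_eq_norm]
      exact (hrad s hs r r' hr.1.1 hh hr'.1.2).trans_lt hr.2
    · rw [dist_eq_norm]
      exact (hrad s hs r' r hr'.1.1 hh hr.1.2).trans_lt hr'.2
  choose! f hf using hlim
  refine ⟨f, ?_, fun z hz' => ?_, fun s hs => ?_⟩
  · refine TendstoUniformlyOn.continuousOn (F := fun (r : ℝ) s => φ (r * s)) (p := 𝓝[<] 1)
      (Metric.tendstoUniformlyOn_iff.2 fun ε hε => ?_) (hev.mono fun r hr => ?_).frequently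
    · filter_upwards [hev, (hz (C / α)).eventually (gt_mem_nhds hε)] with r hr hr' s hs
      refine lt_of_le_of_lt ?_ hr'
      rw [dist_eq_norm]
      refine le_of_tendsto ((hf s hs).sub_const _).norm ?_
      filter_upwards [Ico_mem_nhdsLT hr.2] with r' hr''
      exact hrad s hs r r' hr.1 hr''.1 hr''.2
    · exact h.diff.continuousOn.comp (by fun_prop) fun s hs => (growth_mem hs hr.1 hr.2).1
  · refine tendsto_nhds_unique (hf z (ball_subset_closedBall hz')) ?_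
    have h1 : ContinuousAt (fun r : ℝ => φ (r * z)) 1 := by
      refine ContinuousAt.comp (g := φ) ?_ (by fun_prop)
      simpa using h.diff.continuousOn.continuousAt (isOpen_ball.mem_nhds hz')
    simpa using h1.tendsto.mono_left (nhdsWithin_le_nhds (s := Iio 1))
  · have hs' : s ∈ Db := sphere_subset_closedBall hs
    rw [h.isOpen.frontier_eq]
    refine ⟨mem_closure_of_tendsto (hf s hs')
      (hev.mono fun r hr => h.maps (growth_mem hs' hr.1 hr.2).1), ?_⟩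
    have h1 : infDist (f s) Ωᶜ ≤ 0 := by
      refine le_of_tendsto_of_tendsto (((continuous_infDist_pt Ωᶜ).tendsto _).comp (hf s hs'))
        (hz C) (hev.mono fun r hr => ?_)
      have := (hb _ (growth_mem hs' hr.1 hr.2).1).2
      rwa [norm_mul, mem_sphere_zero_iff_norm.1 hs, mul_one, Complex.norm_real,
        Real.norm_of_nonneg hr.1] at this
    exact (h.isOpen.isClosed_compl.mem_iff_infDist_zero (growth_compl_ne h)).2
      (le_antisymm h1 infDist_nonneg)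

end Vale.Agent.P071
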