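import Vale.Agent.P071L.Sing
import Vale.Agent.P071.SetupLemmas
import Vale.Agent.P071.ZM0

/-!
# Basic facts for the Lipschitz setup
-/

open Complex Metric Set Filter Topology MeasureTheory
open scoped ContDiff ComplexConjugate Real

namespace Vale.Agent.P071

variable {φ : ℂ → ℂ} {μ θ : ℝ}

lemma LAn.analyticAt (S : LAn φ) {z : ℂ} (hz : z ∈ D) : AnalyticAt ℂ φ z :=
  S.diff.analyticAt (isOpen_ball.mem_nhds hz)

lemma LAn.analyticAt_deriv (S : LAn φ) {z : ℂ} (hz : z ∈ D) : AnalyticAt ℂ (deriv φ) z :=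
  (S.analyticAt hz).deriv

lemma LAn.contDiffAt (S : LAn φ) {n : WithTop ℕ∞} {z : ℂ} (hz : z ∈ D) : ContDiffAt ℝ n φ z :=
  (S.analyticAt hz).contDiffAt.restrict_scalars ℝ

lemma LAn.contDiffAt_deriv (S : LAn φ) {n : WithTop ℕ∞} {z : ℂ} (hz : z ∈ D) :
    ContDiffAt ℝ n (deriv φ) z := (S.analyticAt_deriv hz).contDiffAt.restrict_scalars ℝ

lemma LAn.rho_pos (S : LAn φ) {z : ℂ} (hz : z ∈ D) : 0 < rho φ z :=
  pow_pos (norm_pos_iff.mpr (S.ne z hz)) 2

lemma LAn.continuousAt_rho (S : LAn φ) {z : ℂ} (hz : z ∈ D) : ContinuousAt (rho φ) z :=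
  (S.analyticAt_deriv hz).continuousAt.norm.pow 2

lemma LAn.integrableOn_rho (S : LAn φ) : IntegrableOn (rho φ) D := by
  obtain ⟨η, B, h0, h1, h2, -⟩ := S.kato
  exact (h2.integrableOn h0.le h1 (measurable_rho φ) fun y _ => rho_nonneg φ y).1

lemma LAn.integral_rho_pos (S : LAn φ) : 0 < ∫ z in D, rho φ z := by
  refine lt_of_le_of_ne (integral_nonneg fun z => rho_nonneg φ z) fun h => ?_
  have h3 := (integral_eq_zero_iff_of_nonneg (fun z => rho_nonneg φ z) S.integrableOn_rho).1 h.symm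
  have h4 := Measure.eqOn_open_of_ae_eq h3 isOpen_ball
    (fun z hz => (S.continuousAt_rho hz).continuousWithinAt) continuousOn_const
  exact (S.rho_pos (mem_ball_self one_pos)).ne' (h4 (mem_ball_self one_pos))

lemma LAn.memLp_deriv (S : LAn φ) : MemLp (deriv φ) 2 (volume.restrict D) :=
  (memLp_two_iff_integrable_sq_norm (measurable_deriv φ).aestronglyMeasurable).2 S.integrableOn_rho

lemma LAn.integrableOn_mul (S : LAn φ) {Φ : ℂ → ℂ} (h : MemLp Φ 2 (volume.restrict D)) :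
    IntegrableOn (fun z => deriv φ z * Φ z) D := integrableOn_mul_of_memLp S.memLp_deriv h

lemma LAn.adm_integrable (S : LAn φ) {v Φ U : ℂ → ℂ} (hv : MemLp v 2 (volume.restrict D))
    (hΦ : MemLp Φ 2 (volume.restrict D)) (hU : BM U) (hD : MemLp (dD U) 2 (volume.restrict D)) :
    IntegrableOn (fun z => (v z * conj (dD U z) + deriv φ z * Φ z * conj (U z)).re) D := by
  have h1 : IntegrableOn (fun z => deriv φ z * Φ z * conj (U z)) D :=
    (hU.conj.mul_integrableOn (S.integrableOn_mul hΦ)).congr_fun (fun z _ => mul_comm _ _)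
      measurableSet_ball
  exact ((sl_integrable_mul_conj hv hD).add h1).re

lemma UC.bm {U : ℂ → ℂ} (hU : UC U) : BM U := by
  obtain ⟨M, hM⟩ := hU.bdd
  exact BM.of_continuousOn hU.continuousOn ⟨M, fun z hz => (hM z hz).1⟩

lemma ll_bm_dD {U : ℂ → ℂ} (hU : UC U) : BM (dD U) := by
  obtain ⟨M, hM⟩ := hU.bdd
  exact BM.of_continuousOn hU.continuousOn_dD
    ⟨2 * M, fun z hz => by linarith [norm_dD_le U z, (hM z hz).2.1]⟩

lemma ll_bm_dB {U : ℂ → ℂ} (hU : UC U) : BM (dB U) := by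
  obtain ⟨M, hM⟩ := hU.bdd
  exact BM.of_continuousOn hU.continuousOn_dB
    ⟨2 * M, fun z hz => by linarith [norm_dB_le U z, (hM z hz).2.1]⟩

lemma Adm.addL {v Φ v' Φ' : ℂ → ℂ} (S : LAn φ) (h : Adm φ v Φ) (h' : Adm φ v' Φ') :
    Adm φ (fun z => v z + v' z) (fun z => Φ z + Φ' z) := by
  refine ⟨h.l2v.add h'.l2v, h.l2F.add h'.l2F, fun U hU => ?_⟩
  have h1 := integral_add (S.adm_integrable h.l2v h.l2F hU.bm hU.memLp_dD)
    (S.adm_integrable h'.l2v h'.l2F hU.bm hU.memLp_dD)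
  rw [h.eq U hU, h'.eq U hU, add_zero] at h1
  rw [← h1]
  refine congrArg _ (funext fun z => ?_)
  rw [← add_re]
  refine congrArg re ?_
  ring

lemma Adm.mulL {v Φ m : ℂ → ℂ} (S : LAn φ) (h : Adm φ v Φ)
    (hom : MemLp (fun z => v z / deriv φ z) 2 (volume.restrict D)) (hm : UC m) :
    Adm φ (fun z => m z * v z) (fun z => m z * Φ z + dB m z * v z / deriv φ z) := by
  have h1 : MemLp (fun z => dB m z * v z / deriv φ z) 2 (volume.restrict D) := by
    simpa only [mul_div_assoc] using (ll_bm_dB hm).mul_memLp hom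
  refine ⟨hm.bm.mul_memLp h.l2v, (hm.bm.mul_memLp h.l2F).add h1, fun U hU => ?_⟩
  rw [← h.eq _ (hm.conj.mul hU)]
  refine setIntegral_congr_fun measurableSet_ball fun z hz => ?_
  have d1 := hm.differentiableAt hz
  have d2 := hU.differentiableAt hz
  have h0 := S.ne z hz
  rw [dD_mul (differentiableAt_conj' d1) d2, dD_conj d1]
  refine congrArg re ?_
  simp only [map_add, map_mul, conj_conj]
  field_simp
  ring

lemma ll_dB_zero {v : ℂ → ℂ} {z : ℂ} (hz : z ∉ tsupport v) : dB v z = 0 := by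
  have h : fderiv ℝ v z = 0 := by
    by_contra h
    exact hz (support_fderiv_subset ℝ h)
  simp [dB, dx, dy, h]

lemma adm_of_compactSupportL (S : LAn φ) {v : ℂ → ℂ} (hv : ContDiff ℝ 1 v)
    (hs : tsupport v ⊆ D) : Adm φ v (fun z => dB v z / deriv φ z) := by
  have hc : Continuous (dB v) := continuous_iff_continuousAt.mpr fun z =>
    (contDiffAt_dB (m := 0) hv.contDiffAt (by norm_num)).continuousAt
  have l1 := sl_memLp_of_continuous hv.continuous 2
  have hc2 : ContinuousOn (fun z => dB v z / deriv φ z) D := hc.continuousOn.div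
    (fun z hz => (S.analyticAt_deriv hz).continuousAt.continuousWithinAt) S.ne
  have hK : IsCompact (tsupport v) := (isCompact_closedBall (0 : ℂ) 1).of_isClosed_subset
    (isClosed_tsupport v) (hs.trans ball_subset_closedBall)
  obtain ⟨M₀, hM₀⟩ := hK.exists_bound_of_continuousOn (hc2.mono hs)
  have l2 : MemLp (fun z => dB v z / deriv φ z) 2 (volume.restrict D) := by
    refine sl_memLp_of_bound hc2 (M := max M₀ 0) (fun z _ => ?_) 2
    by_cases h : z ∈ tsupport v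
    · exact (hM₀ z h).trans (le_max_left _ _)
    · rw [ll_dB_zero h, zero_div, norm_zero]
      exact le_max_right _ _
  refine ⟨l1, l2, fun U hU => ?_⟩
  obtain ⟨M₁, h₁⟩ := sl_bound_of_zero hv fun z hz => by
    by_contra hne
    have := sl_norm_lt (hs (subset_tsupport v hne))
    rw [mem_sphere_zero_iff_norm.mp hz] at this
    exact lt_irrefl _ this
  obtain ⟨M₂, h₂⟩ := hU.bdd
  have key : ∀ z ∈ D, (dB (fun z => v z * conj (U z)) z).re =
      (v z * conj (dD U z) + deriv φ z * (dB v z / deriv φ z) * conj (U z)).re := by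
    intro z hz
    have d1 : DifferentiableAt ℝ v z := hv.differentiable (by norm_num) z
    have d2 := hU.differentiableAt hz
    have h0 := S.ne z hz
    rw [dB_mul d1 (differentiableAt_conj' d2), dB_conj d2]
    refine congrArg re ?_
    field_simp
    ring
  rw [← setIntegral_congr_fun measurableSet_ball key]
  refine green_zero (hv.contDiffOn.mul (hU.conj.cd.of_le (by norm_num))) ?_
    (g := fun _ => M₁ * M₂) (integrable_const _) fun z hz => ?_
  · exact (S.adm_integrable l1 l2 hU.bm hU.memLp_dD).congr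
      (sl_ae_mem.mono fun z hz => (key z hz).symm)
  · refine (abs_re_le_norm _).trans ?_
    rw [norm_mul, norm_mul, norm_conj]
    have b1 := h₁ z hz
    have b2 := mul_le_mul b1 (h₂ z hz).1 (norm_nonneg _) ((norm_nonneg _).trans b1)
    have b3 : 0 ≤ ‖v z‖ * ‖U z‖ := by positivity
    have b4 := mul_le_mul_of_nonneg_left (sl_norm_lt hz).le b3
    nlinarith

lemma LAn.norm_sq_eq (S : LAn φ) {Φ : ℂ → ℂ} (hΦ : MemLp Φ 2 (volume.restrict D)) :
    IntegrableOn (fun z => (deriv φ z * Φ z).re ^ 2 / rho φ z) D ∧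
    IntegrableOn (fun z => (deriv φ z * Φ z).im ^ 2 / rho φ z) D ∧
    (∫ z in D, (deriv φ z * Φ z).re ^ 2 / rho φ z) +
      (∫ z in D, (deriv φ z * Φ z).im ^ 2 / rho φ z) = ∫ z in D, ‖Φ z‖ ^ 2 := by
  have e : ∀ z ∈ D, (deriv φ z * Φ z).re ^ 2 / rho φ z + (deriv φ z * Φ z).im ^ 2 / rho φ z =
      ‖Φ z‖ ^ 2 := by
    intro z hz
    have h0 := (S.rho_pos hz).ne'
    rw [← add_div, div_eq_iff h0, rho, ← mul_pow, mul_comm ‖Φ z‖, ← norm_mul, Complex.sq_norm,
      normSq_apply]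
    ring
  have i1 : IntegrableOn (fun z => (deriv φ z * Φ z).re ^ 2 / rho φ z) D := by
    refine (sl_integrable_norm_sq hΦ).mono' ?_ (sl_ae_mem.mono fun z hz => ?_)
    · exact (((S.integrableOn_mul hΦ).re.1.aemeasurable.pow_const 2).div
        (measurable_rho φ).aemeasurable).aestronglyMeasurable
    · have h0 := S.rho_pos hz
      rw [Real.norm_of_nonneg (by positivity), ← e z hz]
      have : 0 ≤ (deriv φ z * Φ z).im ^ 2 / rho φ z := by positivity
      linarith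
  have i2 : IntegrableOn (fun z => (deriv φ z * Φ z).im ^ 2 / rho φ z) D := by
    refine (sl_integrable_norm_sq hΦ).mono' ?_ (sl_ae_mem.mono fun z hz => ?_)
    · exact (((S.integrableOn_mul hΦ).im.1.aemeasurable.pow_const 2).div
        (measurable_rho φ).aemeasurable).aestronglyMeasurable
    · have h0 := S.rho_pos hz
      rw [Real.norm_of_nonneg (by positivity), ← e z hz]
      have : 0 ≤ (deriv φ z * Φ z).re ^ 2 / rho φ z := by positivity
      linarith
  refine ⟨i1, i2, ?_⟩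
  rw [← integral_add i1 i2]
  exact setIntegral_congr_fun measurableSet_ball e

lemma Ground.EB_nonnegL (S : LAn φ) (hθ : θ ≤ 1) (hG : Ground φ μ θ) {v Φ : ℂ → ℂ}
    (h : Adm φ v Φ) : 0 ≤ EB μ v Φ v Φ := by
  have h1 := hG.of_adm h
  have h2 : 0 ≤ ∫ z in D, (deriv φ z * Φ z).im ^ 2 / rho φ z :=
    setIntegral_nonneg measurableSet_ball fun z hz => by
      have := S.rho_pos hz
      positivity
  rw [sl_EB_self, ← (S.norm_sq_eq h.l2F).2.2]
  nlinarith

lemma Ground.EB_sq_leL (S : LAn φ) (hθ : θ ≤ 1) (hG : Ground φ μ θ) {v Φ v' Φ' : ℂ → ℂ}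
    (h : Adm φ v Φ) (h' : Adm φ v' Φ') :
    EB μ v Φ v' Φ' ^ 2 ≤ EB μ v Φ v Φ * EB μ v' Φ' v' Φ' := by
  have h1 : ∀ t : ℝ, 0 ≤ EB μ v' Φ' v' Φ' * (t * t) + 2 * EB μ v Φ v' Φ' * t + EB μ v Φ v Φ := by
    intro t
    have h2 := hG.EB_nonnegL S hθ (h.addL S (h'.smul t))
    rw [sl_EB_self, sl_integral_norm_add_sq h.l2v h'.l2v,
      sl_integral_norm_add_sq h.l2F h'.l2F] at h2
    rw [sl_EB_self, sl_EB_self, EB]
    linarith
  have h3 := discrim_le_zero h1
  rw [discrim] at h3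
  nlinarith

/-- Coercivity on pairs with zero boundary values. -/
lemma Ground.dirichletL (S : LAn φ) (hG : Ground φ μ θ) {v Φ : ℂ → ℂ} (h : Adm φ v Φ)
    (h' : Adm φ (fun z => I * v z) (fun z => I * Φ z)) :
    (1 - θ) * (μ * ∫ z in D, ‖v z‖ ^ 2) ≤ (1 + θ) * EB μ v Φ v Φ := by
  have h1 := hG.of_adm h
  have h2 := hG.of_adm h'
  have e3 : ∀ z, deriv φ z * (I * Φ z) = I * (deriv φ z * Φ z) := fun z => by ring
  simp only [e3, I_mul_re, I_mul_im, neg_sq, norm_mul, norm_I, one_mul] at h2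
  rw [sl_EB_self, ← (S.norm_sq_eq h.l2F).2.2]
  linarith

lemma ll_tendsto_pair {ι : Type*} {l : Filter ι} {fs : ι → ℂ → ℂ} {f g : ℂ → ℂ}
    (hfs : ∀ j, MemLp (fs j) 2 (volume.restrict D)) (hf : MemLp f 2 (volume.restrict D))
    (hg : MemLp g 2 (volume.restrict D))
    (h : Tendsto (fun j => ∫ z in D, ‖fs j z - f z‖ ^ 2) l (𝓝 0)) :
    Tendsto (fun j => ∫ z in D, (g z * conj (fs j z)).re) l
      (𝓝 (∫ z in D, (g z * conj (f z)).re)) := by
  have h1 := (h.const_mul (∫ z in D, ‖g z‖ ^ 2)).sqrt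
  rw [mul_zero, Real.sqrt_zero] at h1
  rw [tendsto_iff_norm_sub_tendsto_zero]
  refine tendsto_of_tendsto_of_tendsto_of_le_of_le tendsto_const_nhds h1
    (fun r => norm_nonneg _) fun j => ?_
  have b1 := hfs j
  have b2 : MemLp (fun z => fs j z - f z) 2 (volume.restrict D) := b1.sub hf
  have i1 : IntegrableOn (fun z => ‖g z‖ * ‖fs j z - f z‖) D :=
    integrableOn_mul_of_memLp hg.norm b2.norm
  have h2 := weighted_cs (m := volume.restrict D) (w := fun _ => 1) (f := fun z => ‖g z‖)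
    (g := fun z => ‖fs j z - f z‖) (Eventually.of_forall fun _ => zero_le_one)
    ((integrableOn_norm_sq hg).const_mul 1) (i1.const_mul 1)
    ((integrableOn_norm_sq b2).const_mul 1)
  simp only [one_mul] at h2
  refine le_trans ?_ (Real.le_sqrt_of_sq_le h2)
  rw [← integral_sub (integrableOn_mul_conj_re hg b1) (integrableOn_mul_conj_re hg hf)]
  refine norm_integral_le_of_norm_le i1 (Eventually.of_forall fun z => ?_)
  rw [← sub_re, ← mul_sub, ← map_sub, Real.norm_eq_abs]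
  refine (abs_re_le_norm _).trans ?_
  rw [norm_mul, norm_conj]

lemma ll_tendsto_sq {ι : Type*} {l : Filter ι} {fs : ι → ℂ → ℂ} {f : ℂ → ℂ}
    (hfs : ∀ j, MemLp (fs j) 2 (volume.restrict D)) (hf : MemLp f 2 (volume.restrict D))
    (h : Tendsto (fun j => ∫ z in D, ‖fs j z - f z‖ ^ 2) l (𝓝 0)) :
    Tendsto (fun j => ∫ z in D, ‖fs j z‖ ^ 2) l (𝓝 (∫ z in D, ‖f z‖ ^ 2)) := by
  have h1 := ll_tendsto_pair hfs hf hf h
  simp only [sl_re_mul_conj_self] at h1
  have h2 := (h.add (h1.const_mul 2)).sub_const (∫ z in D, ‖f z‖ ^ 2)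
  rw [show (0 : ℝ) + 2 * (∫ z in D, ‖f z‖ ^ 2) - ∫ z in D, ‖f z‖ ^ 2 = ∫ z in D, ‖f z‖ ^ 2 by ring]
    at h2
  refine h2.congr fun j => ?_
  have h3 := sl_integral_norm_add_sq hf (hfs j) (-1)
  have h4 : ∀ z, ‖f z + ((-1 : ℝ) : ℂ) * fs j z‖ = ‖fs j z - f z‖ := fun z => by
    rw [norm_sub_rev]
    refine congrArg _ ?_
    push_cast
    ring
  simp only [h4] at h3
  linarith

lemma UH.bm {U : ℂ → ℂ} (hU : UH U) : BM U := by
  obtain ⟨Us, h1, ⟨M, h2⟩, h3, -⟩ := hU.approx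
  exact ⟨aestronglyMeasurable_of_tendsto_ae atTop (fun j => (h1 j).bm.meas) (sl_ae_mem.mono h3),
    M, fun z hz => le_of_tendsto' (h3 z hz).norm fun j => h2 j z hz⟩

lemma Adm.eq_UH (S : LAn φ) {v Φ U : ℂ → ℂ} (h : Adm φ v Φ) (hU : UH U) :
    ∫ z in D, (v z * conj (dD U z) + deriv φ z * Φ z * conj (U z)).re = 0 := by
  obtain ⟨Us, h1, ⟨M, h2⟩, h3, h4, -⟩ := hU.approx
  have hF := S.integrableOn_mul h.l2F
  have i1 : ∀ {W : ℂ → ℂ}, BM W → IntegrableOn (fun z => (deriv φ z * Φ z * conj (W z)).re) D :=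
    fun hW => Integrable.re (𝕜 := ℂ)
      ((hW.conj.mul_integrableOn hF).congr_fun (fun z _ => mul_comm _ _) measurableSet_ball)
  have t1 := ll_tendsto_pair (fun j => (h1 j).memLp_dD) hU.l2D h.l2v h4
  have t2 : Tendsto (fun j => ∫ z in D, (deriv φ z * Φ z * conj (Us j z)).re) atTop
      (𝓝 (∫ z in D, (deriv φ z * Φ z * conj (U z)).re)) := by
    refine tendsto_integral_of_dominated_convergence (fun z => ‖deriv φ z * Φ z‖ * M)
      (fun j => (i1 (h1 j).bm).1) (hF.norm.mul_const M)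
      (fun j => sl_ae_mem.mono fun z hz => ?_) (sl_ae_mem.mono fun z hz => ?_)
    · refine (abs_re_le_norm _).trans ?_
      rw [norm_mul, norm_conj]
      exact mul_le_mul_of_nonneg_left (h2 j z hz) (norm_nonneg _)
    · exact (continuous_re.tendsto _).comp
        (((continuous_conj.tendsto _).comp (h3 z hz)).const_mul _)
  have t3 := t1.add t2
  have e : ∀ {W : ℂ → ℂ}, BM W → MemLp (dD W) 2 (volume.restrict D) →
      (∫ z in D, (v z * conj (dD W z)).re) + ∫ z in D, (deriv φ z * Φ z * conj (W z)).re =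
        ∫ z in D, (v z * conj (dD W z) + deriv φ z * Φ z * conj (W z)).re := fun hW hD => by
    rw [← integral_add (integrableOn_mul_conj_re h.l2v hD) (i1 hW)]
    rfl
  rw [e hU.bm hU.l2D] at t3
  refine tendsto_nhds_unique t3 (tendsto_const_nhds.congr fun j => ?_)
  rw [e (h1 j).bm (h1 j).memLp_dD, h.eq _ (h1 j)]

lemma UH.integral_dD_eq {U : ℂ → ℂ} (hU : UH U) :
    ∫ z in D, ‖dD U z‖ ^ 2 = ∫ z in D, ‖dB U z‖ ^ 2 := by
  obtain ⟨Us, h1, -, -, h4, h5⟩ := hU.approx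
  exact tendsto_nhds_unique (ll_tendsto_sq (fun j => (h1 j).memLp_dD) hU.l2D h4)
    ((ll_tendsto_sq (fun j => (h1 j).memLp_dB) hU.l2B h5).congr fun j =>
      (h1 j).integral_dD_eq.symm)

lemma ll_squeeze {h : ℝ → ℂ → ℂ} {a k : ℂ → ℂ} (hac : ContinuousOn a D)
    (ha : MemLp a 2 (volume.restrict D)) (hkc : ContinuousOn k D)
    (hk : MemLp k 2 (volume.restrict D)) {M : ℝ}
    (hb : ∀ r : ℝ, 0 < r → r < 1 → ∀ z ∈ D,
      ‖h r z‖ ≤ M * (‖a (r * z) - a z‖ + ‖k (r * z) - k z‖ + (1 - r) * ‖k z‖)) :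
    Tendsto (fun r => ∫ z in D, ‖h r z‖ ^ 2) (𝓝[<] 1) (𝓝 0) := by
  have t0 : Tendsto (fun r : ℝ => (1 - r) ^ 2 * ∫ z in D, ‖k z‖ ^ 2) (𝓝[<] 1) (𝓝 0) := by
    have c : Continuous fun r : ℝ => (1 - r) ^ 2 * ∫ z in D, ‖k z‖ ^ 2 := by fun_prop
    simpa using (c.tendsto 1).mono_left nhdsWithin_le_nhds
  have t1 := (((zm_tendsto_sq hac ha).add (zm_tendsto_sq hkc hk)).add t0).const_mul (3 * M ^ 2)
  simp only [add_zero, mul_zero] at t1
  refine tendsto_of_tendsto_of_tendsto_of_le_of_le' tendsto_const_nhds t1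
    (Eventually.of_forall fun r => integral_nonneg fun z => by positivity)
    (zm_ev_r.mono fun r hr => ?_)
  have i1 := integrableOn_norm_sq ((zm_bm_scale hac hr.1 hr.2).memLp.sub ha)
  have i2 := integrableOn_norm_sq ((zm_bm_scale hkc hr.1 hr.2).memLp.sub hk)
  have i3 := (integrableOn_norm_sq hk).const_mul ((1 - r) ^ 2)
  simp only [Pi.sub_apply] at i1 i2
  have i4 : IntegrableOn (fun z => ‖a (r * z) - a z‖ ^ 2 + ‖k (r * z) - k z‖ ^ 2) D := i1.add i2
  rw [← integral_add i1 i2, ← integral_const_mul, ← integral_add i4 i3, ← integral_const_mul]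
  refine integral_mono_of_nonneg (Eventually.of_forall fun z => by positivity)
    ((i4.add i3).const_mul _) (sl_ae_mem.mono fun z hz => ?_)
  have b := pow_le_pow_left₀ (norm_nonneg _) (hb r hr.1 hr.2 z hz) 2
  refine b.trans ?_
  beta_reduce
  rw [mul_pow, ← mul_pow (1 - r)]
  generalize ‖a (r * z) - a z‖ = x
  generalize ‖k (r * z) - k z‖ = y
  generalize (1 - r) * ‖k z‖ = w
  have : (x + y + w) ^ 2 ≤ 3 * (x ^ 2 + y ^ 2 + w ^ 2) := by
    nlinarith [sq_nonneg (x - y), sq_nonneg (x - w), sq_nonneg (y - w)]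
  nlinarith [sq_nonneg M]

lemma ll_est {p m A B A' B' : ℂ} {M r : ℝ} (hp : ‖p‖ ≤ M) (hm : ‖m‖ ≤ M) (h0 : 0 < r)
    (h1 : r < 1) : ‖p * A' + m * (r * B') - (p * A + m * B)‖ ≤
      M * (‖A' - A‖ + ‖B' - B‖ + (1 - r) * ‖B‖) := by
  have e : p * A' + m * (r * B') - (p * A + m * B) =
      p * (A' - A) + m * (r * (B' - B)) - m * (((1 - r : ℝ) : ℂ) * B) := by
    push_cast; ring
  have hM : 0 ≤ M := (norm_nonneg _).trans hp
  rw [e]
  refine (norm_sub_le _ _).trans ((add_le_add_left (norm_add_le _ _) _).trans ?_)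
  simp only [norm_mul, norm_real, Real.norm_of_nonneg h0.le,
    Real.norm_of_nonneg (sub_nonneg.2 h1.le)]
  have b1 := mul_le_mul_of_nonneg_right hp (norm_nonneg (A' - A))
  have b2 : ‖m‖ * (r * ‖B' - B‖) ≤ M * (1 * ‖B' - B‖) := by gcongr
  have b3 : ‖m‖ * ((1 - r) * ‖B‖) ≤ M * ((1 - r) * ‖B‖) :=
    mul_le_mul_of_nonneg_right hm (mul_nonneg (sub_nonneg.2 h1.le) (norm_nonneg _))
  linarith

lemma UH.of_mul {m : ℂ → ℂ} (hm : UC m) {a : ℂ → ℝ} (ha : ContDiffOn ℝ ∞ a D)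
    (hb : ∃ M : ℝ, ∀ z ∈ D, |a z| ≤ M)
    (h2 : MemLp (dD fun z => (a z : ℂ)) 2 (volume.restrict D)) : UH fun z => m z * a z := by
  have ha1 : ∀ z ∈ D, DifferentiableAt ℝ a z := fun z hz =>
    (sl_contDiffAt ha hz).differentiableAt (by simp)
  have hac : ContinuousOn (fun z => (a z : ℂ)) D :=
    continuous_ofReal.comp_continuousOn ha.continuousOn
  have hkc : ContinuousOn (dD fun z => (a z : ℂ)) D := fun z hz =>
    (contDiffAt_dD (m := 0) (contDiffAt_ofReal' (sl_contDiffAt ha hz))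
      (by simp)).continuousAt.continuousWithinAt
  obtain ⟨Ma, hMa⟩ := hb
  have ba : BM fun z => (a z : ℂ) :=
    BM.of_continuousOn hac ⟨Ma, fun z hz => by simpa using hMa z hz⟩
  have e1 : ∀ z ∈ D, dD (fun z => m z * a z) z =
      dD m z * a z + m z * dD (fun z => (a z : ℂ)) z := fun z hz =>
    dD_mul (hm.differentiableAt hz) (differentiableAt_ofReal' (ha1 z hz))
  have e2 : ∀ z ∈ D, dB (fun z => m z * a z) z =
      dB m z * a z + m z * conj (dD (fun z => (a z : ℂ)) z) := fun z hz => by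
    rw [dB_mul (hm.differentiableAt hz) (differentiableAt_ofReal' (ha1 z hz)),
      dB_ofReal_eq_conj (ha1 z hz)]
  have e3 : ∀ r : ℝ, 0 < r → r < 1 → ∀ z ∈ D, dD (fun z => m z * a (r * z)) z =
      dD m z * a (r * z) + m z * (r * dD (fun z => (a z : ℂ)) (r * z)) := fun r h0 h1 z hz => by
    have e := dD_comp_holo (f := fun w => (a w : ℂ)) (φ := fun w => (r : ℂ) * w) (z := z)
      (differentiableAt_ofReal' (ha1 _ (mul_mem_D h0 h1.le hz))) (by fun_prop)
    beta_reduce at e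
    rw [dD_mul (hm.differentiableAt hz) ((zm_uc_scale ha h0 h1).differentiableAt hz), e]
    simp
  have e4 : ∀ r : ℝ, 0 < r → r < 1 → ∀ z ∈ D, dB (fun z => m z * a (r * z)) z =
      dB m z * a (r * z) + m z * (r * conj (dD (fun z => (a z : ℂ)) (r * z))) :=
    fun r h0 h1 z hz => by
    have e := dB_comp_holo (f := fun w => (a w : ℂ)) (φ := fun w => (r : ℂ) * w) (z := z)
      (differentiableAt_ofReal' (ha1 _ (mul_mem_D h0 h1.le hz))) (by fun_prop)
    beta_reduce at e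
    rw [dB_mul (hm.differentiableAt hz) ((zm_uc_scale ha h0 h1).differentiableAt hz), e,
      dB_ofReal_eq_conj (ha1 _ (mul_mem_D h0 h1.le hz))]
    simp
  obtain ⟨u, -, hu, hu1⟩ := exists_seq_strictMono_tendsto' (show (0 : ℝ) < 1 by norm_num)
  have hu2 : Tendsto u atTop (𝓝[<] 1) :=
    tendsto_nhdsWithin_iff.2 ⟨hu1, Eventually.of_forall fun j => (hu j).2⟩
  obtain ⟨M, hM⟩ := hm.bdd
  have hM0 : 0 ≤ M := (norm_nonneg _).trans (hM 0 (mem_ball_self one_pos)).1
  refine ⟨?_, ?_, fun j z => m z * a (u j * z),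
    fun j => hm.mul (zm_uc_scale ha (hu j).1 (hu j).2), ⟨M * Ma, fun j z hz => ?_⟩,
    fun z hz => ((zm_tendsto_pt hac hz).comp hu2).const_mul _, ?_, ?_⟩
  · exact (((ll_bm_dD hm).mul ba).memLp.add (hm.bm.mul_memLp h2)).ae_eq
      (sl_ae_mem.mono fun z hz => (e1 z hz).symm)
  · exact (((ll_bm_dB hm).mul ba).memLp.add (hm.bm.mul_memLp (memLp_conj h2))).ae_eq
      (sl_ae_mem.mono fun z hz => (e2 z hz).symm)
  · rw [norm_mul, norm_real, Real.norm_eq_abs]
    exact mul_le_mul (hM z hz).1 (hMa _ (mul_mem_D (hu j).1 (hu j).2.le hz)) (abs_nonneg _) hM0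
  · refine (ll_squeeze (h := fun r z => dD (fun z => m z * a (r * z)) z -
      dD (fun z => m z * a z) z) hac ba.memLp hkc h2 (M := 2 * M) fun r h0 h1 z hz => ?_).comp hu2
    rw [e3 r h0 h1 z hz, e1 z hz]
    exact ll_est (by linarith [norm_dD_le m z, (hM z hz).2.1]) (by linarith [(hM z hz).1]) h0 h1
  · refine (ll_squeeze (h := fun r z => dB (fun z => m z * a (r * z)) z -
      dB (fun z => m z * a z) z) hac ba.memLp (continuous_conj.comp_continuousOn hkc)
      (memLp_conj h2) (M := 2 * M) fun r h0 h1 z hz => ?_).comp hu2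
    rw [e4 r h0 h1 z hz, e2 z hz]
    exact ll_est (by linarith [norm_dB_le m z, (hM z hz).2.1]) (by linarith [(hM z hz).1]) h0 h1

end Vale.Agent.P071
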