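import Vale.Agent.P071L.Test
import Vale.Agent.P071L.DU

/-!
# New zero modes from a critical point
-/

open Complex Metric Set Filter Topology MeasureTheory
open scoped ContDiff ComplexConjugate Real

namespace Vale.Agent.P071

variable {φ : ℂ → ℂ} {μ θ C η A : ℝ}

section

variable (S : LAn φ) {v₀ Φ₀ : ℂ → ℂ} {a : ℂ → ℝ} (hm : LMode φ μ v₀ Φ₀ a)
  {r : ℝ} (hr : 0 < r) (hr1 : r < 1) (hν : Pot (nu φ μ r) A θ)
include S hm hr hr1

lemma limL_om_cont : Continuous fun x => VD a (r * ec x) / deriv φ (r * ec x) :=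
  continuous_iff_continuousAt.2 fun x =>
    ContinuousAt.comp (g := omL φ a) (f := fun x => (r : ℂ) * ec x)
      (hm.om_eq S (mul_mem_D_of_lt hr hr1 (sphere_subset_closedBall (ec_mem x)))).1.continuousAt
      (continuous_const.mul (continuous_circleMap 0 1)).continuousAt

lemma limL_om_bound : ∃ M : ℝ, 0 ≤ M ∧ ∀ x, ‖VD a (r * ec x) / deriv φ (r * ec x)‖ ≤ M := by
  obtain ⟨M, hM⟩ := (isCompact_sphere (0 : ℂ) 1).exists_bound_of_continuousOn
    (f := fun z => omL φ a (r * z)) (continuousOn_of_forall_continuousAt fun z hz =>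
      ContinuousAt.comp (g := omL φ a) (f := fun x => (r : ℂ) * x)
        (hm.om_eq S (mul_mem_D_of_lt hr hr1 (sphere_subset_closedBall hz))).1.continuousAt
        (continuous_const.mul continuous_id).continuousAt)
  exact ⟨M, (norm_nonneg _).trans (hM _ (ec_mem 0)), fun x => hM _ (ec_mem x)⟩

include hν

lemma limL_Wt_meas : Measurable (Wt φ μ (VD a) r) := by
  have h := limL_om_cont S hm hr hr1
  refine Measurable.mul (Measurable.const_mul ?_ _) (continuous_re.comp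
    ((h.comp continuous_fst).mul (continuous_conj.comp (h.comp continuous_snd)))).measurable
  exact (measurable_KK hν).comp (((continuous_circleMap 0 1).comp continuous_fst).prodMk
    ((continuous_circleMap 0 1).comp continuous_snd)).measurable

lemma limL_Wt_bound : ∃ B : ℝ, ∀ p : ℝ × ℝ, |Wt φ μ (VD a) r p| * ‖ec p.1 - ec p.2‖ ^ 2 ≤ B := by
  obtain ⟨L, hL0, hL⟩ := exists_circle_bound A θ
  obtain ⟨M, hM0, h3⟩ := limL_om_bound S hm hr hr1
  refine ⟨2 * L * (M * M), fun p => ?_⟩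
  obtain ⟨-, ⟨h1, h2⟩, -⟩ := hL _ hν _ (ec_mem p.1) _ (ec_mem p.2)
  rw [Wt, abs_mul, abs_of_nonneg (by positivity), mul_right_comm, mul_assoc 2]
  refine mul_le_mul (by linarith) ((abs_re_le_norm _).trans ?_) (abs_nonneg _) (by positivity)
  rw [norm_mul, norm_conj]
  exact mul_le_mul (h3 _) (h3 _) (norm_nonneg _) hM0

lemma limL_Wt_integrable {f : ℝ × ℝ → ℝ} (hf : Measurable f) {B : ℝ}
    (hB : ∀ p, |f p| ≤ B * ‖ec p.1 - ec p.2‖ ^ 2) (hB0 : 0 ≤ B) :
    Integrable (fun p => Wt φ μ (VD a) r p * f p) (mc.prod mc) := by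
  obtain ⟨B', hB'⟩ := limL_Wt_bound S hm hr hr1 hν
  refine Integrable.of_bound ((limL_Wt_meas S hm hr hr1 hν).mul hf).aestronglyMeasurable (B * B')
    (Eventually.of_forall fun p => ?_)
  rw [norm_mul, Real.norm_eq_abs, Real.norm_eq_abs]
  calc |Wt φ μ (VD a) r p| * |f p| ≤ |Wt φ μ (VD a) r p| * (B * ‖ec p.1 - ec p.2‖ ^ 2) := by gcongr; exact hB p
    _ = B * (|Wt φ μ (VD a) r p| * ‖ec p.1 - ec p.2‖ ^ 2) := by ring
    _ ≤ B * B' := by gcongr; exact hB' p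

lemma limL_Wt_tendsto {f : ℕ → ℝ × ℝ → ℝ} {g : ℝ × ℝ → ℝ} (hf : ∀ j, Measurable (f j)) {B : ℝ}
    (hB : ∀ j p, |f j p| ≤ B * ‖ec p.1 - ec p.2‖ ^ 2) (hB0 : 0 ≤ B)
    (hl : ∀ p, Tendsto (fun j => f j p) atTop (𝓝 (g p))) :
    Tendsto (fun j => ∫ p, Wt φ μ (VD a) r p * f j p ∂(mc.prod mc)) atTop
      (𝓝 (∫ p, Wt φ μ (VD a) r p * g p ∂(mc.prod mc))) := by
  obtain ⟨B', hB'⟩ := limL_Wt_bound S hm hr hr1 hν
  refine tendsto_integral_of_dominated_convergence (fun _ => B * B')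
    (fun j => ((limL_Wt_meas S hm hr hr1 hν).mul (hf j)).aestronglyMeasurable) (integrable_const _)
    (fun j => Eventually.of_forall fun p => ?_) (Eventually.of_forall fun p => (hl p).const_mul _)
  rw [norm_mul, Real.norm_eq_abs, Real.norm_eq_abs]
  calc |Wt φ μ (VD a) r p| * |f j p| ≤ |Wt φ μ (VD a) r p| * (B * ‖ec p.1 - ec p.2‖ ^ 2) := by
        gcongr; exact hB j p
    _ = B * (|Wt φ μ (VD a) r p| * ‖ec p.1 - ec p.2‖ ^ 2) := by ring
    _ ≤ B * B' := by gcongr; exact hB' p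

/-- At a critical point the kernel `dd` carries no energy. -/
lemma limL_Wt_dd (hV : VD a 0 = 0) :
    ∫ p : ℝ × ℝ, Wt φ μ (VD a) r p * dd (nu φ μ r) (ec p.1) (ec p.2) ∂(mc.prod mc) = 0 := by
  set om : ℂ → ℂ := omL φ a with hom
  have com : ∀ z ∈ D, ContDiffAt ℝ 2 om z := fun z hz => (hm.om_eq S hz).1.of_le (by norm_cast)
  have hsc : ContDiff ℝ 2 fun w : ℂ => (r : ℂ) * w := contDiff_const.mul contDiff_id
  have h := rep_zero hν (om := fun w => om (r * w))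
    (fun z hz => (com _ (mul_mem_D_of_lt hr hr1 hz)).comp z hsc.contDiffAt)
    (fun z hz => by
      have hz' := mul_mem_D hr hr1.le hz
      rw [test_lap_scale (com _ hz'), (hm.om_eq S hz').2.2, nu_of_mem φ μ r hz]
      push_cast; ring)
  set f : ℝ → ℂ := fun s => (2 * KK (nu φ μ r) 0 (ec s)) • om (r * ec s) with hf
  have h0 : ∫ s, f s ∂mc = 0 := by rw [← h]; simp [hom, omL, hV]
  obtain ⟨L, hL0, hL⟩ := exists_circle_bound A θ
  obtain ⟨M, hM0, hM⟩ := limL_om_bound S hm hr hr1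
  have hfi : Integrable f mc := by
    refine Integrable.of_bound (Measurable.aestronglyMeasurable ?_) (2 * L * M)
      (Eventually.of_forall fun s => ?_)
    · exact (((measurable_KK hν).comp
        (continuous_const.prodMk (continuous_circleMap 0 1)).measurable).const_mul 2).smul
        (limL_om_cont S hm hr hr1).measurable
    · obtain ⟨⟨h1, h2⟩, -⟩ := hL _ hν _ (ec_mem s) _ (ec_mem s)
      rw [hf, norm_smul, Real.norm_of_nonneg (by positivity)]
      exact mul_le_mul (by linarith) (hM s) (norm_nonneg _) (by positivity)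
  have hfc : Integrable (fun s => conj (f s)) mc :=
    conjCLE.toContinuousLinearMap.integrable_comp hfi
  have e := integral_prod_mul (μ := mc) (ν := mc) f fun s => conj (f s)
  have e2 := integral_re (hfi.mul_prod hfc)
  rw [e, h0, zero_mul, map_zero] at e2
  rw [← mul_zero (1 / 2 : ℝ), ← e2, ← integral_const_mul]
  refine integral_congr_ae (lim_ae_ne.mono fun p hp => ?_)
  have h1 := sphere_subset_closedBall (ec_mem p.1)
  have h2 := sphere_subset_closedBall (ec_mem p.2)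
  have hK : 0 < KK (nu φ μ r) (ec p.1) (ec p.2) :=
    lt_of_lt_of_le (lt_of_lt_of_le (by have := Real.pi_pos; positivity) (K0_lower h1 h2 hp))
      (K0_le_KK hν h1 h2)
  simp only [Wt, dd, if_neg hp, hf, hom, omL, real_smul, map_mul, conj_ofReal, RCLike.re_to_complex]
  rw [mul_mul_mul_comm, ← ofReal_mul, re_ofReal_mul]
  field_simp

end

lemma limL_collar {V : ℂ → ℂ} (b : IntegrableOn (fun z => ‖V z / deriv φ z‖ ^ 2) D) {r : ℝ}
    {f : ℂ → ℝ} (hf : BM f) {B : ℝ} (hB : ∀ z : ℂ, r ≤ ‖z‖ → f z ≤ B) :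
    ∫ z in D \ ball 0 r, f z * ‖V z / deriv φ z‖ ^ 2 ≤ B * col φ V r := by
  rw [col, ← integral_const_mul]
  refine setIntegral_mono_on ((hf.mul_integrableOn b).mono_set sdiff_subset)
    (IntegrableOn.mono_set (b.const_mul B) sdiff_subset)
    (measurableSet_ball.diff measurableSet_ball) fun z hz => ?_
  refine mul_le_mul_of_nonneg_right (hB z ?_) (sq_nonneg _)
  simpa using hz.2

lemma tendsto_colL {V : ℂ → ℂ} (b : IntegrableOn (fun z => ‖V z / deriv φ z‖ ^ 2) D) :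
    Tendsto (col φ V) (𝓝[<] 1) (𝓝 0) := by
  have h := (tendsto_setIntegral_ball b).const_sub (∫ z in D, ‖V z / deriv φ z‖ ^ 2)
  rw [sub_self] at h
  refine h.congr' ?_
  filter_upwards [self_mem_nhdsWithin] with r hr
  rw [test_split b (le_of_lt hr), add_sub_cancel_right, col]

/-- Globally Lipschitz smooth multipliers. -/
lemma limL_mollify : ∃ c : ℝ, 0 ≤ c ∧ ∀ (b : ℂ → ℝ) (L M δ : ℝ), 0 ≤ L →
    (∀ s ∈ S1, ∀ t ∈ S1, ‖b s - b t‖ ≤ L * ‖s - t‖) → (∀ s ∈ S1, |b s| ≤ M) → 0 < δ → δ ≤ 1 →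
    ∃ m : ℂ → ℝ, ContDiff ℝ ∞ m ∧
      (∀ z w : ℂ, 3 / 4 ≤ ‖z‖ → 3 / 4 ≤ ‖w‖ → ‖m z - m w‖ ≤ 8 * L * ‖z - w‖) ∧
      (∀ z : ℂ, 3 / 4 ≤ ‖z‖ → dx m z ^ 2 + dy m z ^ 2 ≤ 128 * L ^ 2) ∧
      (∀ z : ℂ, 3 / 4 ≤ ‖z‖ → ‖m z - b (z / ‖z‖)‖ ≤ δ) ∧
      ∀ z ∈ D, |m z| ≤ M + 1 ∧ dx m z ^ 2 + dy m z ^ 2 ≤ 2 * (c * (M + 1) + 8 * L) ^ 2 := by
  let β : ContDiffBump (0 : ℂ) := ⟨9 / 16, 5 / 8, by norm_num, by norm_num⟩
  set χ : ℂ → ℝ := fun z => 1 - β z with hχ
  have cχ : ContDiff ℝ ∞ χ := contDiff_const.sub β.contDiff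
  have χ1 : ∀ z, |χ z| ≤ 1 := fun z => abs_le.2
    ⟨by simp only [hχ]; linarith [β.le_one (x := z)], by
      simp only [hχ]; linarith [β.nonneg (x := z)]⟩
  have χ2 : ∀ z : ℂ, 5 / 8 < ‖z‖ → χ z = 1 := fun z hz => by
    simp only [hχ]
    rw [β.zero_of_le_dist (by simpa [β] using hz.le), sub_zero]
  have χ3 : ∀ z : ℂ, ‖z‖ < 9 / 16 → χ z = 0 := fun z hz => by
    simp only [hχ]
    rw [β.one_of_mem_closedBall (by simpa [β] using hz.le), sub_self]
  obtain ⟨c, hc⟩ := (isCompact_closedBall (0 : ℂ) 1).exists_bound_of_continuousOn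
    (cχ.continuous_fderiv (by simp)).continuousOn
  have hc0 : 0 ≤ c := (norm_nonneg _).trans (hc 0 (by simp))
  refine ⟨c, hc0, fun b L M δ hL hb hM hδ hδ1 => ?_⟩
  obtain ⟨m, h1, h2, h3, h4⟩ := exists_mollify hL hb hδ
  have hM0 : 0 ≤ M := (abs_nonneg _).trans (hM 1 (by simp))
  have e1 : ∀ z : ℂ, 3 / 4 ≤ ‖z‖ → (fun w => χ w * m w) =ᶠ[𝓝 z] m := fun z hz => by
    filter_upwards [(isOpen_lt continuous_const continuous_norm).mem_nhds
      (show (5 / 8 : ℝ) < ‖z‖ by linarith)] with w hw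
    rw [χ2 w hw, one_mul]
  have sq : ∀ {f : ℂ → ℝ} {z : ℂ} {B : ℝ}, ‖fderiv ℝ f z‖ ≤ B →
      dx f z ^ 2 + dy f z ^ 2 ≤ 2 * B ^ 2 := by
    intro f z B h
    have a1 := pow_le_pow_left₀ (norm_nonneg _) ((norm_dx_le f z).trans h) 2
    have a2 := pow_le_pow_left₀ (norm_nonneg _) ((norm_dy_le f z).trans h) 2
    rw [Real.norm_eq_abs, sq_abs] at a1 a2
    linarith
  have e2 : ∀ z : ℂ, 1 / 2 ≤ ‖z‖ → |m z| ≤ M + 1 := fun z hz => by
    have hz0 : 0 < ‖z‖ := by linarith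
    have a1 : |m z - b (z / ‖z‖)| ≤ 1 := (h4 z hz).trans hδ1
    have a2 := hM (z / ‖z‖) (moll_mem (norm_pos_iff.1 hz0))
    have a3 := abs_sub_abs_le_abs_sub (m z) (b (z / ‖z‖))
    linarith
  refine ⟨fun w => χ w * m w, cχ.mul h1, fun z w hz hw => ?_, fun z hz => ?_, fun z hz => ?_,
    fun z hz => ?_⟩
  · rw [(e1 z hz).self_of_nhds, (e1 w hw).self_of_nhds]
    exact h2 z w (by linarith) (by linarith)
  · rw [dx_congr (e1 z hz), dy_congr (e1 z hz)]
    exact (sq (h3 z (by linarith))).trans (le_of_eq (by ring))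
  · rw [(e1 z hz).self_of_nhds]
    exact h4 z (by linarith)
  · by_cases h : ‖z‖ < 9 / 16
    · have e3 : (fun w => χ w * m w) =ᶠ[𝓝 z] fun _ => 0 := by
        filter_upwards [(isOpen_lt continuous_norm continuous_const).mem_nhds h] with w hw
        rw [χ3 w hw, zero_mul]
      rw [dx_congr e3, dy_congr e3, e3.self_of_nhds]
      simp only [dx_const, dy_const, abs_zero]
      exact ⟨by positivity, by norm_num; positivity⟩
    · push Not at h
      have a1 := e2 z (by linarith)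
      refine ⟨?_, sq ?_⟩
      · rw [abs_mul]
        exact (mul_le_of_le_one_left (abs_nonneg _) (χ1 z)).trans a1
      · rw [fderiv_fun_mul (cχ.differentiable (by simp) z) (h1.differentiable (by simp) z)]
        refine (norm_add_le _ _).trans ?_
        rw [norm_smul, norm_smul, Real.norm_eq_abs, Real.norm_eq_abs]
        have a2 := mul_le_mul (χ1 z) (h3 z (by linarith)) (norm_nonneg _) zero_le_one
        have a3 := mul_le_mul a1 (hc z (ball_subset_closedBall hz)) (norm_nonneg _)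
          (by positivity)
        linarith

section

variable (S : LSetup φ μ) (hG : Ground φ μ θ)
  {v₀ Φ₀ : ℂ → ℂ} (h₀ : ZeroMode φ μ v₀ Φ₀) {a : ℂ → ℝ} (hm : LMode φ μ v₀ Φ₀ a)
include S hG h₀ hm

/-- Positivity of the boundary form on Hilbert space valued multipliers. -/
lemma limL_pos {H : Type*} [NormedAddCommGroup H] [InnerProductSpace ℝ H] {γ : ℂ → H} {L : ℝ}
    (hL : 0 ≤ L) (hγ : ∀ s ∈ S1, ∀ t ∈ S1, ‖γ s - γ t‖ ≤ L * ‖s - t‖) {r : ℝ} (hr : 1 / 2 < r)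
    (hr1 : r < 1) (hν : Pot (nu φ μ r) A θ) : 0 ≤ 128 * L ^ 2 * col φ (VD a) r +
      ∫ p : ℝ × ℝ, Wt φ μ (VD a) r p * ‖γ (ec p.1) - γ (ec p.2)‖ ^ 2 ∂(mc.prod mc) := by
  have hr0 : 0 < r := by linarith
  have T := S.toLAn
  have bV : IntegrableOn (fun z => ‖VD a z / deriv φ z‖ ^ 2) D :=
    integrableOn_norm_sq (hm.memLp_om T)
  have hε : ∀ j : ℕ, (0 : ℝ) < 1 / ((j : ℝ) + 1) := fun j => by positivity
  choose n m h1 h2 h3 using fun j => exists_multipliers hL hγ (hε j)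
  have hn : ∀ x, 1 / 2 ≤ ‖(r : ℂ) * ec x‖ := fun x => by rw [lim_norm hr0]; exact hr.le
  have hc : ∀ j i, Continuous fun p : ℝ × ℝ => (m j i (r * ec p.1) - m j i (r * ec p.2)) ^ 2 := by
    intro j i
    have := (h1 j i).continuous.comp (continuous_const.mul (continuous_circleMap 0 1) :
      Continuous fun x => (r : ℂ) * ec x)
    exact ((this.comp continuous_fst).sub (this.comp continuous_snd)).pow 2
  have hb : ∀ j (p : ℝ × ℝ), ∑ i, (m j i (r * ec p.1) - m j i (r * ec p.2)) ^ 2 ≤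
      64 * L ^ 2 * ‖ec p.1 - ec p.2‖ ^ 2 := fun j p =>
    (h3 j _ _ (hn _) (hn _)).1.trans
      (mul_le_mul_of_nonneg_left (lim_dist hr0 hr1.le _ _) (by positivity))
  have t := limL_Wt_tendsto T hm hr0 hr1 hν
    (f := fun j p => ∑ i, (m j i (r * ec p.1) - m j i (r * ec p.2)) ^ 2)
    (g := fun p => ‖γ (ec p.1) - γ (ec p.2)‖ ^ 2)
    (fun j => (continuous_finsetSum _ fun i _ => hc j i).measurable) (B := 64 * L ^ 2)
    (fun j p => by
      rw [abs_of_nonneg (Finset.sum_nonneg fun i _ => sq_nonneg _)]; exact hb j p)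
    (by positivity) (fun p => by
      have := (tendsto_sub_nhds_zero_iff.1 (squeeze_zero_norm
        (fun j => (Real.norm_eq_abs _).trans_le (h3 j _ _ (hn p.1) (hn p.2)).2)
        tendsto_one_div_add_atTop_nhds_zero_nat)).pow 2
      rw [lim_div hr0, lim_div hr0] at this
      exact this.congr fun j => Real.sq_sqrt (Finset.sum_nonneg fun i _ => sq_nonneg _))
  refine ge_of_tendsto' (t.const_add _) fun j => ?_
  have hd : ∀ i, BM fun z => dx (m j i) z ^ 2 + dy (m j i) z ^ 2 := fun i =>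
    have h : ContDiff ℝ 1 (m j i) := (h1 j i).of_le (by norm_cast)
    (BM.dx_of_contDiff h).sq.add (BM.dy_of_contDiff h).sq
  have hd' : BM fun z => ∑ i, (dx (m j i) z ^ 2 + dy (m j i) z ^ 2) :=
    .of_continuous (continuous_finsetSum _ fun i _ => continuous_iff_continuousAt.2 fun z =>
      ((differentiableAt_dx ((h1 j i).of_le (by norm_cast)).contDiffAt).continuousAt.pow 2).add
        ((differentiableAt_dy ((h1 j i).of_le (by norm_cast)).contDiffAt).continuousAt.pow 2))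
  have a1 : ∀ i, 0 ≤ (∫ z in D \ ball 0 r, (dx (m j i) z ^ 2 + dy (m j i) z ^ 2) *
      ‖VD a z / deriv φ z‖ ^ 2) + ∫ p : ℝ × ℝ, Wt φ μ (VD a) r p *
        (m j i (r * ec p.1) - m j i (r * ec p.2)) ^ 2 ∂(mc.prod mc) := by
    intro i
    refine le_of_forall_pos_le_add fun ε hε => ?_
    obtain ⟨v, Φ, b1, b2, -⟩ := exists_test_pairL S hG h₀ hm hr0 hr1 hν (h1 j i) hε
    exact (hG.EB_nonnegL T hν.θ_lt.le b1).trans b2
  have a2 := Finset.sum_nonneg fun i (_ : i ∈ Finset.univ) => a1 i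
  rw [Finset.sum_add_distrib, ← integral_finsetSum, ← integral_finsetSum] at a2
  · simp only [← Finset.sum_mul, ← Finset.mul_sum] at a2
    linarith [limL_collar bV hd' fun z hz => h2 j z (hr.trans_le hz)]
  · intro i _
    refine limL_Wt_integrable T hm hr0 hr1 hν (hc j i).measurable (B := 64 * L ^ 2) (fun p => ?_)
      (by positivity)
    rw [abs_of_nonneg (sq_nonneg _)]
    exact (Finset.single_le_sum (f := fun i => (m j i (r * ec p.1) - m j i (r * ec p.2)) ^ 2)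
      (fun i _ => sq_nonneg _) (Finset.mem_univ i)).trans (hb j p)
  · intro i _
    exact ((hd i).mul_integrableOn bV).mono_set sdiff_subset

/-- Test pairs for a Lipschitz multiplier. -/
lemma limL_single (L M : ℝ) (hL : 0 ≤ L) : ∃ B : ℝ, ∀ b : ℂ → ℝ,
    (∀ s ∈ S1, ∀ t ∈ S1, ‖b s - b t‖ ≤ L * ‖s - t‖) → (∀ s ∈ S1, |b s| ≤ M) →
    ∀ r A : ℝ, 3 / 4 ≤ r → r < 1 → Pot (nu φ μ r) A θ → ∀ ε : ℝ, 0 < ε →
      ∃ (v Φ : ℂ → ℂ) (m : ℂ → ℝ), Adm φ v Φ ∧ EB μ v Φ v Φ ≤ 128 * L ^ 2 * col φ (VD a) r +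
        (∫ p : ℝ × ℝ, Wt φ μ (VD a) r p * (b (ec p.1) - b (ec p.2)) ^ 2 ∂(mc.prod mc)) + 2 * ε ∧
      (1 - θ) * (μ * ∫ z in D, ‖v z‖ ^ 2) ≤ B + 8 * EB μ v Φ v Φ ∧ Continuous m ∧
      (∀ s ∈ S1, |m s - b s| ≤ ε) ∧ ∀ K : ℂ → ℝ, ContDiff ℝ ∞ K →
        ell φ K v Φ = ∫ s, m (ec s) * K (ec s) * (ec s * VT φ μ a (ec s)).im ∂mc := by
  obtain ⟨c, -, hc⟩ := limL_mollify
  refine ⟨2 * (M + 1) ^ 2 * (μ * ∫ z in D, ‖v₀ z‖ ^ 2) + 8 * (2 * (c * (M + 1) + 8 * L) ^ 2 *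
    ∫ z in D, ‖omL φ a z‖ ^ 2), fun b hb hM r A hr hr1 hν ε hε => ?_⟩
  have hr0 : 0 < r := by linarith
  have T := S.toLAn
  have bV : IntegrableOn (fun z => ‖VD a z / deriv φ z‖ ^ 2) D :=
    integrableOn_norm_sq (hm.memLp_om T)
  have hδ : ∀ j : ℕ, (0 : ℝ) < 1 / ((j : ℝ) + 1) := fun j => by positivity
  have hδ1 : ∀ j : ℕ, 1 / ((j : ℝ) + 1) ≤ 1 := fun j => by
    rw [div_le_one (by positivity)]; linarith [Nat.cast_nonneg (α := ℝ) j]
  choose m h1 h2 h3 h4 h5 using fun j => hc b L M _ hL hb hM (hδ j) (hδ1 j)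
  have hn : ∀ x, 3 / 4 ≤ ‖(r : ℂ) * ec x‖ := fun x => by rw [lim_norm hr0]; exact hr
  have hl : ∀ x, Tendsto (fun j => m j (r * ec x)) atTop (𝓝 (b (ec x))) := fun x => by
    have := tendsto_sub_nhds_zero_iff.1 (squeeze_zero_norm (fun j => h4 j _ (hn x))
      tendsto_one_div_add_atTop_nhds_zero_nat)
    rwa [lim_div hr0] at this
  have t := limL_Wt_tendsto T hm hr0 hr1 hν
    (f := fun j p => (m j (r * ec p.1) - m j (r * ec p.2)) ^ 2)
    (g := fun p => (b (ec p.1) - b (ec p.2)) ^ 2)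
    (fun j => by
      have := (h1 j).continuous.comp (continuous_const.mul (continuous_circleMap 0 1) :
        Continuous fun x => (r : ℂ) * ec x)
      exact (((this.comp continuous_fst).sub (this.comp continuous_snd)).pow 2).measurable)
    (B := (8 * L) ^ 2)
    (fun j p => by
      rw [abs_of_nonneg (sq_nonneg _), ← sq_abs]
      refine (pow_le_pow_left₀ (abs_nonneg _) (h2 j _ _ (hn p.1) (hn p.2)) 2).trans ?_
      rw [mul_pow]
      exact mul_le_mul_of_nonneg_left (lim_dist hr0 hr1.le _ _) (by positivity))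
    (by positivity) fun p => ((hl p.1).sub (hl p.2)).pow 2
  obtain ⟨j, hj1, hj2⟩ := ((t.eventually (gt_mem_nhds (lt_add_of_pos_right _ hε))).and
    (tendsto_one_div_add_atTop_nhds_zero_nat.eventually (gt_mem_nhds hε))).exists
  obtain ⟨v, Φ, b1, b2, b3, b4⟩ := exists_test_pairL S hG h₀ hm hr0 hr1 hν (h1 j) hε
  refine ⟨v, Φ, m j, b1, ?_, by linarith [b3 _ _ (h5 j)], (h1 j).continuous, fun s hs => ?_, b4⟩
  · have h6 : ContDiff ℝ 1 (m j) := (h1 j).of_le (by norm_cast)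
    have := limL_collar bV ((BM.dx_of_contDiff h6).sq.add (BM.dy_of_contDiff h6).sq)
      (B := 128 * L ^ 2) fun z hz => h3 j z (hr.trans hz)
    linarith
  · have hs' := mem_sphere_zero_iff_norm.1 hs
    have := h4 j s (by rw [hs']; norm_num)
    rw [hs', ofReal_one, div_one] at this
    exact this.trans hj2.le

lemma limL_step (hU : Unif φ μ θ C η) (hV : VD a 0 = 0) {t : ℂ} (ht : t ∈ Db) (ht0 : t ≠ 0) :
    ∃ B B' : ℝ, ∀ r : ℝ, 3 / 4 ≤ r → r < 1 → ∀ ε : ℝ, 0 < ε → ∃ (v Φ : ℂ → ℂ) (m : ℂ → ℝ),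
      Adm φ v Φ ∧ EB μ v Φ v Φ ≤ B * col φ (VD a) r + 2 * ε ∧
      (1 - θ) * (μ * ∫ z in D, ‖v z‖ ^ 2) ≤ B' + 8 * EB μ v Φ v Φ ∧
      Continuous m ∧ (∀ s ∈ S1, |m s - (dd (nu φ μ r) s 1 - dd (nu φ μ r) s t)| ≤ ε) ∧
      ∀ K : ℂ → ℝ, ContDiff ℝ ∞ K →
        ell φ K v Φ = ∫ s, m (ec s) * K (ec s) * (ec s * VT φ μ a (ec s)).im ∂mc := by
  obtain ⟨L, hL0, hL⟩ := hU.circle
  obtain ⟨N, hN0, hN⟩ := hU.bound ht ht0
  obtain ⟨B, hB⟩ := limL_single S hG h₀ hm (2 * L * N) (4 * L * N + N ^ 2) (by positivity)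
  refine ⟨128 * (2 * L * N) ^ 2 + 4 * N ^ 2 * (128 * L ^ 2), B, fun r hr hr1 ε hε => ?_⟩
  have T := S.toLAn
  have hr0 : 0 < r := by linarith
  obtain ⟨A, hν⟩ := hU.pot r hr0 hr1
  set ν := nu φ μ r with hνd
  obtain ⟨H, _, _, β, hβ⟩ := (lorentz hν).exists_embedding
    (fun p hp q hq => dd_symm hν hp.1 hq.1) fun p _ => by simp [dd]
  have hS : ∀ s ∈ S1, s ∈ Db \ {0} := fun s hs => ⟨sphere_subset_closedBall hs, fun h => by
    rw [mem_singleton_iff.1 h] at hs; simp at hs⟩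
  have h1 : (1 : ℂ) ∈ S1 := by simp
  have ht' : t ∈ Db \ {0} := ⟨ht, ht0⟩
  have hlip : ∀ s ∈ S1, ∀ s' ∈ S1, ‖β s - β s'‖ ≤ L * ‖s - s'‖ := fun s hs s' hs' =>
    le_of_sq_le_sq (by rw [hβ s (hS s hs) s' (hS s' hs'), mul_pow]; exact hL r hr0 hr1 s hs s' hs')
      (by positivity)
  set u := β t - β 1 with hu
  have hu1 : ‖u‖ ≤ N := le_of_sq_le_sq (by rw [hβ t ht' 1 (hS 1 h1)]; exact (hN r hr0 hr1 1 h1).2) hN0
  set b : ℂ → ℝ := fun s => dd ν s 1 - dd ν s t with hb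
  have e1 : ∀ s ∈ S1, b s = 2 * inner ℝ (β s - β 1) u - ‖u‖ ^ 2 := fun s hs => by
    have : β s - β t = (β s - β 1) - u := by rw [hu]; abel
    simp only [hb]
    rw [← hβ s (hS s hs) 1 (hS 1 h1), ← hβ s (hS s hs) t ht', this, norm_sub_sq_real (β s - β 1)]
    ring
  have e2 : ∀ s ∈ S1, ∀ s' ∈ S1, b s - b s' = 2 * inner ℝ (β s - β s') u := fun s hs s' hs' => by
    rw [e1 s hs, e1 s' hs']
    simp only [inner_sub_left]
    ring
  have e3 : ∀ s ∈ S1, ∀ s' ∈ S1, |inner ℝ (β s - β s') u| ≤ L * ‖s - s'‖ * N := fun s hs s' hs' =>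
    (abs_real_inner_le_norm _ _).trans
      (mul_le_mul (hlip s hs s' hs') hu1 (norm_nonneg _) (by positivity))
  have hbl : ∀ s ∈ S1, ∀ s' ∈ S1, ‖b s - b s'‖ ≤ 2 * L * N * ‖s - s'‖ := fun s hs s' hs' => by
    rw [e2 s hs s' hs', Real.norm_eq_abs, abs_mul, abs_two]
    linarith [e3 s hs s' hs']
  have hbM : ∀ s ∈ S1, |b s| ≤ 4 * L * N + N ^ 2 := fun s hs => by
    rw [e1 s hs]
    refine (abs_sub _ _).trans ?_
    rw [abs_mul, abs_two, abs_of_nonneg (sq_nonneg ‖u‖)]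
    have a1 := e3 s hs 1 h1
    have a2 : ‖s - 1‖ ≤ 2 := (norm_sub_le _ _).trans (by
      rw [mem_sphere_zero_iff_norm.1 hs, norm_one]; norm_num)
    have a3 : L * ‖s - 1‖ * N ≤ L * 2 * N := by gcongr
    have a4 := pow_le_pow_left₀ (norm_nonneg _) hu1 2
    linarith
  obtain ⟨v, Φ, m, b1, b2, b3, b4, b5, b6⟩ :=
    hB b hbl hbM r A hr hr1 hν ε hε
  refine ⟨v, Φ, m, b1, b2.trans ?_, b3, b4, b5, b6⟩
  · set γ : ℂ → H := fun s => β s - (inner ℝ (β s) u / ‖u‖ ^ 2) • u with hγ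
    have e4 : ∀ s s', γ s - γ s' =
        (β s - β s') - (inner ℝ (β s - β s') u / ‖u‖ ^ 2) • u := fun s s' => by
      simp only [hγ, inner_sub_left, sub_div, sub_smul]; abel
    have hγl : ∀ s ∈ S1, ∀ s' ∈ S1, ‖γ s - γ s'‖ ≤ L * ‖s - s'‖ := fun s hs s' hs' => by
      rw [e4]; exact (lim_proj _ _).2.trans (hlip s hs s' hs')
    have p1 := limL_pos S hG h₀ hm hL0 hγl (by linarith) hr1 hν
    have p2 := limL_Wt_dd T hm hr0 hr1 hν hV
    have hi : ∀ {g : ℂ → H}, (∀ s ∈ S1, ∀ s' ∈ S1, ‖g s - g s'‖ ≤ L * ‖s - s'‖) →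
        Integrable (fun p : ℝ × ℝ => Wt φ μ (VD a) r p * ‖g (ec p.1) - g (ec p.2)‖ ^ 2) (mc.prod mc) := by
      intro g hg
      have hc := lim_cont hg
      refine limL_Wt_integrable T hm hr0 hr1 hν
        (((hc.comp continuous_fst).sub (hc.comp continuous_snd)).norm.pow 2).measurable
        (B := L ^ 2) (fun p => ?_) (by positivity)
      rw [abs_of_nonneg (sq_nonneg _), ← mul_pow]
      exact pow_le_pow_left₀ (norm_nonneg _) (hg _ (ec_mem _) _ (ec_mem _)) 2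
    have p3 : ∫ p : ℝ × ℝ, Wt φ μ (VD a) r p * (b (ec p.1) - b (ec p.2)) ^ 2 ∂(mc.prod mc) =
        4 * ‖u‖ ^ 2 * ((∫ p : ℝ × ℝ, Wt φ μ (VD a) r p * ‖β (ec p.1) - β (ec p.2)‖ ^ 2 ∂(mc.prod mc)) -
          ∫ p : ℝ × ℝ, Wt φ μ (VD a) r p * ‖γ (ec p.1) - γ (ec p.2)‖ ^ 2 ∂(mc.prod mc)) := by
      rw [← integral_sub (hi hlip) (hi hγl), ← integral_const_mul]
      refine integral_congr_ae (Eventually.of_forall fun p => ?_)
      simp only
      rw [e2 _ (ec_mem _) _ (ec_mem _), mul_pow, (lim_proj _ _).1, e4]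
      ring
    simp only [hβ _ (hS _ (ec_mem _)) _ (hS _ (ec_mem _))] at p3
    rw [p3, p2]
    have c0 := col_nonneg φ (VD a) r
    have a4 := pow_le_pow_left₀ (norm_nonneg _) hu1 2
    have a5 : 4 * ‖u‖ ^ 2 * (0 - ∫ p : ℝ × ℝ, Wt φ μ (VD a) r p * ‖γ (ec p.1) - γ (ec p.2)‖ ^ 2
        ∂(mc.prod mc)) ≤ 4 * N ^ 2 * (128 * L ^ 2 * col φ (VD a) r) :=
      (mul_le_mul_of_nonneg_left (by linarith) (by positivity)).trans
        (mul_le_mul_of_nonneg_right (by linarith) (by positivity))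
    linarith

end

theorem exists_zeroMode_pointL (S : LSetup φ μ) (hθ : θ < 1) (hG : Ground φ μ θ)
    (hU : Unif φ μ θ C η) {v₀ Φ₀ : ℂ → ℂ} (h₀ : ZeroMode φ μ v₀ Φ₀) {a : ℂ → ℝ}
    (hm : LMode φ μ v₀ Φ₀ a) (hV : dD (fun z => (a z : ℂ)) 0 = 0) {t : ℂ} (ht : t ∈ Db)
    (ht0 : t ≠ 0) : ∃ v Φ : ℂ → ℂ, ZeroMode φ μ v Φ ∧ ∀ K : ℂ → ℝ, ContDiff ℝ ∞ K →
      ell φ K v Φ = ∫ s, (dU φ μ (ec s) 1 - dU φ μ (ec s) t) * K (ec s) *
        (ec s * VT φ μ a (ec s)).im ∂mc := by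
  have hμ := S.mu_pos
  have T := S.toLAn
  have bV : IntegrableOn (fun z => ‖VD a z / deriv φ z‖ ^ 2) D :=
    integrableOn_norm_sq (hm.memLp_om T)
  set ε : ℕ → ℝ := fun j => 1 / ((j : ℝ) + 1) with hε
  have hε0 : ∀ j, 0 < ε j := fun j => by positivity
  have hεt : Tendsto ε atTop (𝓝 0) := tendsto_one_div_add_atTop_nhds_zero_nat
  obtain ⟨B, B', hB⟩ := limL_step S hG h₀ hm hU hV ht ht0
  choose v Φ m h1 h2 h3' h4 h5 h6 using fun j => hB (rj j) (rj_mem j).1 (rj_mem j).2 (ε j) (hε0 j)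
  have hEt : Tendsto (fun j => B * col φ (VD a) (rj j) + 2 * ε j) atTop (𝓝 0) := by
    simpa using (((tendsto_colL bV).comp tendsto_rj).const_mul B).add (hεt.const_mul 2)
  obtain ⟨E, hE⟩ := hEt.bddAbove_range
  have h3 : ∀ j, ∫ z in D, ‖v j z‖ ^ 2 ≤ (B' + 8 * E) / ((1 - θ) * μ) := fun j => by
    have a1 := (h2 j).trans (hE (mem_range_self j))
    rw [le_div_iff₀ (mul_pos (sub_pos.2 hθ) hμ)]
    linarith [h3' j]
  have h7 : ∀ j, ∫ z in D, ‖Φ j z‖ ^ 2 ≤ E + μ * ((B' + 8 * E) / ((1 - θ) * μ)) := fun j => by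
    have a1 := (h2 j).trans (hE (mem_range_self j))
    simp only [EB, mul_conj_re_self] at a1
    have a2 := mul_le_mul_of_nonneg_left (h3 j) hμ.le
    linarith
  set 𝒰 : Ultrafilter ℕ := UF with h𝒰
  have hle : (𝒰 : Filter ℕ) ≤ atTop := Ultrafilter.of_le _
  obtain ⟨w, hw, hwt⟩ := exists_weak_limit (fun j => (h1 j).l2v) h3 𝒰
  obtain ⟨Ψ, hΨ, hΨt⟩ := exists_weak_limit (fun j => (h1 j).l2F) h7 𝒰
  have hre : ∀ {f : ℕ → ℂ → ℂ} {g h : ℂ → ℂ}, (∀ j, MemLp (f j) 2 (volume.restrict D)) →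
      MemLp g 2 (volume.restrict D) → MemLp h 2 (volume.restrict D) →
      Tendsto (fun j => ∫ z in D, f j z * conj (h z)) 𝒰 (𝓝 (∫ z in D, g z * conj (h z))) →
      Tendsto (fun j => ∫ z in D, (f j z * conj (h z)).re) 𝒰
        (𝓝 (∫ z in D, (g z * conj (h z)).re)) := by
    intro f g h hf hg hh hl
    have e : ∀ {k : ℂ → ℂ}, MemLp k 2 (volume.restrict D) →
        ∫ z in D, (k z * conj (h z)).re = (∫ z in D, k z * conj (h z)).re := fun hk =>
      integral_re (integrableOn_mul_of_memLp hk (memLp_conj hh))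
    simp only [e (hf _), e hg]
    exact (continuous_re.tendsto _).comp hl
  have hpair : ∀ {f U : ℂ → ℂ}, MemLp f 2 (volume.restrict D) → BM U →
      Tendsto (fun j => ∫ z in D, (v j z * conj (f z) + deriv φ z * Φ j z * conj (U z)).re) 𝒰
        (𝓝 (∫ z in D, (w z * conj (f z) + deriv φ z * Ψ z * conj (U z)).re)) := by
    intro f U hf hU
    have hU' := hU.memLp_mul (memLp_conj T.memLp_deriv)
    have e : ∀ {k l : ℂ → ℂ}, MemLp k 2 (volume.restrict D) → MemLp l 2 (volume.restrict D) →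
        ∫ z in D, (k z * conj (f z) + deriv φ z * l z * conj (U z)).re =
          (∫ z in D, (k z * conj (f z)).re) +
            ∫ z in D, (l z * conj (conj (deriv φ z) * U z)).re := fun hk hl => by
      rw [← integral_add (integrableOn_mul_conj_re hk hf) (integrableOn_mul_conj_re hl hU')]
      refine integral_congr_ae (Eventually.of_forall fun z => ?_)
      simp only [← add_re, map_mul, conj_conj]
      congr 1; ring
    simp only [e (h1 _).l2v (h1 _).l2F, e hw hΨ]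
    exact (hre (fun j => (h1 j).l2v) hw hf (hwt _ hf)).add
      (hre (fun j => (h1 j).l2F) hΨ hU' (hΨt _ hU'))
  refine ⟨w, Ψ, ⟨⟨hw, hΨ, fun U hU => ?_⟩, fun v' Φ' h' => ?_⟩, fun K hK => ?_⟩
  · have := hpair hU.memLp_dD hU.bm
    simp only [(h1 _).eq U hU] at this
    exact tendsto_nhds_unique this tendsto_const_nhds
  · have t1 : Tendsto (fun j => EB μ (v j) (Φ j) v' Φ') 𝒰 (𝓝 (EB μ w Ψ v' Φ')) :=
      (hre (fun j => (h1 j).l2F) hΨ h'.l2F (hΨt _ h'.l2F)).sub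
        ((hre (fun j => (h1 j).l2v) hw h'.l2v (hwt _ h'.l2v)).const_mul μ)
    have t2 := (hEt.mul_const (EB μ v' Φ' v' Φ')).mono_left hle
    rw [zero_mul] at t2
    have := le_of_tendsto_of_tendsto' (t1.pow 2) t2 fun j =>
      (hG.EB_sq_leL T hθ.le (h1 j) h').trans
        (mul_le_mul_of_nonneg_right (h2 j) (hG.EB_nonnegL T hθ.le h'))
    exact pow_eq_zero_iff two_ne_zero |>.1 (le_antisymm this (sq_nonneg _))
  · have hU' : ContDiff ℝ 1 fun w => I * (K w : ℂ) :=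
      contDiff_const.mul (ofRealCLM.contDiff.comp (hK.of_le (by norm_cast)))
    have t1 : Tendsto (fun j => ell φ K (v j) (Φ j)) 𝒰 (𝓝 (ell φ K w Ψ)) :=
      hpair (BM.dD_of_contDiff hU').memLp (BM.of_continuous hU'.continuous)
    simp only [h6 _ K hK] at t1
    refine tendsto_nhds_unique t1 ?_
    have hec := continuous_circleMap 0 1
    have hbd : ∀ {f : ℂ → ℝ} {g : ℝ → ℝ}, ContinuousOn f S1 → Integrable g mc →
        Integrable (fun s => f (ec s) * g s) mc := by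
      intro f g hf hg
      obtain ⟨M, hM⟩ := (isCompact_sphere (0 : ℂ) 1).exists_bound_of_continuousOn hf
      exact hg.bdd_mul (hf.comp_continuous hec ec_mem).aestronglyMeasurable
        (Eventually.of_forall fun s => hM _ (ec_mem s))
    have hg := hbd hK.continuous.continuousOn (hm.integrable_trace T)
    have h1' : (1 : ℂ) ∈ Db := by simp
    have hb : ContinuousOn (fun s => dU φ μ s 1 - dU φ μ s t) S1 :=
      (hU.dU_props.1 1 h1' one_ne_zero).sub (hU.dU_props.1 t ht ht0)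
    simp only [mul_assoc]
    set G := ∫ s, ‖K (ec s) * (ec s * VT φ μ a (ec s)).im‖ ∂mc with hG'
    have hG0 : 0 ≤ G := integral_nonneg fun _ => norm_nonneg _
    refine Metric.tendsto_nhds.2 fun δ hδ => ?_
    have hδ' : 0 < δ / (3 * (G + 1)) := by positivity
    filter_upwards [Metric.tendstoUniformlyOn_iff.1 (hU.tendsto h1' one_ne_zero) _ hδ',
      Metric.tendstoUniformlyOn_iff.1 (hU.tendsto ht ht0) _ hδ',
      (hεt.mono_left hle).eventually (gt_mem_nhds hδ')] with j j1 j2 j3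
    rw [dist_eq_norm, ← integral_sub (hbd (h4 j).continuousOn hg) (hbd hb hg)]
    refine (norm_integral_le_of_norm_le (hg.norm.const_mul (3 * (δ / (3 * (G + 1)))))
      (Eventually.of_forall fun s => ?_)).trans_lt ?_
    · rw [← sub_mul, norm_mul]
      refine mul_le_mul_of_nonneg_right ?_ (norm_nonneg _)
      have a1 := abs_le.1 (h5 j _ (ec_mem s))
      have a2 := abs_lt.1 ((Real.dist_eq _ _).symm.trans_lt (j1 _ (ec_mem s)))
      have a3 := abs_lt.1 ((Real.dist_eq _ _).symm.trans_lt (j2 _ (ec_mem s)))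
      exact abs_le.2 ⟨by linarith, by linarith⟩
    · rw [integral_const_mul, ← hG', show 3 * (δ / (3 * (G + 1))) * G = δ * (G / (G + 1)) by
        field_simp]
      exact mul_lt_of_lt_one_right hδ ((div_lt_one (by positivity)).2 (lt_add_one G))

end Vale.Agent.P071
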