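import Vale.Agent.P071L.TTL
import Vale.Agent.P071.RepAux
import Vale.Agent.P071.TransferAux

/-!
# The logarithmic potential
-/

open Complex Metric Set Filter Topology MeasureTheory
open scoped ContDiff ComplexConjugate Real

namespace Vale.Agent.P071

variable {φ : ℂ → ℂ} {μ : ℝ}

/-- The Neumann kernel. -/
noncomputable def nnK (z y : ℂ) : ℝ :=
  (Real.log ‖z - y‖ + Real.log ‖1 - z * conj y‖) / (2 * π)

/-- The gradient of the Neumann kernel. -/
noncomputable def nnD (z y : ℂ) : ℂ := (1 / (z - y) - conj y / (1 - z * conj y)) / (2 * π)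

lemma nn_tau (F : ℂ → ℝ) (z y : ℂ) : tau (fun y => (F y : ℂ)) z y = nnD z y * F y := by
  rw [tau, nnD, conj_ofReal]; ring

lemma nn_meas : Measurable fun p : ℂ × ℂ => nnK p.1 p.2 := by
  have h2 : Measurable (fun p : ℂ × ℂ => conj p.2) := regT_meas_conj.comp measurable_snd
  exact ((Real.measurable_log.comp (measurable_fst.sub measurable_snd).norm).add
    (Real.measurable_log.comp (measurable_const.sub (measurable_fst.mul h2)).norm)).div_const _

lemma nn_meas_right (z : ℂ) : Measurable (nnK z) := nn_meas.comp measurable_prodMk_left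

lemma nn_le_two {z y : ℂ} (hz : z ∈ Db) (hy : y ∈ Db) : ‖1 - z * conj y‖ ≤ 2 := by
  have h1 := norm_sub_le (1 : ℂ) (z * conj y)
  rw [norm_one, norm_mul, Complex.norm_conj] at h1
  linarith [mul_le_one₀ (kern0_norm_le hz) (norm_nonneg y) (kern0_norm_le hy)]

lemma nn_sub_le {z z' y : ℂ} (hy : y ∈ Db) :
    |‖z - y‖ - ‖z' - y‖| ≤ ‖z - z'‖ ∧ |‖1 - z * conj y‖ - ‖1 - z' * conj y‖| ≤ ‖z - z'‖ := by
  constructor
  · have := abs_norm_sub_norm_le (z - y) (z' - y)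
    rwa [sub_sub_sub_cancel_right] at this
  · refine (abs_norm_sub_norm_le _ _).trans ?_
    rw [show 1 - z * conj y - (1 - z' * conj y) = -((z - z') * conj y) by ring, norm_neg, norm_mul,
      Complex.norm_conj]
    exact mul_le_of_le_one_right (norm_nonneg _) (kern0_norm_le hy)

lemma nnK_le {τ : ℝ} (h0 : 0 < τ) (h1 : τ ≤ 1) {z y : ℂ} (hz : z ∈ Db) (hy : y ∈ Db) (hne : y ≠ z) :
    |nnK z y| ≤ 1 / τ * ‖y - z‖ ^ (-τ) := by
  have hd : 0 < ‖z - y‖ := norm_pos_iff.2 (sub_ne_zero.2 hne.symm)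
  have hle := regT_norm_sub_le hz hy
  have a1 := sing_log h0 h1 hd (kern0_norm_sub_le hz hy)
  have a2 := (sing_log h0 h1 (hd.trans_le hle) (nn_le_two hz hy)).trans (mul_le_mul_of_nonneg_left
    (Real.rpow_le_rpow_of_nonpos hd hle (by linarith)) (by positivity))
  have hπ := Real.pi_gt_three
  rw [nnK, abs_div, abs_of_pos (by positivity : 0 < 2 * π), div_le_iff₀ (by positivity),
    norm_sub_rev y z]
  refine (abs_add_le _ _).trans ?_
  have e : 2 / τ * ‖z - y‖ ^ (-τ) = 2 * (1 / τ * ‖z - y‖ ^ (-τ)) := by ring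
  have h2 : 0 ≤ 1 / τ * ‖z - y‖ ^ (-τ) := by positivity
  rw [e] at a1 a2
  nlinarith

lemma nnK_sub_eq (z z' y : ℂ) : nnK z y - nnK z' y = ((Real.log ‖z - y‖ - Real.log ‖z' - y‖) +
    (Real.log ‖1 - z * conj y‖ - Real.log ‖1 - z' * conj y‖)) / (2 * π) := by
  unfold nnK; ring

lemma nnK_sub_le {τ : ℝ} (h0 : 0 < τ) (h1 : τ ≤ 1) {z z' y : ℂ} (hz : z ∈ Db) (hz' : z' ∈ Db)
    (hy : y ∈ Db) (hne : y ≠ z) (hne' : y ≠ z') :
    |nnK z y - nnK z' y| ≤ ‖z - z'‖ ^ τ / τ * (‖y - z‖ ^ (-τ) + ‖y - z'‖ ^ (-τ)) := by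
  have hd : 0 < ‖z - y‖ := norm_pos_iff.2 (sub_ne_zero.2 hne.symm)
  have hd' : 0 < ‖z' - y‖ := norm_pos_iff.2 (sub_ne_zero.2 hne'.symm)
  have hle := regT_norm_sub_le hz hy
  have hle' := regT_norm_sub_le hz' hy
  obtain ⟨b1, b2⟩ := nn_sub_le (z := z) (z' := z') hy
  have a1 := sing_log_sub h0 h1 hd hd' b1
  have a2 := (sing_log_sub h0 h1 (hd.trans_le hle) (hd'.trans_le hle') b2).trans
    (mul_le_mul_of_nonneg_left (add_le_add (Real.rpow_le_rpow_of_nonpos hd hle (by linarith))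
      (Real.rpow_le_rpow_of_nonpos hd' hle' (by linarith))) (by positivity))
  have hπ := Real.pi_gt_three
  rw [nnK_sub_eq, abs_div, abs_of_pos (by positivity : 0 < 2 * π), div_le_iff₀ (by positivity),
    norm_sub_rev y z, norm_sub_rev y z']
  refine (abs_add_le _ _).trans ?_
  have h2 : 0 ≤ ‖z - z'‖ ^ τ / τ * (‖z - y‖ ^ (-τ) + ‖z' - y‖ ^ (-τ)) := by positivity
  nlinarith

lemma nn_int {F : ℂ → ℝ} {τ B : ℝ} (h0 : 0 < τ) (h1 : τ ≤ 1) (hm : AEStronglyMeasurable F mD)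
    (h : Riesz (fun y => |F y|) τ B) {z : ℂ} (hz : z ∈ Db) :
    Integrable (fun y => nnK z y * F y) mD := by
  refine ((h z hz).1.const_mul (1 / τ)).mono' ((nn_meas_right z).aestronglyMeasurable.mul hm) ?_
  filter_upwards [regT_ae_mem, mD.ae_ne z] with y hy hne
  rw [Real.norm_eq_abs, abs_mul, mul_comm |F y|, ← mul_assoc]
  exact mul_le_mul_of_nonneg_right (nnK_le h0 h1 hz (regT_D_sub hy) hne) (abs_nonneg _)

lemma LAn.nn_riesz (S : LAn φ) {F : ℂ → ℝ} {Φ : ℂ → ℂ} (hΦ : MemLp Φ 2 (volume.restrict D))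
    (hF : ∀ᵐ y ∂(volume.restrict D), deriv φ y * Φ y = F y) : AEStronglyMeasurable F mD ∧
      ∃ τ B : ℝ, 0 < τ ∧ τ ≤ 1 ∧ Riesz (fun y => |F y|) τ B := by
  have hm : AEStronglyMeasurable F mD :=
    (continuous_re.comp_aestronglyMeasurable
      ((measurable_deriv φ).aestronglyMeasurable.mul hΦ.1)).congr (hF.mono fun y hy => by
        simp only [Pi.mul_apply, hy, ofReal_re])
  obtain ⟨η, B, h0, h1, h, -⟩ := S.kato
  have h2 : Integrable (fun y => ‖Φ y‖ ^ 2) mD := (memLp_two_iff_integrable_sq_norm hΦ.1).1 hΦ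
  refine ⟨hm, η / 2, B + ∫ y, ‖Φ y‖ ^ 2 ∂mD, by positivity, by linarith, fun x hx => ?_⟩
  obtain ⟨i1, i2⟩ := h x hx
  have i3 : Integrable (fun y => rho φ y * ‖y - x‖ ^ (-η) + ‖Φ y‖ ^ 2) mD := i1.add h2
  have hb : ∀ᵐ y ∂mD, |F y| * ‖y - x‖ ^ (-(η / 2)) ≤ rho φ y * ‖y - x‖ ^ (-η) + ‖Φ y‖ ^ 2 := by
    filter_upwards [hF] with y hy
    have e1 : |F y| = ‖deriv φ y‖ * ‖Φ y‖ := by
      rw [← norm_mul, hy, norm_real, Real.norm_eq_abs]
    have e2 : ‖y - x‖ ^ (-η) = (‖y - x‖ ^ (-(η / 2))) ^ 2 := by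
      rw [← Real.rpow_natCast, ← Real.rpow_mul (norm_nonneg _)]
      congr 1
      push_cast
      ring
    rw [e1, e2, rho]
    nlinarith [sq_nonneg (‖deriv φ y‖ * ‖y - x‖ ^ (-(η / 2)) - ‖Φ y‖),
      sq_nonneg (‖deriv φ y‖ * ‖y - x‖ ^ (-(η / 2))), sq_nonneg ‖Φ y‖]
  have i4 : Integrable (fun y => |F y| * ‖y - x‖ ^ (-(η / 2))) mD := by
    refine i3.mono' ((continuous_abs.comp_aestronglyMeasurable hm).mul
      (by fun_prop : Measurable _).aestronglyMeasurable) (hb.mono fun y hy => ?_)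
    rwa [Real.norm_of_nonneg (by positivity)]
  refine ⟨i4, (integral_mono_ae i4 i3 hb).trans ?_⟩
  rw [integral_add i1 h2]
  exact add_le_add_left i2 _

/-- The integrand of the logarithmic potential is integrable. -/
theorem LAn.NN_integrable (S : LAn φ) {F : ℂ → ℝ} {Φ : ℂ → ℂ} (hΦ : MemLp Φ 2 (volume.restrict D))
    (hF : ∀ᵐ y ∂(volume.restrict D), deriv φ y * Φ y = F y) {z : ℂ} (hz : z ∈ Db) :
    IntegrableOn (fun y => (Real.log ‖z - y‖ + Real.log ‖1 - z * conj y‖) / (2 * π) * F y) D := by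
  obtain ⟨hm, τ, B, h0, h1, h⟩ := S.nn_riesz hΦ hF
  exact nn_int h0 h1 hm h hz

lemma nn_eq (F : ℂ → ℝ) (z : ℂ) : NN F z = ∫ y, nnK z y * F y ∂mD := rfl

theorem LAn.NN_cont (S : LAn φ) {F : ℂ → ℝ} {Φ : ℂ → ℂ} (hΦ : MemLp Φ 2 (volume.restrict D))
    (hF : ∀ᵐ y ∂(volume.restrict D), deriv φ y * Φ y = F y) : ContinuousOn (NN F) Db := by
  obtain ⟨hm, τ, B, h0, h1, h⟩ := S.nn_riesz hΦ hF
  have key : ∀ z ∈ Db, ∀ z' ∈ Db, ‖NN F z - NN F z'‖ ≤ ‖z - z'‖ ^ τ / τ * (B + B) := by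
    intro z hz z' hz'
    obtain ⟨i1, i2⟩ := h z hz
    obtain ⟨j1, j2⟩ := h z' hz'
    have i3 : Integrable (fun y => ‖z - z'‖ ^ τ / τ *
        (|F y| * ‖y - z‖ ^ (-τ) + |F y| * ‖y - z'‖ ^ (-τ))) mD := (i1.add j1).const_mul _
    rw [nn_eq, nn_eq, ← integral_sub (nn_int h0 h1 hm h hz) (nn_int h0 h1 hm h hz')]
    refine (norm_integral_le_of_norm_le i3 ?_).trans ?_
    · filter_upwards [regT_ae_mem, mD.ae_ne z, mD.ae_ne z'] with y hy k1 k2
      rw [← sub_mul, Real.norm_eq_abs, abs_mul, ← mul_add, mul_comm |F y|, ← mul_assoc]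
      exact mul_le_mul_of_nonneg_right (nnK_sub_le h0 h1 hz hz' (regT_D_sub hy) k1 k2)
        (abs_nonneg _)
    · rw [integral_const_mul, integral_add i1 j1]
      exact mul_le_mul_of_nonneg_left (add_le_add i2 j2) (by positivity)
  intro z' hz'
  refine tendsto_iff_norm_sub_tendsto_zero.2 (squeeze_zero' (Eventually.of_forall fun _ =>
    norm_nonneg _) (eventually_mem_nhdsWithin.mono fun z hz => key z hz z' hz') ?_)
  have hc : Continuous fun z : ℂ => ‖z - z'‖ ^ τ / τ * (B + B) :=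
    (((continuous_id.sub continuous_const).norm.rpow_const fun _ => Or.inr h0.le).div_const
      _).mul continuous_const
  have := hc.tendsto z'
  simp only [sub_self, norm_zero, Real.zero_rpow h0.ne', zero_div, zero_mul] at this
  exact this.mono_left nhdsWithin_le_nhds

lemma nn_bdd {η : ℂ → ℂ} (hη : Continuous η) : ∃ M : ℝ, 0 ≤ M ∧ ∀ z ∈ D, ‖η z‖ ≤ M := by
  obtain ⟨M, hM⟩ := (isCompact_closedBall (0 : ℂ) 1).exists_bound_of_continuousOn hη.continuousOn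
  exact ⟨M, (norm_nonneg _).trans (hM 0 kern0_zero_mem), fun z hz => hM z (regT_D_sub hz)⟩

lemma nn_cont_dD {η : ℂ → ℂ} (hη : ContDiff ℝ 1 η) : Continuous (dD η) :=
  continuous_iff_continuousAt.2 fun _ =>
    (contDiffAt_dD (m := 0) hη.contDiffAt (by norm_num)).continuousAt

lemma nn_ibp {g g' η : ℂ → ℂ} {y : ℂ} (hy : y ∈ D) (hg : ∀ z, HasDerivAt g (g' z) z)
    (hg' : Continuous g') (h1 : ∀ z ∈ D, ‖g' z‖ ≤ 1) (h2 : ∀ z ∈ D, ‖z - y‖ ≤ ‖g z‖ ∧ ‖g z‖ ≤ 2)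
    (hη : ContDiff ℝ 1 η) (hs : tsupport η ⊆ D) :
    Integrable (fun z => (Real.log ‖g z‖ : ℝ) * dD η z + g' z / g z * η z) mD ∧
      ∫ z, ((Real.log ‖g z‖ : ℝ) * dD η z + g' z / g z * η z) ∂mD = 0 := by
  have gd : Differentiable ℂ g := fun z => (hg z).differentiableAt
  have gc : ContDiff ℝ 1 g := gd.contDiff.restrict_scalars ℝ
  have cD := nn_cont_dD hη
  obtain ⟨M, hM0, hM⟩ := nn_bdd hη.continuous
  obtain ⟨M', hM0', hM'⟩ := nn_bdd cD
  obtain ⟨I₀, -, hI⟩ := regT_sing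
  have iI := (hI y (regT_D_sub hy)).2.1
  set f : ℝ → ℂ → ℂ := fun ε z => (repL ε (g z) * dD η z +
    g' z * (2 * conj (g z) / ((‖g z‖ ^ 2 + ε : ℝ) : ℂ)) * η z) / 2 with hf
  have hpos : ∀ᶠ ε : ℝ in 𝓝[>] 0, ε ∈ Ioo (0 : ℝ) 1 := Ioo_mem_nhdsGT one_pos
  have cL : ∀ ε, 0 < ε → ContDiff ℝ 1 fun z => repL ε (g z) := fun ε hε =>
    ((rep_contDiff hε).of_le (by norm_cast)).comp gc
  have e1 : ∀ ε, 0 < ε → ∀ z, f ε z = dD (fun w => repL ε (g w) * η w) z / 2 := fun ε hε z => by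
    rw [dD_mul ((cL ε hε).differentiable one_ne_zero z) (hη.differentiable one_ne_zero z),
      dD_comp_holo ((rep_contDiff hε).differentiable (by simp) _) (gd z), (hg z).deriv, rep_dD hε,
      add_comm]
  have key : ∀ ε, 0 < ε → ∫ z, f ε z ∂mD = 0 := fun ε hε => by
    have h := green_dD (c := 0) zero_le_one fun z _ => ((cL ε hε).mul hη).contDiffAt
    have h0 : ∀ θ, η (circleMap 0 1 θ) = 0 := fun θ =>
      image_eq_zero_of_notMem_tsupport fun hh => by simpa using hs hh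
    simp only [h0, mul_zero, zero_mul, intervalIntegral.integral_zero] at h
    simp only [e1 ε hε]
    rw [integral_div, h, zero_div]
  have iB : Integrable (fun z => (2 + 2 * ‖z - y‖⁻¹) * M' + ‖z - y‖⁻¹ * M) mD :=
    (((integrable_const _).add (iI.const_mul 2)).mul_const _).add (iI.mul_const _)
  have hm : ∀ᶠ ε : ℝ in 𝓝[>] 0, AEStronglyMeasurable (f ε) mD := hpos.mono fun ε hε => by
    rw [funext (e1 ε hε.1)]
    exact ((nn_cont_dD ((cL ε hε.1).mul hη)).div_const 2).aestronglyMeasurable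
  have hb : ∀ᶠ ε : ℝ in 𝓝[>] 0, ∀ᵐ z ∂mD,
      ‖f ε z‖ ≤ (2 + 2 * ‖z - y‖⁻¹) * M' + ‖z - y‖⁻¹ * M := hpos.mono fun ε hε => by
    filter_upwards [regT_ae_mem, mD.ae_ne y] with z hz hne
    have hd : 0 < ‖z - y‖ := norm_pos_iff.2 (sub_ne_zero.2 hne)
    obtain ⟨k1, k2⟩ := h2 z hz
    have hp := hd.trans_le k1
    have hε0 := hε.1
    have k3 : ‖g z‖⁻¹ ≤ ‖z - y‖⁻¹ := inv_anti₀ hd k1
    have k4 : ‖repL ε (g z)‖ ≤ 4 + 4 * ‖z - y‖⁻¹ := by
      have a1 := abs_le.1 (sing_log one_pos le_rfl hp k2)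
      rw [Real.rpow_neg_one] at a1
      have a2 := Real.log_le_log (by positivity) (le_add_of_nonneg_right hε0.le : ‖g z‖ ^ 2 ≤ _)
      rw [Real.log_pow] at a2
      push_cast at a2
      have a3 := Real.log_le_sub_one_of_pos (show 0 < ‖g z‖ ^ 2 + ε by positivity)
      have a4 : ‖g z‖ ^ 2 ≤ 4 := by nlinarith
      have a5 : 0 ≤ ‖z - y‖⁻¹ := by positivity
      rw [repL, norm_real, Real.norm_eq_abs, abs_le]
      constructor <;> linarith [hε.2, a1.1]
    have k5 : ‖g' z * (2 * conj (g z) / ((‖g z‖ ^ 2 + ε : ℝ) : ℂ))‖ ≤ 2 * ‖z - y‖⁻¹ := by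
      rw [norm_mul, norm_div, norm_mul, Complex.norm_conj, norm_real, Complex.norm_ofNat,
        Real.norm_of_nonneg (by positivity)]
      refine (mul_le_of_le_one_left (by positivity) (h1 z hz)).trans
        (le_trans ?_ (mul_le_mul_of_nonneg_left k3 zero_le_two))
      rw [← div_eq_mul_inv, div_le_div_iff₀ (by positivity) hp]
      nlinarith
    simp only [hf]
    rw [norm_div, Complex.norm_ofNat, div_le_iff₀ two_pos]
    refine (norm_add_le _ _).trans ?_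
    rw [norm_mul, norm_mul _ (η z)]
    have k6 := mul_le_mul k4 (hM' z hz) (norm_nonneg _) (by positivity)
    have k7 := mul_le_mul k5 (hM z hz) (norm_nonneg _) (by positivity)
    linarith
  have hl : ∀ᵐ z ∂mD, Tendsto (fun ε => f ε z) (𝓝[>] 0)
      (𝓝 ((Real.log ‖g z‖ : ℝ) * dD η z + g' z / g z * η z)) := by
    filter_upwards [regT_ae_mem, mD.ae_ne y] with z hz hne
    have hp := (norm_pos_iff.2 (sub_ne_zero.2 hne)).trans_le (h2 z hz).1
    have hg0 : g z ≠ 0 := norm_pos_iff.1 hp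
    have c1 : ContinuousAt (fun ε : ℝ => repL ε (g z)) 0 :=
      continuous_ofReal.continuousAt.comp
        (ContinuousAt.log (f := fun ε : ℝ => ‖g z‖ ^ 2 + ε) (by fun_prop) (by positivity))
    have c2 : ContinuousAt (fun ε : ℝ => 2 * conj (g z) / ((‖g z‖ ^ 2 + ε : ℝ) : ℂ)) 0 :=
      continuousAt_const.div (by fun_prop) (ofReal_ne_zero.2 (by positivity))
    have c3 : ContinuousAt (fun ε => f ε z) 0 :=
      ((c1.mul continuousAt_const).add
        ((continuousAt_const.mul c2).mul continuousAt_const)).div_const 2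
    have e : f 0 z = (Real.log ‖g z‖ : ℝ) * dD η z + g' z / g z * η z := by
      have hc : conj (g z) ≠ 0 := (map_ne_zero _).2 hg0
      simp only [hf, repL, add_zero, Real.log_pow]
      rw [← normSq_eq_norm_sq, ← mul_conj]
      push_cast
      field_simp
    rw [← e]
    exact c3.tendsto.mono_left nhdsWithin_le_nhds
  refine ⟨iB.mono' ?_ ?_, ?_⟩
  · have m1 : Measurable fun z => ((Real.log ‖g z‖ : ℝ) : ℂ) :=
      measurable_ofReal.comp (Real.measurable_log.comp gc.continuous.measurable.norm)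
    exact ((m1.mul cD.measurable).add ((hg'.measurable.div gc.continuous.measurable).mul
      hη.continuous.measurable)).aestronglyMeasurable
  · filter_upwards [regT_ae_mem, mD.ae_ne y] with z hz hne
    have hd : 0 < ‖z - y‖ := norm_pos_iff.2 (sub_ne_zero.2 hne)
    obtain ⟨k1, k2⟩ := h2 z hz
    have hp := hd.trans_le k1
    have k3 : ‖g z‖⁻¹ ≤ ‖z - y‖⁻¹ := inv_anti₀ hd k1
    have k4 := sing_log one_pos le_rfl hp k2
    rw [Real.rpow_neg_one] at k4
    have k5 : ‖g' z / g z‖ ≤ ‖z - y‖⁻¹ := by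
      rw [norm_div, div_eq_mul_inv]
      exact (mul_le_of_le_one_left (by positivity) (h1 z hz)).trans k3
    refine (norm_add_le _ _).trans (add_le_add ?_ ?_)
    · rw [norm_mul, norm_real, Real.norm_eq_abs]
      exact mul_le_mul (by linarith) (hM' z hz) (norm_nonneg _) (by positivity)
    · rw [norm_mul]
      exact mul_le_mul k5 (hM z hz) (norm_nonneg _) (by positivity)
  · refine tendsto_nhds_unique (tendsto_integral_filter_of_dominated_convergence _ hm hb iB hl) ?_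
    exact tendsto_const_nhds.congr' (hpos.mono fun ε hε => (key ε hε.1).symm)

lemma nn_ibp' {η : ℂ → ℂ} {y : ℂ} (hy : y ∈ D) (hη : ContDiff ℝ 1 η) (hs : tsupport η ⊆ D) :
    ∫ z, (nnK z y * dD η z + nnD z y * η z) ∂mD = 0 := by
  have hy' := regT_D_sub hy
  obtain ⟨a1, a2⟩ := nn_ibp (g := fun z => z - y) (g' := fun _ => 1) hy
    (fun z => (hasDerivAt_id z).sub_const y) continuous_const (fun _ _ => by simp)
    (fun z hz => ⟨le_rfl, kern0_norm_sub_le (regT_D_sub hz) hy'⟩) hη hs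
  obtain ⟨b1, b2⟩ := nn_ibp (g := fun z => 1 - z * conj y) (g' := fun _ => -conj y) hy
    (fun z => by simpa using ((hasDerivAt_id z).mul_const (conj y)).const_sub 1) continuous_const
    (fun _ _ => by rw [norm_neg, Complex.norm_conj]; exact kern0_norm_le hy')
    (fun z hz => ⟨regT_norm_sub_le (regT_D_sub hz) hy', nn_le_two (regT_D_sub hz) hy'⟩) hη hs
  have h := integral_add a1 b1
  rw [a2, b2, add_zero] at h
  have e : ∀ z, nnK z y * dD η z + nnD z y * η z =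
      (((Real.log ‖z - y‖ : ℝ) * dD η z + 1 / (z - y) * η z) +
        ((Real.log ‖1 - z * conj y‖ : ℝ) * dD η z + -conj y / (1 - z * conj y) * η z)) /
          (2 * π) := fun z => by
    rw [nnK, nnD]
    push_cast
    ring
  simp only [e]
  rw [integral_div, h, zero_div]

/-- The weak gradient of the logarithmic potential. -/
theorem LAn.NN_weak (S : LAn φ) {F : ℂ → ℝ} {Φ : ℂ → ℂ} (hΦ : MemLp Φ 2 (volume.restrict D))
    (hF : ∀ᵐ y ∂(volume.restrict D), deriv φ y * Φ y = F y) {η : ℂ → ℂ} (hη : ContDiff ℝ ∞ η)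
    (hs : tsupport η ⊆ D) :
    ∫ z in D, NN F z * dD η z = -∫ z in D, TT (fun y => (F y : ℂ)) z * η z := by
  have hη1 : ContDiff ℝ 1 η := hη.of_le (by norm_cast)
  have cD := nn_cont_dD hη1
  obtain ⟨M, -, hM⟩ := nn_bdd hη.continuous
  obtain ⟨M', -, hM'⟩ := nn_bdd cD
  have iF : Integrable (fun y => (F y : ℂ)) mD := (S.integrableOn_mul hΦ).congr hF
  have iF' : Integrable F mD := by simpa using iF.re
  have i1 : Integrable (fun p : ℂ × ℂ => nnK p.1 p.2 * F p.2) (mD.prod mD) := by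
    refine (regT_int_prod iF'.abs).mono' (nn_meas.aestronglyMeasurable.mul iF'.1.comp_snd)
      (regT_ae_ne.mono fun p hp => ?_)
    have := nnK_le one_pos le_rfl (regT_D_sub hp.1) (regT_D_sub hp.2.1) hp.2.2.symm
    rw [Real.rpow_neg_one, div_one, one_mul, norm_sub_rev] at this
    rw [Real.norm_eq_abs, abs_mul]
    exact mul_le_mul_of_nonneg_right this (abs_nonneg _)
  have i2 : Integrable (fun p : ℂ × ℂ => ((nnK p.1 p.2 * F p.2 : ℝ) : ℂ) * dD η p.1)
      (mD.prod mD) :=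
    i1.ofReal.mul_bdd (c := M') cD.aestronglyMeasurable.comp_fst
      (regT_ae_ne.mono fun p hp => hM' _ hp.1)
  have i3 : Integrable (fun p : ℂ × ℂ => tau (fun y => (F y : ℂ)) p.1 p.2 * η p.1) (mD.prod mD) :=
    (regT_tau_int iF).mul_bdd (c := M) hη.continuous.aestronglyMeasurable.comp_fst
      (regT_ae_ne.mono fun p hp => hM _ hp.1)
  have e1 : ∀ z, (NN F z : ℂ) * dD η z = ∫ y, ((nnK z y * F y : ℝ) : ℂ) * dD η z ∂mD := fun z => by
    rw [integral_mul_const, integral_complex_ofReal, nn_eq]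
  have e2 : ∀ z, TT (fun y => (F y : ℂ)) z * η z =
      ∫ y, tau (fun y => (F y : ℂ)) z y * η z ∂mD := fun z => by
    rw [integral_mul_const, TT]
  have e3 : ∫ z, ∫ y, ((nnK z y * F y : ℝ) : ℂ) * dD η z ∂mD ∂mD =
      ∫ y, ∫ z, ((nnK z y * F y : ℝ) : ℂ) * dD η z ∂mD ∂mD := integral_integral_swap i2
  have e4 : ∫ z, ∫ y, tau (fun y => (F y : ℂ)) z y * η z ∂mD ∂mD =
      ∫ y, ∫ z, tau (fun y => (F y : ℂ)) z y * η z ∂mD ∂mD := integral_integral_swap i3
  simp only [e1, e2]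
  rw [eq_neg_iff_add_eq_zero, e3, e4,
    ← integral_add i2.integral_prod_right i3.integral_prod_right]
  refine integral_eq_zero_of_ae ?_
  filter_upwards [regT_ae_mem, i2.prod_left_ae, i3.prod_left_ae] with y hy k1 k2
  rw [← integral_add k1 k2, Pi.zero_apply, ← zero_mul (F y : ℂ), ← nn_ibp' hy hη1 hs,
    ← integral_mul_const]
  refine integral_congr_ae (Eventually.of_forall fun z => ?_)
  simp only [nn_tau]
  push_cast
  ring

lemma nn_logA {τ : ℝ} (h0 : 0 < τ) (h1 : τ ≤ 1) {a b r : ℝ} (ha : 0 < a) (ha2 : a ≤ 2) (hb : 0 < b)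
    (hb2 : b ≤ 2) (h : |a - b| ≤ r) : |Real.log a - Real.log b| ≤ 4 / τ * (r * b⁻¹ * a ^ (-τ)) := by
  have two : (2 : ℝ) ^ τ ≤ 2 := by
    simpa using Real.rpow_le_rpow_of_exponent_le one_le_two h1
  have hp : 0 < a ^ τ := Real.rpow_pos_of_pos ha τ
  have k1 : a ^ τ ≤ 2 := (Real.rpow_le_rpow ha.le ha2 h0.le).trans two
  have k2 : b ^ τ ≤ 2 := (Real.rpow_le_rpow hb.le hb2 h0.le).trans two
  have k3 : 1 / 2 ≤ a ^ (-τ) := by
    rw [Real.rpow_neg ha.le, one_div]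
    exact inv_anti₀ hp k1
  have hr := abs_le.1 h
  have hr0 : 0 ≤ r := (abs_nonneg _).trans h
  have hq : 0 ≤ r * b⁻¹ := by positivity
  have k4 : 2 * (r * b⁻¹) ≤ 4 / τ * (r * b⁻¹ * a ^ (-τ)) := by
    have : 4 ≤ 4 / τ := by rw [le_div_iff₀ h0]; linarith
    have k := mul_le_mul_of_nonneg_left k3 hq
    nlinarith [mul_le_mul_of_nonneg_right this (show 0 ≤ r * b⁻¹ * a ^ (-τ) by positivity)]
  rcases le_total b a with hc | hc
  · rw [abs_of_nonneg (sub_nonneg.2 (Real.log_le_log hb hc)), ← Real.log_div ha.ne' hb.ne']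
    refine (Real.log_le_sub_one_of_pos (by positivity)).trans (le_trans ?_ k4)
    rw [div_sub_one hb.ne', div_eq_mul_inv]
    have := mul_le_mul_of_nonneg_right hr.2 (inv_pos.2 hb).le
    linarith
  rw [abs_sub_comm, abs_of_nonneg (sub_nonneg.2 (Real.log_le_log ha hc)),
    ← Real.log_div hb.ne' ha.ne']
  rcases le_total b (2 * a) with hd | hd
  · refine (Real.log_le_sub_one_of_pos (by positivity)).trans (le_trans ?_ k4)
    rw [div_sub_one ha.ne', ← div_eq_mul_inv, ← mul_div_assoc, div_le_div_iff₀ ha hb]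
    nlinarith [hr.1]
  · refine (Real.log_le_rpow_div (by positivity) h0).trans ?_
    have k5 : 1 / 2 ≤ r * b⁻¹ := by
      rw [← div_eq_mul_inv, le_div_iff₀ hb]; linarith [hr.1]
    have k6 : 0 ≤ a ^ (-τ) := by positivity
    rw [Real.div_rpow hb.le ha.le, div_eq_mul_inv (b ^ τ), ← Real.rpow_neg ha.le,
      div_mul_eq_mul_div]
    refine div_le_div_of_nonneg_right ?_ h0.le
    nlinarith [mul_le_mul_of_nonneg_right k5 k6, mul_le_mul_of_nonneg_right k2 k6]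

lemma nn_logB {u : ℂ} (hu : u ≠ 0) :
    |Real.log ‖u‖ - (u - 1).re| ≤ 3 * (‖u - 1‖ ^ 2 / ‖u‖) := by
  have ht : 0 < ‖u‖ := norm_pos_iff.2 hu
  have a1 := Real.one_sub_inv_le_log_of_pos ht
  have a2 := Real.log_le_sub_one_of_pos ht
  have a3 := re_le_norm u
  have a4 : ‖u - 1‖ ^ 2 = ‖u‖ ^ 2 - 2 * u.re + 1 := by
    simp only [Complex.sq_norm, normSq_apply, sub_re, sub_im, one_re, one_im]
    ring
  have a5 := (abs_le.1 (abs_re_le_norm (u - 1))).1
  have a6 := norm_sub_norm_le u 1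
  rw [norm_one] at a6
  rw [sub_re, one_re] at a5 ⊢
  have a7 := norm_nonneg (u - 1)
  have a8 : 0 ≤ ‖u - 1‖ ^ 2 / ‖u‖ := by positivity
  rw [abs_le]
  constructor
  · have b1 : (‖u‖ - 1) ^ 2 / ‖u‖ ≤ ‖u - 1‖ ^ 2 / ‖u‖ :=
      div_le_div_of_nonneg_right (by nlinarith) ht.le
    have b2 : (‖u‖ - 1) ^ 2 / ‖u‖ = ‖u‖ - 2 + ‖u‖⁻¹ := by field_simp; ring
    linarith
  · rw [← mul_div_assoc, le_div_iff₀ ht]
    rcases le_total ‖u‖ 3 with h | h
    · have b1 : Real.log ‖u‖ - (u.re - 1) ≤ ‖u - 1‖ ^ 2 / 2 := by nlinarith [sq_nonneg (‖u‖ - 1)]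
      nlinarith [mul_le_mul_of_nonneg_right b1 ht.le, mul_le_mul_of_nonneg_left h (sq_nonneg ‖u - 1‖)]
    · have b1 : Real.log ‖u‖ - (u.re - 1) ≤ 2 * ‖u - 1‖ := by linarith
      have b2 : 2 * ‖u‖ ≤ 3 * ‖u - 1‖ := by linarith
      nlinarith [mul_le_mul_of_nonneg_right b1 ht.le, mul_le_mul_of_nonneg_left b2 a7]

lemma nn_one_mem : (1 : ℂ) ∈ Db := by simp

lemma nn_ne_one {y : ℂ} (hy : y ∈ D) : y ≠ 1 := by
  rintro rfl
  simp at hy

lemma nn_norm_conj (y : ℂ) : ‖1 - 1 * conj y‖ = ‖1 - y‖ := by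
  rw [one_mul, ← Complex.norm_conj, map_sub, map_one, conj_conj]

lemma nnK_one {τ : ℝ} (h0 : 0 < τ) (h1 : τ ≤ 1) {z y : ℂ} (hz : z ∈ Db) (hy : y ∈ D) (hne : y ≠ z) :
    |nnK z y - nnK 1 y| ≤ 4 / τ * ‖z - 1‖ * (‖y - 1‖⁻¹ * ‖y - z‖ ^ (-τ)) := by
  have hy' := regT_D_sub hy
  have hd : 0 < ‖z - y‖ := norm_pos_iff.2 (sub_ne_zero.2 hne.symm)
  have hb : 0 < ‖1 - y‖ := norm_pos_iff.2 (sub_ne_zero.2 (nn_ne_one hy).symm)
  have hb2 := kern0_norm_sub_le nn_one_mem hy'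
  have hle := regT_norm_sub_le hz hy'
  obtain ⟨b1, b2⟩ := nn_sub_le (z := z) (z' := 1) hy'
  rw [nn_norm_conj] at b2
  have a1 := nn_logA h0 h1 hd (kern0_norm_sub_le hz hy') hb hb2 b1
  have a2 := (nn_logA h0 h1 (hd.trans_le hle) (nn_le_two hz hy') hb hb2 b2).trans
    (mul_le_mul_of_nonneg_left (mul_le_mul_of_nonneg_left
      (Real.rpow_le_rpow_of_nonpos hd hle (by linarith)) (by positivity)) (by positivity))
  have hπ := Real.pi_gt_three
  rw [nnK_sub_eq, abs_div, abs_of_pos (by positivity : 0 < 2 * π), div_le_iff₀ (by positivity),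
    norm_sub_rev y z, norm_sub_rev y 1, nn_norm_conj, mul_assoc (4 / τ), ← mul_assoc ‖z - 1‖]
  refine (abs_add_le _ _).trans ?_
  have h2 : 0 ≤ 4 / τ * (‖z - 1‖ * ‖1 - y‖⁻¹ * ‖z - y‖ ^ (-τ)) := by positivity
  nlinarith

lemma nnD_one {z y : ℂ} (hz : z ∈ Db) (hy : y ∈ D) (hne : y ≠ z) :
    ‖nnD z y - nnD 1 y‖ ≤ ‖z - 1‖ * (‖y - 1‖⁻¹ * ‖z - y‖⁻¹) := by
  have hy' := regT_D_sub hy
  have n1 : z - y ≠ 0 := sub_ne_zero.2 hne.symm
  have n2 : 1 - y ≠ 0 := sub_ne_zero.2 (nn_ne_one hy).symm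
  have n3 := regT_one_sub_ne hz hy
  have n4 := regT_one_sub_ne nn_one_mem hy
  have p1 := norm_pos_iff.2 n1
  have p2 := norm_pos_iff.2 n2
  have hπ : (π : ℂ) ≠ 0 := ofReal_ne_zero.2 Real.pi_ne_zero
  have e : nnD z y - nnD 1 y = -((z - 1) * (1 / ((z - y) * (1 - y)) +
      conj y ^ 2 / ((1 - z * conj y) * (1 - 1 * conj y)))) / (2 * π) := by
    rw [nnD, nnD]
    generalize conj y = c at n3 n4
    rw [one_mul] at n4 ⊢
    have n5 : 1 - c * z ≠ 0 := by rwa [mul_comm]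
    field_simp
    ring
  have c1 : ‖1 / ((z - y) * (1 - y))‖ = ‖y - 1‖⁻¹ * ‖z - y‖⁻¹ := by
    rw [one_div, norm_inv, norm_mul, mul_inv, norm_sub_rev y, mul_comm]
  have c2 : ‖conj y ^ 2 / ((1 - z * conj y) * (1 - 1 * conj y))‖ ≤ ‖y - 1‖⁻¹ * ‖z - y‖⁻¹ := by
    rw [norm_div, norm_mul, norm_pow, Complex.norm_conj, nn_norm_conj, norm_sub_rev y, ← mul_inv,
      ← one_div, mul_comm ‖1 - y‖]
    exact div_le_div₀ zero_le_one (pow_le_one₀ (norm_nonneg _) (kern0_norm_le hy'))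
      (by positivity) (mul_le_mul_of_nonneg_right (regT_norm_sub_le hz hy') p2.le)
  have c3 := (norm_add_le _ _).trans (add_le_add c1.le c2)
  rw [e, norm_div, norm_neg, norm_mul, regT_norm_two_pi, div_le_iff₀ (by positivity)]
  have c4 : 0 ≤ ‖z - 1‖ * (‖y - 1‖⁻¹ * ‖z - y‖⁻¹) := by positivity
  have c5 := mul_le_mul_of_nonneg_left c3 (norm_nonneg (z - 1))
  nlinarith [Real.pi_gt_three]

lemma nnK_two {z y : ℂ} (hz : z ∈ Db) (hy : y ∈ D) (hne : y ≠ z) :
    |nnK z y - nnK 1 y - (nnD 1 y * (z - 1)).re| ≤ ‖z - 1‖ ^ 2 * (‖y - 1‖⁻¹ * ‖z - y‖⁻¹) := by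
  have hy' := regT_D_sub hy
  have n1 : z - y ≠ 0 := sub_ne_zero.2 hne.symm
  have n2 : 1 - y ≠ 0 := sub_ne_zero.2 (nn_ne_one hy).symm
  have n3 := regT_one_sub_ne hz hy
  have n4 := regT_one_sub_ne nn_one_mem hy
  have p1 := norm_pos_iff.2 n1
  have p2 := norm_pos_iff.2 n2
  have p3 := norm_pos_iff.2 n3
  have a1 := nn_logB (div_ne_zero n1 n2)
  have a2 := nn_logB (div_ne_zero n3 n4)
  have e1 : (z - y) / (1 - y) - 1 = (z - 1) / (1 - y) := by field_simp; ring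
  have e2 : (1 - z * conj y) / (1 - 1 * conj y) - 1 = -((z - 1) * conj y / (1 - 1 * conj y)) := by
    rw [div_sub_one n4, ← neg_div]
    congr 1
    ring
  have e3 : nnD 1 y * (z - 1) =
      ((z - 1) / (1 - y) + -((z - 1) * conj y / (1 - 1 * conj y))) / ((2 * π : ℝ) : ℂ) := by
    rw [nnD]; push_cast; ring
  rw [e1, norm_div, norm_div, Real.log_div p1.ne' p2.ne'] at a1
  rw [e2, norm_div, norm_neg, norm_div, norm_mul, Complex.norm_conj, nn_norm_conj,
    Real.log_div p3.ne' p2.ne'] at a2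
  have b1 : (‖z - 1‖ / ‖1 - y‖) ^ 2 / (‖z - y‖ / ‖1 - y‖) =
      ‖z - 1‖ ^ 2 * (‖1 - y‖⁻¹ * ‖z - y‖⁻¹) := by field_simp
  have b2 : (‖z - 1‖ * ‖y‖ / ‖1 - y‖) ^ 2 / (‖1 - z * conj y‖ / ‖1 - y‖) ≤
      ‖z - 1‖ ^ 2 * (‖1 - y‖⁻¹ * ‖z - y‖⁻¹) := by
    rw [← b1]
    refine div_le_div₀ (by positivity) ?_ (by positivity)
      (div_le_div_of_nonneg_right (regT_norm_sub_le hz hy') p2.le)
    exact pow_le_pow_left₀ (by positivity) (div_le_div_of_nonneg_right
      (mul_le_of_le_one_right (norm_nonneg _) (kern0_norm_le hy')) p2.le) 2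
  rw [b1] at a1
  have hπ := Real.pi_gt_three
  rw [nnK_sub_eq, e3, div_ofReal_re, ← sub_div, abs_div, abs_of_pos (by positivity : 0 < 2 * π),
    div_le_iff₀ (by positivity), add_re, nn_norm_conj, norm_sub_rev y 1, add_sub_add_comm]
  refine (abs_add_le _ _).trans ?_
  have h2 : 0 ≤ ‖z - 1‖ ^ 2 * (‖1 - y‖⁻¹ * ‖z - y‖⁻¹) := by positivity
  nlinarith

/-- First and second order Taylor estimates at the boundary point `1`. -/
theorem NN_taylor {w : ℂ → ℝ} {τ B : ℝ} (h : Riesz (fun y => w y * ‖y - 1‖⁻¹) τ B) (h0 : 0 < τ)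
    (h1 : τ ≤ 1) (hw : Measurable w) {F : ℂ → ℝ} (hF : AEStronglyMeasurable F (volume.restrict D))
    (hb : ∀ y ∈ D, |F y| ≤ w y) :
    IntegrableOn (fun y => ‖(F y : ℂ)‖ * ‖1 - y‖⁻¹) D ∧
    (∃ C : ℝ, ∀ z ∈ D, |NN F z - NN F 1| ≤ C * ‖z - 1‖) ∧
    ∀ z ∈ D, IntegrableOn (fun y => w y * ‖y - 1‖⁻¹ * ‖z - y‖⁻¹) D →
      ‖TT (fun y => (F y : ℂ)) z - TT (fun y => (F y : ℂ)) 1‖ ≤
        ‖z - 1‖ * ∫ y in D, w y * ‖y - 1‖⁻¹ * ‖z - y‖⁻¹ ∧
      |NN F z - NN F 1 - (TT (fun y => (F y : ℂ)) 1 * (z - 1)).re| ≤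
        ‖z - 1‖ ^ 2 * ∫ y in D, w y * ‖y - 1‖⁻¹ * ‖z - y‖⁻¹ := by
  have hw0 : ∀ y ∈ D, 0 ≤ w y := fun y hy => (abs_nonneg _).trans (hb y hy)
  have hFc : AEStronglyMeasurable (fun y => (F y : ℂ)) mD :=
    continuous_ofReal.comp_aestronglyMeasurable hF
  have hb2 : ∀ y ∈ D, |F y| ≤ 2 * (w y * ‖y - 1‖⁻¹) := fun y hy => by
    have k1 : 1 / 2 ≤ ‖y - 1‖⁻¹ := by
      rw [one_div]
      exact inv_anti₀ (norm_pos_iff.2 (sub_ne_zero.2 (nn_ne_one hy)))
        (kern0_norm_sub_le (regT_D_sub hy) nn_one_mem)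
    linarith [hb y hy, mul_le_mul_of_nonneg_left k1 (hw0 y hy)]
  have hR : Riesz (fun y => |F y|) τ (2 * B) := fun x hx => by
    obtain ⟨i1, i2⟩ := h x hx
    have k1 : ∀ᵐ y ∂mD, |F y| * ‖y - x‖ ^ (-τ) ≤ 2 * (w y * ‖y - 1‖⁻¹ * ‖y - x‖ ^ (-τ)) :=
      regT_ae_mem.mono fun y hy => by
        rw [← mul_assoc]
        exact mul_le_mul_of_nonneg_right (hb2 y hy) (by positivity)
    have i3 : Integrable (fun y => |F y| * ‖y - x‖ ^ (-τ)) mD := by
      refine (i1.const_mul 2).mono' ((continuous_abs.comp_aestronglyMeasurable hF).mul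
        (by fun_prop : Measurable _).aestronglyMeasurable) (k1.mono fun y hy => ?_)
      rwa [Real.norm_of_nonneg (by positivity)]
    refine ⟨i3, (integral_mono_ae i3 (i1.const_mul 2) k1).trans ?_⟩
    rw [integral_const_mul]
    linarith
  have iK : ∀ z ∈ Db, Integrable (fun y => nnK z y * F y) mD := fun z hz => nn_int h0 h1 hF hR hz
  have i0 : IntegrableOn (fun y => ‖(F y : ℂ)‖ * ‖1 - y‖⁻¹) D := by
    refine (h.integrableOn h0.le h1 (hw.mul (by fun_prop))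
      fun y hy => mul_nonneg (hw0 y hy) (by positivity)).1.mono'
      (hFc.norm.mul (by fun_prop : Measurable _).aestronglyMeasurable)
      (regT_ae_mem.mono fun y hy => ?_)
    rw [Real.norm_of_nonneg (by positivity), norm_real, Real.norm_eq_abs, norm_sub_rev]
    exact mul_le_mul_of_nonneg_right (hb y hy) (by positivity)
  have iT1 : Integrable (tau (fun y => (F y : ℂ)) 1) mD := by
    refine i0.mono' (regT_tau_meas_right hFc 1) (regT_ae_mem.mono fun y hy => ?_)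
    rw [mul_comm]
    exact regT_tau_le _ nn_one_mem hy (nn_ne_one hy).symm
  refine ⟨i0, ⟨4 / τ * B, fun z hz => ?_⟩, fun z hz hi => ⟨?_, ?_⟩⟩
  · have hz' := regT_D_sub hz
    obtain ⟨i1, i2⟩ := h z hz'
    rw [nn_eq, nn_eq, ← integral_sub (iK z hz') (iK 1 nn_one_mem), ← Real.norm_eq_abs]
    refine (norm_integral_le_of_norm_le (i1.const_mul (4 / τ * ‖z - 1‖)) ?_).trans ?_
    · filter_upwards [regT_ae_mem, mD.ae_ne z] with y hy hne
      rw [← sub_mul, Real.norm_eq_abs, abs_mul]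
      refine (mul_le_mul (nnK_one h0 h1 hz' hy hne) (hb y hy) (abs_nonneg _)
        (by positivity)).trans (le_of_eq ?_)
      ring
    · rw [integral_const_mul, mul_right_comm]
      exact mul_le_mul_of_nonneg_right (mul_le_mul_of_nonneg_left i2 (by positivity))
        (norm_nonneg _)
  · have hz' := regT_D_sub hz
    have iT : Integrable (tau (fun y => (F y : ℂ)) z) mD := by
      refine (hi.const_mul 2).mono' (regT_tau_meas_right hFc z) ?_
      filter_upwards [regT_ae_mem, mD.ae_ne z] with y hy hne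
      refine (regT_tau_le _ hz' hy hne.symm).trans ?_
      rw [norm_real, Real.norm_eq_abs, mul_comm, ← mul_assoc]
      exact mul_le_mul_of_nonneg_right (hb2 y hy) (by positivity)
    rw [TT, TT, ← integral_sub iT iT1, ← integral_const_mul]
    refine norm_integral_le_of_norm_le (hi.const_mul _) ?_
    filter_upwards [regT_ae_mem, mD.ae_ne z] with y hy hne
    rw [nn_tau, nn_tau, ← sub_mul, norm_mul, norm_real, Real.norm_eq_abs]
    refine (mul_le_mul (nnD_one hz' hy hne) (hb y hy) (abs_nonneg _)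
      (by positivity)).trans (le_of_eq ?_)
    ring
  · have hz' := regT_D_sub hz
    have i1 := iT1.mul_const (z - 1)
    have i2 : Integrable (fun y => (tau (fun y => (F y : ℂ)) 1 y * (z - 1)).re) mD := i1.re
    have i3 : Integrable (fun y => nnK z y * F y - nnK 1 y * F y) mD :=
      (iK z hz').sub (iK 1 nn_one_mem)
    have e : (∫ y, tau (fun y => (F y : ℂ)) 1 y * (z - 1) ∂mD).re =
        ∫ y, (tau (fun y => (F y : ℂ)) 1 y * (z - 1)).re ∂mD :=
      (reCLM.integral_comp_comm i1).symm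
    rw [nn_eq, nn_eq, ← integral_sub (iK z hz') (iK 1 nn_one_mem), TT, ← integral_mul_const, e,
      ← integral_sub i3 i2, ← Real.norm_eq_abs, ← integral_const_mul]
    refine norm_integral_le_of_norm_le (hi.const_mul _) ?_
    filter_upwards [regT_ae_mem, mD.ae_ne z] with y hy hne
    rw [nn_tau, mul_right_comm, re_mul_ofReal, ← sub_mul, ← sub_mul, Real.norm_eq_abs, abs_mul]
    refine (mul_le_mul (nnK_two hz' hy hne) (hb y hy) (abs_nonneg _)
      (by positivity)).trans (le_of_eq ?_)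
    ring

end Vale.Agent.P071
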