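import Vale.Agent.P071L.TTL
import Vale.Agent.P071L.Growth
import Vale.Agent.P071L.Hardy
import Vale.Agent.P071.Transfer

/-!
# Positivity of the first Neumann eigenvalue
-/

open Complex Metric Set Filter Topology MeasureTheory
open scoped ContDiff ComplexConjugate Real

namespace Vale.Agent.P071

variable {Ω : Set ℂ} {p : ℂ} {φ ψ : ℂ → ℂ}

lemma LPair.image (h : LPair Ω p φ ψ) : φ '' D = Ω :=
  h.maps.image_subset.antisymm fun x hx => ⟨ψ x, h.maps' hx, h.right x hx⟩

lemma LPair.injOn (h : LPair Ω p φ ψ) : InjOn φ D := fun z hz w hw e => by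
  rw [← h.left z hz, e, h.left w hw]

lemma LPair.hasFDeriv (h : LPair Ω p φ ψ) : ∀ z ∈ D, HasFDerivWithinAt φ
    ((ContinuousLinearMap.toSpanSingleton ℂ (deriv φ z)).restrictScalars ℝ) D z := fun _ hz =>
  ((h.diff.analyticAt (isOpen_ball.mem_nhds hz)).differentiableAt.hasDerivAt.hasFDerivAt.restrictScalars
    ℝ).hasFDerivWithinAt

theorem LPair.integral_comp (h : LPair Ω p φ ψ) {E : Type*} [NormedAddCommGroup E]
    [NormedSpace ℝ E] (f : ℂ → E) : ∫ x in Ω, f x = ∫ z in D, rho φ z • f (φ z) := by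
  have := integral_image_eq_integral_abs_det_fderiv_smul volume measurableSet_ball
    h.hasFDeriv h.injOn f
  rw [h.image] at this
  simpa only [CPair.det_eq, rho] using this

theorem LPair.integrableOn_comp (h : LPair Ω p φ ψ) {E : Type*} [NormedAddCommGroup E]
    [NormedSpace ℝ E] (f : ℂ → E) :
    IntegrableOn f Ω ↔ IntegrableOn (fun z => rho φ z • f (φ z)) D := by
  have := integrableOn_image_iff_integrableOn_abs_det_fderiv_smul volume measurableSet_ball
    h.hasFDeriv h.injOn f
  rw [h.image] at this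
  simpa only [CPair.det_eq, rho] using this

lemma LPair.finite (h : LPair Ω p φ ψ) : IsFiniteMeasure (volume.restrict Ω) :=
  isFiniteMeasure_restrict.2 h.bounded.measure_lt_top.ne

lemma LPair.memLp_comp (h : LPair Ω p φ ψ) (S : LAn φ) {f : ℂ → ℂ}
    (hf : MemLp f 2 (volume.restrict Ω)) :
    MemLp (fun z => conj (deriv φ z) * f (φ z)) 2 (volume.restrict D) ∧
      ∫ z in D, ‖conj (deriv φ z) * f (φ z)‖ ^ 2 = ∫ x in Ω, ‖f x‖ ^ 2 := by
  have := h.finite
  have e : ∀ z, ‖conj (deriv φ z) * f (φ z)‖ ^ 2 = rho φ z • ‖f (φ z)‖ ^ 2 := fun z => by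
    simp only [norm_mul, norm_conj, mul_pow, smul_eq_mul, rho]
  have h1 := ((h.integrableOn_comp f).1 (hf.integrable (by norm_num))).aestronglyMeasurable
  have h2 : AEStronglyMeasurable (fun z => conj (deriv φ z) * f (φ z)) (volume.restrict D) := by
    refine ((measurable_deriv φ).inv.aestronglyMeasurable.mul h1).congr
      (sl_ae_mem.mono fun z hz => ?_)
    have := S.ne z hz
    simp only [Pi.mul_apply, Pi.inv_apply, real_smul, rho_eq]
    field_simp
  refine ⟨(memLp_two_iff_integrable_sq_norm h2).2 ?_, ?_⟩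
  · simp only [e]
    exact (h.integrableOn_comp fun x => ‖f x‖ ^ 2).1
      ((memLp_two_iff_integrable_sq_norm hf.1).1 hf)
  · simp only [e]
    exact (h.integral_comp fun x => ‖f x‖ ^ 2).symm

/-- The reciprocal of the derivative is square integrable. -/
lemma LAn.memLp_inv (S : LAn φ) : MemLp (fun z => (deriv φ z)⁻¹) 2 (volume.restrict D) := by
  have hd : DifferentiableOn ℂ (fun z => (deriv φ z)⁻¹) D := fun z hz =>
    ((S.analyticAt_deriv hz).differentiableAt.inv (S.ne z hz)).differentiableWithinAt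
  obtain ⟨g, hg⟩ := hd.isExactOn_ball
  have hg' : ∀ z ∈ D, deriv g z = (deriv φ z)⁻¹ := fun z hz => (hg z hz).deriv
  obtain ⟨P, κ, hP, hκ, h⟩ := S.sector
  have hs : Sector g := ⟨fun z => -P z, κ, hP.neg, hκ, fun z hz => by
    have e : exp (-P z) / deriv g z = (exp (P z) / deriv φ z)⁻¹ := by
      rw [hg' z hz, exp_neg, inv_div, div_inv_eq_mul, div_eq_inv_mul]
    rw [e, inv_re, inv_im, abs_div, abs_neg, abs_of_nonneg (normSq_nonneg _), ← mul_div_assoc]
    exact div_le_div_of_nonneg_right (h z hz) (normSq_nonneg _)⟩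
  obtain ⟨δ, h0, -, hi⟩ := hs.lq (fun z hz => (hg z hz).differentiableAt.differentiableWithinAt)
    fun z hz => by rw [hg' z hz]; exact inv_ne_zero (S.ne z hz)
  have hm : AEStronglyMeasurable (fun z => (deriv φ z)⁻¹) (volume.restrict D) :=
    (measurable_deriv φ).inv.aestronglyMeasurable
  refine (memLp_two_iff_integrable_sq_norm hm).2 (((integrable_const (1 : ℝ)).add hi).mono'
    (hm.norm.pow 2) (sl_ae_mem.mono fun z hz => ?_))
  rw [Real.norm_of_nonneg (sq_nonneg _), ← hg' z hz, ← rho]
  have a0 := rho_nonneg g z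
  have a1 : 1 ≤ (1 - ‖z‖) ^ (-(2 * δ)) := Real.one_le_rpow_of_pos_of_le_one_of_nonpos
    (by linarith [sl_norm_lt hz]) (by linarith [norm_nonneg z]) (by linarith)
  have a2 := Real.rpow_nonneg a0 (1 + δ)
  have a3 : rho g z ≤ 1 + rho g z ^ (1 + δ) := by
    rcases le_total (rho g z) 1 with h1 | h1
    · linarith
    · linarith [Real.self_le_rpow_of_one_le h1 (show 1 ≤ 1 + δ by linarith)]
  simp only [Pi.add_apply]
  nlinarith

/-- Extension by zero of a function supported in a compact subset. -/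
lemma poinL_ext {U K : Set ℂ} (hU : IsOpen U) (hK : IsCompact K) (hKU : K ⊆ U) {η : ℂ → ℂ}
    (hη : ∀ z ∈ U, ContDiffAt ℝ ∞ η z) (h0 : ∀ z ∈ U, z ∉ K → η z = 0) :
    ContDiff ℝ ∞ (U.indicator η) ∧ HasCompactSupport (U.indicator η) ∧
      tsupport (U.indicator η) ⊆ U ∧ ∀ z ∈ U, U.indicator η =ᶠ[𝓝 z] η := by
  have hz : ∀ z, z ∉ K → U.indicator η z = 0 := by
    intro z hz
    by_cases hU : z ∈ U
    · rw [indicator_of_mem hU]
      exact h0 z hU hz
    · exact indicator_of_notMem hU _
  have hs : tsupport (U.indicator η) ⊆ K :=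
    closure_minimal (fun z hz' => by_contra fun k => hz' (hz z k)) hK.isClosed
  have he : ∀ z ∈ U, U.indicator η =ᶠ[𝓝 z] η := fun z hz => by
    filter_upwards [hU.mem_nhds hz] with w hw using indicator_of_mem hw _
  refine ⟨contDiff_iff_contDiffAt.2 fun z => ?_, HasCompactSupport.intro hK hz, hs.trans hKU, he⟩
  by_cases hU : z ∈ U
  · exact (hη z hU).congr_of_eventuallyEq (he z hU)
  · refine (contDiffAt_const (c := (0 : ℂ))).congr_of_eventuallyEq ?_
    filter_upwards [hK.isClosed.isOpen_compl.mem_nhds fun k => hU (hKU k)] with w hw using hz w hw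

/-- The weak gradient identity in disc coordinates. -/
lemma poinL_weak (h : LPair Ω p φ ψ) (S : LAn φ) {v : ℂ → ℝ} {g : ℂ → ℂ} (hv : IsH1 Ω v g)
    {W : ℂ → ℂ} (hW : ∀ z ∈ D, ContDiffAt ℝ ∞ W z) {K : Set ℂ} (hK : IsCompact K) (hKD : K ⊆ D)
    (h0 : ∀ z ∈ D, z ∉ K → W z = 0) :
    ∫ z in D, v (φ z) * dB W z = -∫ z in D, conj (deriv φ z) * g (φ z) * W z := by
  have hW' : ∀ z ∈ D, ContDiffAt ℝ ∞ (fun w => W w * (deriv φ w)⁻¹) z := fun z hz =>
    (hW z hz).mul ((S.contDiffAt_deriv hz).inv (S.ne z hz))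
  obtain ⟨e1, e2, e3, e4⟩ := poinL_ext (η := fun x => W (ψ x) * (deriv φ (ψ x))⁻¹) h.isOpen
    (hK.image_of_continuousOn (h.diff.continuousOn.mono hKD))
    (by rintro _ ⟨z, hz, rfl⟩; exact h.maps (hKD hz))
    (fun x hx => (hW' _ (h.maps' hx)).comp x
      (((h.diff'.analyticAt (h.isOpen.mem_nhds hx)).contDiffAt (n := ∞)).restrict_scalars ℝ))
    (fun x hx hk => by
      rw [h0 _ (h.maps' hx) fun k => hk ⟨_, k, h.right x hx⟩, zero_mul])
  have key := hv.complex e1 e2 e3
  rw [h.integral_comp, h.integral_comp] at key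
  set η := Ω.indicator fun x => W (ψ x) * (deriv φ (ψ x))⁻¹ with hη
  have e5 : ∀ z ∈ D, η (φ z) = W z * (deriv φ z)⁻¹ := fun z hz => by
    rw [hη, indicator_of_mem (h.maps hz), h.left z hz]
  refine Eq.trans ?_ (key.trans (congrArg Neg.neg ?_))
  · refine setIntegral_congr_fun measurableSet_ball fun z hz => ?_
    have a1 := dB_comp_holo (e1.differentiable (by simp) (φ z)) (S.analyticAt hz).differentiableAt
    have a2 : (fun w => η (φ w)) =ᶠ[𝓝 z] fun w => W w * (deriv φ w)⁻¹ := by
      filter_upwards [isOpen_ball.mem_nhds hz] with w hw using e5 w hw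
    have a3 : DifferentiableAt ℂ (fun w => (deriv φ w)⁻¹) z :=
      (S.analyticAt_deriv hz).differentiableAt.inv (S.ne z hz)
    rw [dB_congr a2, dB_mul ((hW z hz).differentiableAt (by simp)) (a3.restrictScalars ℝ),
      dB_holo a3, mul_zero, add_zero] at a1
    have := S.ne z hz
    simp only [real_smul, rho_eq]
    rw [show dB W z = deriv φ z * (dB W z * (deriv φ z)⁻¹) by field_simp, a1]
    ring
  · refine setIntegral_congr_fun measurableSet_ball fun z hz => ?_
    have := S.ne z hz
    simp only [real_smul, rho_eq, e5 z hz]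
    field_simp

/-- Radial cut-off functions. -/
noncomputable def poinChi (k : ℝ) (z : ℂ) : ℝ := Real.smoothTransition (k * dl z - 1)

lemma poinChi_contDiff (k : ℝ) : ContDiff ℝ ∞ (poinChi k) :=
  Real.smoothTransition.contDiff.comp ((contDiff_const.mul
    (contDiff_const.sub (contDiff_norm_sq ℝ))).sub contDiff_const)

lemma poinChi_dB (k : ℝ) (z : ℂ) : dB (fun w => (poinChi k w : ℂ)) z =
    -(2 * (k * deriv Real.smoothTransition (k * dl z - 1) : ℝ) * z) := by
  have h1 : HasFDerivAt (fun w : ℂ => k * dl w - 1) _ z :=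
    (((hasStrictFDerivAt_norm_sq z).hasFDerivAt.const_sub 1).const_mul k).sub_const 1
  have h2 := ((Real.smoothTransition.contDiff (n := 1)).differentiable
    (by simp) (k * dl z - 1)).hasDerivAt.comp_hasFDerivAt z h1
  have h3 : fderiv ℝ (poinChi k) z = _ := h2.fderiv
  have h4 : DifferentiableAt ℝ (poinChi k) z := h2.differentiableAt
  rw [dB_ofReal h4, dx, dy, h3]
  apply Complex.ext <;> simp <;> ring

lemma poinL_deriv : ∃ L : ℝ, 0 ≤ L ∧ (∀ t, |deriv Real.smoothTransition t| ≤ L) ∧
    ∀ t, 1 < t → deriv Real.smoothTransition t = 0 := by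
  have h1 : ∀ t, 1 < t → deriv Real.smoothTransition t = 0 := fun t ht => by
    have : Real.smoothTransition =ᶠ[𝓝 t] fun _ => 1 := by
      filter_upwards [lt_mem_nhds ht] with s hs using Real.smoothTransition.one_of_one_le hs.le
    rw [this.deriv_eq, deriv_const]
  have h2 : ∀ t, t < 0 → deriv Real.smoothTransition t = 0 := fun t ht => by
    have : Real.smoothTransition =ᶠ[𝓝 t] fun _ => 0 := by
      filter_upwards [gt_mem_nhds ht] with s hs using Real.smoothTransition.zero_of_nonpos hs.le
    rw [this.deriv_eq, deriv_const]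
  obtain ⟨L, hL⟩ := (isCompact_Icc (a := (0 : ℝ)) (b := 1)).exists_bound_of_continuousOn
    ((Real.smoothTransition.contDiff (n := 1)).continuous_deriv le_rfl).continuousOn
  have hL0 : 0 ≤ L := (norm_nonneg _).trans (hL 0 (by simp))
  refine ⟨L, hL0, fun t => ?_, h1⟩
  by_cases a : t < 0
  · rw [h2 t a, abs_zero]; exact hL0
  by_cases b : 1 < t
  · rw [h1 t b, abs_zero]; exact hL0
  exact hL t ⟨not_lt.1 a, not_lt.1 b⟩

/-- Green's formula for tangential fields. -/
lemma poinL_green (h : LPair Ω p φ ψ) (S : LAn φ) {v : ℂ → ℝ} {g : ℂ → ℂ} (hv : IsH1 Ω v g)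
    {V : ℂ → ℂ} (hV : ∀ z ∈ Db, ContDiffAt ℝ ∞ V z) (h0 : ∀ s ∈ S1, (s * V s).re = 0) :
    ∫ z in D, v (φ z) * (dB V z).re = -∫ z in D, (conj (deriv φ z) * g (φ z) * V z).re := by
  obtain ⟨L, hL0, hL, hL1⟩ := poinL_deriv
  have lG := (h.memLp_comp S hv.2.1).1
  have ia : IntegrableOn (fun z => v (φ z)) D := by
    have i := (integrableOn_mul_of_memLp (memLp_conj S.memLp_inv)
      (h.memLp_comp S hv.1.ofReal).1).re
    refine i.congr (sl_ae_mem.mono fun z hz => ?_)
    have : conj (deriv φ z) ≠ 0 := by simpa using S.ne z hz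
    simp only [map_inv₀, inv_mul_cancel_left₀ this]
    simp
  have bV : BM V := .of_continuousAt fun z hz => (hV z hz).continuousAt
  have bB : BM (dB V) := .of_continuousAt fun z hz =>
    (contDiffAt_dB (m := 0) (hV z hz) (by simp)).continuousAt
  have hf : ∀ z ∈ Db, ContDiffAt ℝ 1 (fun w => (w * V w).re) z := fun z hz =>
    contDiffAt_re' (contDiffAt_id.mul ((hV z hz).of_le (by simp)))
  obtain ⟨M, hM⟩ := (isCompact_closedBall (0 : ℂ) 1).exists_bound_of_continuousOn
    (continuousOn_of_forall_continuousAt fun z hz => (hf z hz).continuousAt_fderiv (by simp))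
  have hM0 : 0 ≤ M := (norm_nonneg _).trans (hM 0 (by simp))
  have hb : ∀ z ∈ D, |(z * V z).re| ≤ M * dl z := fun z hz => by
    obtain ⟨s, hs, hzs⟩ := sl_exists_sphere hz
    have h1 := (convex_closedBall (0 : ℂ) 1).norm_image_sub_le_of_norm_fderiv_le
      (fun x hx => (hf x hx).differentiableAt (by simp)) hM (sphere_subset_closedBall hs)
      (ball_subset_closedBall hz)
    rw [h0 s hs, sub_zero, hzs] at h1
    refine h1.trans (mul_le_mul_of_nonneg_left ?_ hM0)
    have := sl_norm_lt hz
    have := norm_nonneg z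
    rw [dl]; nlinarith
  have cχ : ∀ k, ContDiff ℝ ∞ fun w => (poinChi k w : ℂ) := fun k =>
    ofRealCLM.contDiff.comp (poinChi_contDiff k)
  have χ1 : ∀ k z, |poinChi k z| ≤ 1 := fun k z =>
    (abs_of_nonneg (Real.smoothTransition.nonneg _)).trans_le (Real.smoothTransition.le_one _)
  have bχ : ∀ k, BM (poinChi k) := fun k => .of_continuous (poinChi_contDiff k).continuous
  have ev : ∀ z ∈ D, ∀ᶠ k : ℕ in atTop, 1 < k * dl z - 1 := fun z hz =>
    (tendsto_atTop_add_const_right _ (-1) (tendsto_natCast_atTop_atTop.atTop_mul_const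
      (dl_pos hz))).eventually_gt_atTop 1
  have key : ∀ k : ℕ, ∫ z in D, v (φ z) * (poinChi k z * (dB V z).re -
      2 * (k * deriv Real.smoothTransition (k * dl z - 1)) * (z * V z).re) =
      -∫ z in D, poinChi k z * (conj (deriv φ z) * g (φ z) * V z).re := by
    intro k
    have hW : ∀ z ∈ Db, ContDiffAt ℝ ∞ (fun w => (poinChi k w : ℂ) * V w) z := fun z hz =>
      (cχ k).contDiffAt.mul (hV z hz)
    have e := poinL_weak h S hv (fun z hz => hW z (kern0_D_sub hz))
      (K := Db ∩ {z | 1 ≤ k * dl z}) ((isCompact_closedBall _ _).inter_right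
        (isClosed_le continuous_const (continuous_const.mul kern0_continuous_dl)))
      (fun z hz => by
        refine mem_ball.2 (lt_of_le_of_ne (mem_closedBall.1 hz.1) fun e => ?_)
        have : 1 ≤ k * dl z := hz.2
        rw [dl_eq_zero e] at this
        linarith)
      (fun z hz hk => by
        have : k * dl z - 1 ≤ 0 := by
          by_contra hc
          exact hk ⟨kern0_D_sub hz, show 1 ≤ k * dl z by linarith⟩
        rw [poinChi, Real.smoothTransition.zero_of_nonpos this, ofReal_zero, zero_mul])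
    have i1 : IntegrableOn (fun z => (v (φ z) : ℂ) * dB (fun w => (poinChi k w : ℂ) * V w) z) D := by
      simp only [mul_comm (v (φ _) : ℂ)]
      exact (BM.of_continuousAt fun z hz =>
        (contDiffAt_dB (m := 0) (hW z hz) (by simp)).continuousAt).mul_integrableOn ia.ofReal
    have i2 := integrableOn_mul_of_memLp lG ((bχ k).ofReal.mul bV).memLp
    have e' := congrArg re e
    rw [neg_re, ← rep_integral_re i1, ← rep_integral_re i2] at e'
    refine Eq.trans ?_ (e'.trans (congrArg Neg.neg ?_))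
    · refine setIntegral_congr_fun measurableSet_ball fun z hz => ?_
      rw [dB_mul ((cχ k).differentiable (by simp) z)
        ((hV z (kern0_D_sub hz)).differentiableAt (by simp)), poinChi_dB]
      simp only [re_ofReal_mul, add_re, neg_mul, neg_re, mul_assoc]
      rw [show (2 : ℂ) = (2 : ℝ) by simp, re_ofReal_mul, re_ofReal_mul]
      ring
    · refine integral_congr_ae (Eventually.of_forall fun z => ?_)
      simp only
      rw [← re_ofReal_mul]
      congr 1; ring
  obtain ⟨B, hB0, hB⟩ := bB.bdd'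
  have iG := (integrableOn_mul_of_memLp lG bV.memLp).re
  have t1 := tendsto_integral_of_dominated_convergence (μ := volume.restrict D)
    (F := fun (k : ℕ) z => v (φ z) * (poinChi k z * (dB V z).re -
      2 * (k * deriv Real.smoothTransition (k * dl z - 1)) * (z * V z).re))
    (f := fun z => v (φ z) * (dB V z).re) (fun z => ‖v (φ z)‖ * (B + 4 * L * M))
    (fun k => ia.aestronglyMeasurable.mul (((bχ k).mul bB.re).meas.sub
      ((((measurable_deriv _).comp ((kern0_measurable_dl.const_mul _).sub_const 1)).const_mul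
        _).const_mul 2 |>.aestronglyMeasurable.mul
          ((BM.of_continuous continuous_id).mul bV).re.meas)))
    (ia.norm.mul_const _) (fun k => sl_ae_mem.mono fun z hz => by
      rw [norm_mul]
      refine mul_le_mul_of_nonneg_left ((norm_sub_le _ _).trans (add_le_add ?_ ?_)) (norm_nonneg _)
      · rw [norm_mul, Real.norm_eq_abs, Real.norm_eq_abs]
        exact (mul_le_of_le_one_left (abs_nonneg _) (χ1 _ _)).trans
          ((abs_re_le_norm _).trans (hB z hz))
      · by_cases hk : 1 < k * dl z - 1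
        · rw [hL1 _ hk]; simp; positivity
        · rw [Real.norm_eq_abs, abs_mul, abs_mul, abs_mul, abs_two, Nat.abs_cast]
          have a1 := mul_le_mul (hL (k * dl z - 1)) (hb z hz) (abs_nonneg _) hL0
          have a2 := mul_le_mul_of_nonneg_left a1 (Nat.cast_nonneg (α := ℝ) k)
          have a3 := mul_le_mul_of_nonneg_left (show k * dl z ≤ 2 by linarith)
            (mul_nonneg hL0 hM0)
          nlinarith)
    (sl_ae_mem.mono fun z hz => tendsto_const_nhds.congr' (by
      filter_upwards [ev z hz] with k hk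
      rw [hL1 _ hk, poinChi, Real.smoothTransition.one_of_one_le hk.le]
      ring))
  have t2 := tendsto_integral_of_dominated_convergence (μ := volume.restrict D)
    (F := fun (k : ℕ) z => poinChi k z * (conj (deriv φ z) * g (φ z) * V z).re)
    (f := fun z => (conj (deriv φ z) * g (φ z) * V z).re) _
    (fun k => (bχ k).meas.mul iG.aestronglyMeasurable) iG.norm
    (fun k => Eventually.of_forall fun z => by
      rw [norm_mul]; exact mul_le_of_le_one_left (norm_nonneg _) (χ1 _ _))
    (sl_ae_mem.mono fun z hz => tendsto_const_nhds.congr' (by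
      filter_upwards [ev z hz] with k hk
      rw [poinChi, Real.smoothTransition.one_of_one_le hk.le, one_mul]))
  simp only [key] at t1
  exact tendsto_nhds_unique t1 t2.neg

/-- Testing an `H¹` function against smooth functions of mean zero. -/
lemma poinL_test (h : LPair Ω p φ ψ) (S : LAn φ) : ∃ B : ℝ, 0 ≤ B ∧ ∀ (v : ℂ → ℝ) (g : ℂ → ℂ),
    IsH1 Ω v g → ∀ ζ : ℂ → ℝ, ContDiff ℝ ∞ ζ → HasCompactSupport ζ → tsupport ζ ⊆ Ω →
      ∫ x in Ω, ζ x = 0 → (∫ x in Ω, v x * ζ x) ^ 2 ≤ (∫ x in Ω, ‖g x‖ ^ 2) *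
        (B * ∫ x in Ω, ζ x ^ 2) := by
  obtain ⟨B, hB0, hB⟩ := S.exists_TT_bound
  refine ⟨B, hB0, fun v g hv ζ h1 h2 h3 h4 => ?_⟩
  have hρ : ∀ z ∈ D, ContDiffAt ℝ ∞ (rho φ) z := fun z hz =>
    (S.contDiffAt_deriv hz).norm_sq ℝ
  obtain ⟨e1, e2, e3, e4⟩ := poinL_ext (η := fun z => ((rho φ z * ζ (φ z) : ℝ) : ℂ)) isOpen_ball
    (h2.isCompact.image_of_continuousOn (h.diff'.continuousOn.mono h3))
    (by rintro _ ⟨x, hx, rfl⟩; exact h.maps' (h3 hx))
    (fun z hz => contDiffAt_ofReal' ((hρ z hz).mul (h1.contDiffAt.comp z (S.contDiffAt hz))))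
    (fun z hz hk => by
      rw [image_eq_zero_of_notMem_tsupport fun k => hk ⟨φ z, k, h.left z hz⟩]; simp)
  set F := D.indicator fun z => ((rho φ z * ζ (φ z) : ℝ) : ℂ) with hF
  have e5 : ∀ z ∈ D, F z = ((rho φ z * ζ (φ z) : ℝ) : ℂ) := fun z hz => indicator_of_mem hz _
  have bF : BM F := .of_continuous e1.continuous
  obtain ⟨M, hM⟩ := bF.bdd
  have hmean : ∫ z in D, (F z).re = 0 := by
    rw [← h4, h.integral_comp]
    exact setIntegral_congr_fun measurableSet_ball fun z hz => by simp only [e5 z hz]; simp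
  have key := poinL_green h S hv (fun z hz => (TT_smooth e1 e3 hz).1)
    fun s hs => TT_tang bF.meas hM hmean hs
  have lζ : MemLp ζ 2 (volume.restrict Ω) := h1.continuous.memLp_of_hasCompactSupport h2
  obtain ⟨l1, l2⟩ := h.memLp_comp S (f := fun x => (ζ x : ℂ)) lζ.ofReal
  obtain ⟨l3, l4⟩ := h.memLp_comp S hv.2.1
  obtain ⟨l5, l6⟩ := hB _ l1
  rw [TT_congr (F' := F) (sl_ae_mem.mono fun z hz => by
    simp only [e5 z hz]; push_cast; rw [rho_eq]; ring)] at l5 l6
  have e6 : ∫ x in Ω, v x * ζ x = ∫ z in D, v (φ z) * (dB (TT F) z).re := by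
    rw [h.integral_comp]
    exact setIntegral_congr_fun measurableSet_ball fun z hz => by
      simp only [(TT_smooth e1 e3 (kern0_D_sub hz)).2, e5 z hz, ofReal_re, smul_eq_mul]; ring
  have e7 := rep_re_sq_le l3 (memLp_conj l5)
  simp only [conj_conj, norm_conj, norm_real, Real.norm_eq_abs, sq_abs] at e7 l2
  rw [e6, key, neg_sq, ← l4, ← l2]
  exact e7.trans (mul_le_mul_of_nonneg_left l6 (integral_nonneg fun _ => sq_nonneg _))

theorem mu1_posL (h : LPair Ω p φ ψ) (S : LAn φ) : 0 < mu1 Ω := by
  have := h.finite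
  obtain ⟨B, hB0, hB⟩ := poinL_test h S
  have hp : p ∈ Ω := h.zero ▸ h.maps (mem_ball_self one_pos)
  obtain ⟨ε, hε, hεΩ⟩ := Metric.isOpen_iff.1 h.isOpen p hp
  let β : ContDiffBump p := ⟨ε / 4, ε / 2, by positivity, by linarith⟩
  have b1 : ContDiff ℝ ∞ (β.normed volume) := β.contDiff_normed
  have b2 : HasCompactSupport (β.normed volume) := β.hasCompactSupport_normed
  have b3 : tsupport (β.normed volume) ⊆ Ω := by
    rw [β.tsupport_normed_eq]
    exact (closedBall_subset_ball (half_lt_self hε)).trans hεΩ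
  have b4 : ∫ x in Ω, β.normed volume x = 1 := by
    rw [setIntegral_eq_integral_of_forall_compl_eq_zero fun x hx =>
      image_eq_zero_of_notMem_tsupport fun k => hx (b3 k), β.integral_normed]
  set b := β.normed volume with hb
  have lb : MemLp b 2 (volume.restrict Ω) := b1.continuous.memLp_of_hasCompactSupport b2
  set A := ∫ _ in Ω, (1 : ℝ) ^ 2 with hA
  set N := ∫ x in Ω, b x ^ 2 with hN
  have A0 : 0 ≤ A := integral_nonneg fun _ => sq_nonneg _
  have N0 : 0 ≤ N := integral_nonneg fun _ => sq_nonneg _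
  refine lt_of_lt_of_le (show 0 < 1 / (B * (2 + 2 * A * N) + 1) by positivity) (le_csInf ?_ ?_)
  · obtain ⟨R, hR⟩ := h.bounded.exists_norm_le
    have l1 : MemLp (fun z : ℂ => z.re) 2 (volume.restrict Ω) :=
      MemLp.of_bound continuous_re.aestronglyMeasurable R
        (ae_restrict_of_forall_mem h.isOpen.measurableSet fun z hz =>
          (abs_re_le_norm z).trans (hR z hz))
    have hV : 0 < (volume.restrict Ω).real univ := by
      rw [measureReal_restrict_apply_univ]
      exact ENNReal.toReal_pos (h.isOpen.measure_pos _ ⟨p, hp⟩).ne' h.bounded.measure_lt_top.ne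
    set m : ℝ := (∫ z in Ω, z.re) / (volume.restrict Ω).real univ with hm
    have hc : ContDiff ℝ 1 fun z : ℂ => z.re - m := reCLM.contDiff.sub contDiff_const
    have l2 : MemLp (fun z : ℂ => z.re - m) 2 (volume.restrict Ω) := l1.sub (memLp_const m)
    have e : (dB fun w : ℂ => ((w.re - m : ℝ) : ℂ)) = fun _ => 1 := funext fun z => by
      rw [dB_ofReal (hc.differentiable (by simp) z), dx, dy, fderiv_sub_const,
        show re = reCLM from rfl, reCLM.fderiv]
      simp
    refine ⟨_, _, _, isH1_of_contDiffOn h.isOpen hc.contDiffOn l2 (e ▸ memLp_const 1), ?_, ?_, rfl⟩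
    · rw [integral_sub (l1.integrable (by norm_num)) (integrable_const m), integral_const,
        smul_eq_mul, hm, mul_div_cancel₀ _ hV.ne', sub_self]
    · intro h0
      rw [integral_eq_zero_iff_of_nonneg (fun _ => sq_nonneg _) l2.integrable_sq] at h0
      have h1 := Measure.eqOn_open_of_ae_eq h0 h.isOpen (hc.continuous.pow 2).continuousOn
        continuousOn_const
      have h2 := h1 hp
      have h3 := h1 (hεΩ (show p + (ε / 2 : ℝ) ∈ ball p ε by
        rw [mem_ball_iff_norm, add_sub_cancel_left, norm_real, Real.norm_of_nonneg (by positivity)]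
        linarith))
      simp only [Pi.zero_apply, pow_eq_zero_iff two_ne_zero, add_re, ofReal_re] at h2 h3
      linarith
  · rintro t ⟨v, g, h1, h2, h3, rfl⟩
    have hpos : 0 < ∫ x in Ω, v x ^ 2 :=
      lt_of_le_of_ne (integral_nonneg fun _ => sq_nonneg _) h3.symm
    set E := ∫ x in Ω, ‖g x‖ ^ 2 with hE
    have E0 : 0 ≤ E := integral_nonneg fun _ => sq_nonneg _
    set c := ∫ x in Ω, v x * b x with hc
    have l0 : MemLp (fun x => v x - c) 2 (volume.restrict Ω) := h1.1.sub (memLp_const c)
    have key := poin_dual h.isOpen l0 (Real.sqrt_nonneg (E * (B * (2 + 2 * A * N))))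
      fun ζ z1 z2 z3 => by
        have lζ : MemLp ζ 2 (volume.restrict Ω) := z1.continuous.memLp_of_hasCompactSupport z2
        have iζ := lζ.integrable (by norm_num)
        set s := ∫ x in Ω, ζ x with hs
        have a1 := hB v g h1 (fun x => ζ x - s * b x) (z1.sub (contDiff_const.mul b1))
          (z2.sub b2.mul_left) ((tsupport_sub _ _).trans (union_subset z3
            (tsupport_mul_subset_right.trans b3)))
          (by rw [integral_sub iζ ((lb.integrable (by norm_num)).const_mul s), integral_const_mul,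
            b4, mul_one, sub_self])
        have a2 : ∫ x in Ω, v x * (ζ x - s * b x) = ∫ x in Ω, (v x - c) * ζ x := by
          simp only [mul_sub, sub_mul, mul_left_comm (v _) s]
          rw [integral_sub (poin_mul h1.1 lζ) ((poin_mul h1.1 lb).const_mul s),
            integral_sub (poin_mul h1.1 lζ) (iζ.const_mul c), integral_const_mul,
            integral_const_mul, mul_comm]
        have a3 : s ^ 2 ≤ A * ∫ x in Ω, ζ x ^ 2 := by
          simpa only [one_mul] using rep_cs_L2 (memLp_const (1 : ℝ)) lζ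
        have a4 : ∫ x in Ω, (ζ x - s * b x) ^ 2 ≤ 2 * (∫ x in Ω, ζ x ^ 2) + 2 * s ^ 2 * N := by
          have i1 := lζ.integrable_sq.const_mul 2
          have i2 := lb.integrable_sq.const_mul (2 * s ^ 2)
          rw [← integral_const_mul, ← integral_const_mul, ← integral_add i1 i2]
          exact integral_mono (lζ.sub (lb.const_mul s)).integrable_sq (i1.add i2) fun x => by
            nlinarith [sq_nonneg (ζ x + s * b x)]
        rw [← Real.sqrt_mul (by positivity), ← a2]
        refine Real.abs_le_sqrt (a1.trans ?_)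
        rw [mul_assoc, mul_assoc]
        refine mul_le_mul_of_nonneg_left (mul_le_mul_of_nonneg_left (a4.trans ?_) hB0) E0
        nlinarith [mul_le_mul_of_nonneg_right a3 N0]
    rw [Real.sq_sqrt (by positivity)] at key
    have k2 : ∫ x in Ω, v x ^ 2 ≤ ∫ x in Ω, (v x - c) ^ 2 := by
      have i1 := (h1.1.integrable (by norm_num)).const_mul (2 * c)
      have := integral_sub h1.1.integrable_sq i1
      rw [integral_const_mul, h2, mul_zero, sub_zero] at this
      rw [← this]
      exact integral_mono (h1.1.integrable_sq.sub i1) l0.integrable_sq fun x => by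
        nlinarith [sq_nonneg c]
    rw [div_le_div_iff₀ (by positivity) hpos]
    nlinarith

end Vale.Agent.P071
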