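import Vale.Agent.P071L.Setup
import Vale.Agent.P071.SetupLemmas

/-!
# The Cauchy-Pompeiu formula
-/

open Complex Metric Set Filter Topology MeasureTheory
open scoped ContDiff ComplexConjugate Real Convolution

namespace Vale.Agent.P071

lemma pomp_chi_le (a : ℂ) {ε : ℝ} (hε : 0 < ε) : ‖((‖a‖ ^ 2 / (‖a‖ ^ 2 + ε) : ℝ) : ℂ)‖ ≤ 1 := by
  rw [norm_real, Real.norm_of_nonneg (by positivity)]
  exact div_le_one_of_le₀ (by linarith) (by positivity)

lemma pomp_lim {α : Type*} [MeasurableSpace α] {m : Measure α} {a H : α → ℂ} (ha : Measurable a)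
    (h : Integrable (fun x => H x / a x) m) :
    Tendsto (fun ε : ℝ => ∫ x, ((‖a x‖ ^ 2 / (‖a x‖ ^ 2 + ε) : ℝ) : ℂ) * (H x / a x) ∂m) (𝓝[>] 0)
      (𝓝 (∫ x, H x / a x ∂m)) := by
  refine tendsto_integral_filter_of_dominated_convergence (fun x => ‖H x / a x‖)
    (Eventually.of_forall fun ε => (by fun_prop : Measurable fun x =>
      ((‖a x‖ ^ 2 / (‖a x‖ ^ 2 + ε) : ℝ) : ℂ)).aestronglyMeasurable.mul h.1) ?_ h.norm
    (Eventually.of_forall fun x => ?_)
  · filter_upwards [self_mem_nhdsWithin] with ε hε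
    refine Eventually.of_forall fun x => ?_
    rw [norm_mul]
    exact mul_le_of_le_one_left (norm_nonneg _) (pomp_chi_le _ hε)
  · by_cases h0 : a x = 0
    · simp [h0]
    · have hd : ‖a x‖ ^ 2 ≠ 0 := pow_ne_zero 2 (norm_ne_zero_iff.2 h0)
      have : ContinuousAt
          (fun ε : ℝ => ((‖a x‖ ^ 2 / (‖a x‖ ^ 2 + ε) : ℝ) : ℂ) * (H x / a x)) 0 :=
        (continuous_ofReal.continuousAt.comp
          (continuousAt_const.div (by fun_prop) (by simpa using hd))).mul continuousAt_const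
      have h2 := this.tendsto.mono_left (nhdsWithin_le_nhds (s := Ioi 0))
      rwa [add_zero, div_self hd, ofReal_one, one_mul] at h2

lemma pomp_ker (y z : ℂ) {ε : ℝ} (hε : 0 < ε) (c : ℂ) :
    c * (conj (z - y) * (regN y ε z)⁻¹) =
      ((‖z - y‖ ^ 2 / (‖z - y‖ ^ 2 + ε) : ℝ) : ℂ) * (c / (z - y)) := by
  by_cases h : z - y = 0
  · simp [h]
  · have h0 := regN_ne y hε z
    have e : ((‖z - y‖ ^ 2 / (‖z - y‖ ^ 2 + ε) : ℝ) : ℂ) =
        (z - y) * conj (z - y) / regN y ε z := by
      rw [regN_eq, mul_conj, normSq_eq_norm_sq]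
      push_cast
      rfl
    rw [e]
    field_simp

lemma pomp_ker_contDiffAt (y z : ℂ) {ε : ℝ} (hε : 0 < ε) :
    ContDiffAt ℝ 1 (fun w => conj (w - y) * (regN y ε w)⁻¹) z :=
  (contDiffAt_conj' (contDiffAt_id.sub contDiffAt_const)).mul
    ((regN_contDiffAt y ε z).inv (regN_ne y hε z))

lemma pomp_ker_dB (y z : ℂ) {ε : ℝ} (hε : 0 < ε) :
    dB (fun w => conj (w - y) * (regN y ε w)⁻¹) z =
      ((ε / (π * (‖z - y‖ ^ 2 + ε) ^ 2) : ℝ) : ℂ) * (2 * π) := by
  have h0 := regN_ne y hε z
  have hN := (regN_contDiffAt y ε z).differentiableAt one_ne_zero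
  have h1 : DifferentiableAt ℝ (fun w => (regN y ε w)⁻¹) z := hN.fun_inv h0
  have h2 : DifferentiableAt ℝ (fun w : ℂ => conj (w - y)) z :=
    differentiableAt_conj' (by fun_prop)
  have e' : ((ε / (π * (‖z - y‖ ^ 2 + ε) ^ 2) : ℝ) : ℂ) = ε / (π * regN y ε z ^ 2) := by
    rw [regN_eq]
    push_cast
    rfl
  have hπ : (π : ℂ) ≠ 0 := ofReal_ne_zero.2 Real.pi_ne_zero
  have e3 : (ε : ℂ) = regN y ε z - (z - y) * conj (z - y) := by rw [regN]; ring
  rw [dB_mul h2 h1, regT_dB_inv hN h0, regN_dB, regT_dB_conj_sub, e']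
  generalize regN y ε z = N at h0 e3
  rw [e3]
  field_simp
  ring

/-- Cauchy-Pompeiu formula. -/
theorem pompeiu {W : ℂ → ℂ} (hc : ContinuousOn W Db) (hW : ContDiffOn ℝ 1 W D) (hb : BM (dB W))
    {y : ℂ} (hy : y ∈ D) :
    2 * π * W y = (∫ s, W (ec s) * ec s / (ec s - y) ∂mc) - ∫ z in D, dB W z / (z - y) := by
  obtain ⟨I₀, -, hI⟩ := regT_sing
  obtain ⟨M, hM⟩ := hb.bdd
  have hWa : ∀ z ∈ D, ContDiffAt ℝ 1 W z := fun z hz => hW.contDiffAt (isOpen_ball.mem_nhds hz)
  have hFi : IntegrableOn (fun z => 2 * π * W z) D :=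
    ((BM.of_closedBall hc).const_mul _).integrableOn
  have hHi : Integrable (fun z => dB W z / (z - y)) mD := by
    refine ((hI y (regT_D_sub hy)).2.1.const_mul M).mono'
      (hb.meas.aemeasurable.div (by fun_prop)).aestronglyMeasurable
      (regT_ae_mem.mono fun z hz => ?_)
    rw [norm_div, div_eq_mul_inv]
    exact mul_le_mul_of_nonneg_right (hM z hz) (by positivity)
  have hWe : Continuous fun s => W (ec s) :=
    hc.comp_continuous (continuous_circleMap 0 1) (circleMap_mem_closedBall 0 zero_le_one)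
  have hCi : Integrable (fun s => W (ec s) * ec s / (ec s - y)) mc := by
    refine Continuous.integrableOn_Ioc ((hWe.mul (continuous_circleMap 0 1)).div
      ((continuous_circleMap 0 1).sub continuous_const) fun s h => ?_)
    have h1 := regT_norm_lt hy
    rw [← sub_eq_zero.1 h, norm_circleMap_zero, abs_one] at h1
    exact lt_irrefl _ h1
  have l1 := tendsto_peak hy hFi ((hWa y hy).continuousAt.const_mul _)
  have l2 := pomp_lim (a := fun z => z - y) (by fun_prop) hHi
  have l3 := pomp_lim (a := fun s => ec s - y)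
    ((continuous_circleMap 0 1).sub continuous_const).measurable hCi
  rw [eq_sub_iff_add_eq]
  refine tendsto_nhds_unique (l1.add l2) (l3.congr' ?_)
  filter_upwards [self_mem_nhdsWithin] with ε hε
  have hε' : 0 < ε := hε
  have i1 : Integrable (fun z => (ε / (π * (‖z - y‖ ^ 2 + ε) ^ 2)) • (2 * π * W z)) mD := by
    refine hFi.bdd_smul (ε / (π * ε ^ 2)) (by fun_prop : Measurable fun z : ℂ =>
      ε / (π * (‖z - y‖ ^ 2 + ε) ^ 2)).aestronglyMeasurable (Eventually.of_forall fun z => ?_)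
    rw [Real.norm_of_nonneg (by positivity)]
    gcongr
    exact le_add_of_nonneg_left (by positivity)
  have i2 : Integrable
      (fun z => ((‖z - y‖ ^ 2 / (‖z - y‖ ^ 2 + ε) : ℝ) : ℂ) * (dB W z / (z - y))) mD :=
    hHi.bdd_mul (by fun_prop : Measurable _).aestronglyMeasurable
      (Eventually.of_forall fun z => pomp_chi_le _ hε')
  have hae : (dB fun w => W w * (conj (w - y) * (regN y ε w)⁻¹)) =ᵐ[mD] fun z =>
      (ε / (π * (‖z - y‖ ^ 2 + ε) ^ 2)) • (2 * π * W z) +
        ((‖z - y‖ ^ 2 / (‖z - y‖ ^ 2 + ε) : ℝ) : ℂ) * (dB W z / (z - y)) := by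
    filter_upwards [regT_ae_mem] with z hz
    rw [dB_mul ((hWa z hz).differentiableAt one_ne_zero)
      ((pomp_ker_contDiffAt y z hε').differentiableAt one_ne_zero), pomp_ker_dB y z hε',
      pomp_ker y z hε', real_smul]
    ring
  rw [← integral_add i1 i2, ← integral_congr_ae hae, green_dB_closed
    (W := fun w => W w * (conj (w - y) * (regN y ε w)⁻¹))
    (hc.mul fun z _ => (pomp_ker_contDiffAt y z hε').continuousAt.continuousWithinAt)
    (hW.mul fun z _ => (pomp_ker_contDiffAt y z hε').contDiffWithinAt)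
    ((i1.add i2).congr hae.symm), intervalIntegral.integral_of_le (by linarith [Real.pi_pos])]
  refine integral_congr_ae (Eventually.of_forall fun s => ?_)
  simp only
  rw [← pomp_ker y (ec s) hε']
  ring

lemma pomp_locInt : LocallyIntegrable (fun t : ℂ => t⁻¹) volume :=
  locallyIntegrable_of_norm_le_rpow (C := 1) (α := 1) (by simp) (by simp)
    (Eventually.of_forall fun t => by rw [norm_inv, one_mul, Real.rpow_neg_one])
    measurable_inv.aestronglyMeasurable

/-- The Cauchy transform. -/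
noncomputable def pompA (ζ : ℂ → ℂ) : ℂ → ℂ :=
  (fun t : ℂ => t⁻¹) ⋆[ContinuousLinearMap.mul ℝ ℂ, volume] ζ

lemma pompA_eq {ζ : ℂ → ℂ} (h0 : ∀ y, y ∉ D → ζ y = 0) (w : ℂ) :
    pompA ζ w = ∫ y in D, ζ y / (w - y) := by
  rw [pompA, convolution_eq_swap, setIntegral_eq_integral_of_forall_compl_eq_zero
    fun y hy => by rw [h0 y hy, zero_div]]
  refine integral_congr_ae (Eventually.of_forall fun y => ?_)
  simp [div_eq_inv_mul]

lemma pompA_int {ζ : ℂ → ℂ} (hc : Continuous ζ) (hk : HasCompactSupport ζ) (w : ℂ) :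
    IntegrableOn (fun y => ζ y / (w - y)) D := by
  have h := (hk.convolutionExists_right (ContinuousLinearMap.mul ℝ ℂ) pomp_locInt hc
    w).integrable_swap
  refine Integrable.integrableOn (h.congr (Eventually.of_forall fun y => ?_))
  simp [div_eq_inv_mul]

lemma pompA_fderiv {ζ : ℂ → ℂ} (hζ : ContDiff ℝ 1 ζ) (hk : HasCompactSupport ζ) (w v : ℂ) :
    fderiv ℝ (pompA ζ) w v = pompA (fun y => fderiv ℝ ζ y v) w := by
  rw [pompA, (hk.hasFDerivAt_convolution_right _ pomp_locInt hζ w).fderiv,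
    convolution_precompR_apply _ pomp_locInt (hk.fderiv ℝ) (hζ.continuous_fderiv one_ne_zero)]
  rfl

lemma pompA_dB {ζ : ℂ → ℂ} (hζ : ContDiff ℝ ∞ ζ) (hk : HasCompactSupport ζ) (hs : tsupport ζ ⊆ D)
    {z : ℂ} (hz : z ∈ Db) : dB (pompA ζ) z = 2 * π * ζ z := by
  have hζ1 : ContDiff ℝ 1 ζ := hζ.of_le (by norm_cast)
  have hA : ContDiff ℝ ∞ (pompA ζ) := hk.contDiff_convolution_right _ pomp_locInt hζ
  have hf : ∀ v y, y ∉ D → fderiv ℝ ζ y v = 0 := fun v y hy => by
    rw [fderiv_of_notMem_tsupport ℝ fun h => hy (hs h)]; rfl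
  have hi : ∀ v w, IntegrableOn (fun y => fderiv ℝ ζ y v / (w - y)) D := fun v w =>
    pompA_int ((hζ1.continuous_fderiv one_ne_zero).clm_apply continuous_const)
      (hk.fderiv_apply ℝ v) w
  have h1 : EqOn (dB (pompA ζ)) (fun z => 2 * π * ζ z) D := by
    intro w hw
    have h2 := pompeiu hζ.continuous.continuousOn hζ1.contDiffOn (BM.dB_of_contDiff hζ1) hw
    have h3 : ∀ s, ζ (ec s) = 0 := fun s => image_eq_zero_of_notMem_tsupport fun h => by
      have := regT_norm_lt (hs h)
      rw [norm_circleMap_zero, abs_one] at this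
      exact lt_irrefl _ this
    simp only [h3, zero_mul, zero_div, integral_zero, zero_sub] at h2
    simp only
    rw [h2, dB, dx, dy, pompA_fderiv hζ1 hk, pompA_fderiv hζ1 hk, pompA_eq (hf 1), pompA_eq (hf I),
      ← integral_const_mul, ← integral_add (hi 1 w) ((hi I w).const_mul I), ← integral_neg]
    refine integral_congr_ae (Eventually.of_forall fun y => ?_)
    simp only [dB, dx, dy]
    rw [← neg_sub w y, div_neg]
    ring
  refine h1.closure (continuous_iff_continuousAt.2 fun w =>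
    (contDiffAt_dB (m := 0) hA.contDiffAt (by norm_cast)).continuousAt)
    (continuous_const.mul hζ.continuous) ?_
  rwa [closure_ball _ one_ne_zero]

lemma pompB {g : ℂ → ℂ} (hg : Continuous g) {r R : ℝ} (hrR : R * r < 1)
    (h0 : ∀ y, y ∉ ball (0 : ℂ) r → g y = 0) :
    (∀ w ∈ ball (0 : ℂ) R, IntegrableOn (fun y => g y / (1 - w * conj y)) D) ∧
      DifferentiableOn ℂ (fun w => ∫ y in D, g y / (1 - w * conj y)) (ball 0 R) := by
  obtain ⟨M, hM0, hM⟩ := (BM.of_continuous hg).bdd'
  have hm : 0 < 1 - R * r := by linarith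
  have hden : ∀ w ∈ ball (0 : ℂ) R, ∀ y ∈ ball (0 : ℂ) r, 1 - R * r ≤ ‖1 - w * conj y‖ := by
    intro w hw y hy
    rw [mem_ball_zero_iff] at hw hy
    have h1 := norm_sub_norm_le (1 : ℂ) (w * conj y)
    rw [norm_one, norm_mul, Complex.norm_conj] at h1
    have := mul_le_mul hw.le hy.le (norm_nonneg _) ((norm_nonneg _).trans hw.le)
    linarith
  have hmeas : ∀ w : ℂ, AEStronglyMeasurable (fun y => g y / (1 - w * conj y)) mD := fun w =>
    (hg.measurable.div (measurable_const.sub
      (measurable_const.mul regT_meas_conj))).aestronglyMeasurable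
  have hint : ∀ w ∈ ball (0 : ℂ) R, IntegrableOn (fun y => g y / (1 - w * conj y)) D := by
    intro w hw
    refine (integrable_const (M / (1 - R * r))).mono' (hmeas w) (regT_ae_mem.mono fun y hy => ?_)
    by_cases hyr : y ∈ ball (0 : ℂ) r
    · rw [norm_div]
      exact div_le_div₀ hM0 (hM y hy) hm (hden w hw y hyr)
    · rw [h0 y hyr, zero_div, norm_zero]
      positivity
  refine ⟨hint, fun w hw => DifferentiableAt.differentiableWithinAt ?_⟩
  refine (hasDerivAt_integral_of_dominated_loc_of_deriv_le (μ := mD)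
    (F := fun w y => g y / (1 - w * conj y))
    (F' := fun w y => g y * conj y / (1 - w * conj y) ^ 2)
    (bound := fun _ => M / (1 - R * r) ^ 2) (isOpen_ball.mem_nhds hw)
    (Eventually.of_forall hmeas) (hint w hw) ?_ ?_ (integrable_const _) ?_).2.differentiableAt
  · exact ((hg.measurable.mul regT_meas_conj).div ((measurable_const.sub
      (measurable_const.mul regT_meas_conj)).pow_const 2)).aestronglyMeasurable
  · filter_upwards [regT_ae_mem] with y hy x hx
    by_cases hyr : y ∈ ball (0 : ℂ) r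
    · rw [norm_div, norm_mul, norm_pow, Complex.norm_conj]
      exact div_le_div₀ hM0 ((mul_le_of_le_one_right (norm_nonneg _)
        (regT_norm_lt hy).le).trans (hM y hy)) (by positivity)
        (pow_le_pow_left₀ hm.le (hden x hx y hyr) 2)
    · rw [h0 y hyr, zero_mul, zero_div, norm_zero]
      positivity
  · refine Eventually.of_forall fun y x hx => ?_
    by_cases hyr : y ∈ ball (0 : ℂ) r
    · have hne : 1 - x * conj y ≠ 0 := norm_pos_iff.1 (hm.trans_le (hden x hx y hyr))
      refine ((hasDerivAt_const x (g y)).fun_div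
        (((hasDerivAt_id x).mul_const (conj y)).const_sub 1) hne).congr_deriv ?_
      simp
    · simp only [h0 y hyr, zero_mul, zero_div]
      exact hasDerivAt_const x 0

/-- The solution operator on smooth compactly supported data. -/
theorem TT_smooth {ζ : ℂ → ℂ} (hζ : ContDiff ℝ ∞ ζ) (hs : tsupport ζ ⊆ D) {z : ℂ} (hz : z ∈ Db) :
    ContDiffAt ℝ ∞ (TT ζ) z ∧ dB (TT ζ) z = ζ z := by
  have hk : HasCompactSupport ζ :=
    (isCompact_closedBall (0 : ℂ) 1).of_isClosed_subset (isClosed_tsupport ζ)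
      (hs.trans ball_subset_closedBall)
  obtain ⟨r₀, hr₀, hsub⟩ := exists_lt_subset_ball (isClosed_tsupport ζ) hs
  set r := max r₀ (1 / 2) with hr
  have hr0 : 0 < r := lt_max_of_lt_right (by norm_num)
  have hr1 : r < 1 := max_lt hr₀ (by norm_num)
  set R := (1 + 1 / r) / 2 with hR
  have hRr : R * r < 1 := by
    rw [hR, div_mul_eq_mul_div, add_mul, one_div_mul_cancel hr0.ne']
    linarith
  have hR1 : 1 < R := by
    have := one_lt_one_div hr0 hr1
    rw [hR]; linarith
  have hzR : ball (0 : ℂ) R ∈ 𝓝 z :=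
    isOpen_ball.mem_nhds (closedBall_subset_ball hR1 hz)
  obtain ⟨b1, b2⟩ := pompB (g := fun y => conj y * conj (ζ y))
    (continuous_conj.mul (continuous_conj.comp hζ.continuous)) hRr fun y hy => by
      rw [image_eq_zero_of_notMem_tsupport fun h =>
        hy (ball_subset_ball (le_max_left _ _) (hsub h))]
      simp
  have hA : ContDiff ℝ ∞ (pompA ζ) := hk.contDiff_convolution_right _ pomp_locInt hζ
  have hB := b2.analyticAt hzR
  have hBc : ContDiffAt ℝ ∞ (fun w => ∫ y in D, conj y * conj (ζ y) / (1 - w * conj y)) z :=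
    hB.contDiffAt.restrict_scalars ℝ
  have e : TT ζ =ᶠ[𝓝 z] fun w => (2 * π : ℂ)⁻¹ *
      (pompA ζ w - ∫ y in D, conj y * conj (ζ y) / (1 - w * conj y)) := by
    filter_upwards [hzR] with w hw
    rw [pompA_eq fun y hy => image_eq_zero_of_notMem_tsupport fun h => hy (hs h),
      ← integral_sub (pompA_int hζ.continuous hk w) (b1 w hw), ← integral_const_mul, TT]
    refine integral_congr_ae (Eventually.of_forall fun y => ?_)
    simp only [tau]
    rw [div_eq_inv_mul]
  have hAd : DifferentiableAt ℝ (pompA ζ) z := hA.differentiable (by simp) z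
  have hBd := hBc.differentiableAt (by simp)
  refine ⟨(contDiffAt_const.mul (hA.contDiffAt.sub hBc)).congr_of_eventuallyEq e, ?_⟩
  have hπ : (π : ℂ) ≠ 0 := ofReal_ne_zero.2 Real.pi_ne_zero
  rw [dB_congr e, dB_const_mul _ (hAd.fun_sub hBd), dB_sub hAd hBd, dB_holo hB.differentiableAt,
    pompA_dB hζ hk hs hz]
  field_simp
  ring

end Vale.Agent.P071
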