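import Vale.Agent.P071L.NN
import Vale.Agent.P071.Reg
import Vale.Agent.P071.Weyl

/-!
# Zero modes come from bounded potentials
-/

open Complex Metric Set Filter Topology MeasureTheory
open scoped ContDiff ComplexConjugate Real

namespace Vale.Agent.P071

variable {φ : ℂ → ℂ} {μ θ : ℝ}

lemma rl_im_zero (S : LAn φ) (hθ : θ < 1) (hG : Ground φ μ θ) {v Φ : ℂ → ℂ}
    (h : ZeroMode φ μ v Φ) : ∀ᵐ z ∂mD, (deriv φ z * Φ z).im = 0 := by
  have h1 := h.zero v Φ h.adm
  have h2 := hG.of_adm h.adm
  obtain ⟨-, i2, i3⟩ := S.norm_sq_eq h.adm.l2F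
  rw [sl_EB_self, ← i3] at h1
  have n2 : ∀ z ∈ D, 0 ≤ (deriv φ z * Φ z).im ^ 2 / rho φ z := fun z hz =>
    div_nonneg (sq_nonneg _) (S.rho_pos hz).le
  have h3 : 0 ≤ ∫ z in D, (deriv φ z * Φ z).im ^ 2 / rho φ z :=
    integral_nonneg_of_ae (regT_ae_mem.mono n2)
  have h4 : ∫ z in D, (deriv φ z * Φ z).im ^ 2 / rho φ z = 0 := by nlinarith
  rw [integral_eq_zero_iff_of_nonneg_ae (regT_ae_mem.mono n2) i2] at h4
  filter_upwards [h4, regT_ae_mem] with z k1 hz
  have k2 : (deriv φ z * Φ z).im ^ 2 / rho φ z = 0 := k1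
  rw [div_eq_zero_iff] at k2
  exact pow_eq_zero_iff two_ne_zero |>.1 (k2.resolve_right (S.rho_pos hz).ne')

lemma rl_eq_TT (S : LAn φ) (hμ : 0 < μ) (hG : Ground φ μ θ) {v Φ : ℂ → ℂ} (h : Adm φ v Φ) :
    ∀ᵐ z ∂mD, v z = TT (fun w => deriv φ w * Φ w) z := by
  have h1 := h.addL S ((S.adm_TT h.l2F (reg_mean h)).smul (-1))
  have h2 := hG.of_adm h1
  have e : ∀ z, deriv φ z * (Φ z + ((-1 : ℝ) : ℂ) * Φ z) = 0 := by
    intro z
    push_cast
    ring
  simp only [e, zero_re, zero_im, ne_eq, OfNat.ofNat_ne_zero, not_false_eq_true, zero_pow,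
    zero_div, integral_zero, mul_zero, add_zero] at h2
  have h3 := le_antisymm (nonpos_of_mul_nonpos_right h2 hμ)
    (integral_nonneg fun z => sq_nonneg _)
  rw [integral_eq_zero_iff_of_nonneg (fun z => sq_nonneg _)
    ((memLp_two_iff_integrable_sq_norm h1.l2v.1).1 h1.l2v)] at h3
  filter_upwards [h3] with z k1
  have k2 : ‖v z + ((-1 : ℝ) : ℂ) * TT (fun w => deriv φ w * Φ w) z‖ ^ 2 = 0 := k1
  rw [pow_eq_zero_iff two_ne_zero, norm_eq_zero] at k2
  push_cast at k2
  linear_combination k2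

/-- Identification of the weak gradient. -/
lemma rl_grad (S : LAn φ) {a : ℂ → ℝ} {v : ℂ → ℂ} (ha : ContDiffOn ℝ ∞ a D) (hv : MemLp v 2 mD)
    (h : ∀ η : ℂ → ℂ, ContDiff ℝ ∞ η → tsupport η ⊆ D →
      Integrable (fun z => a z * (dB η z).re) mD ∧
        ∫ z in D, a z * (dB η z).re = -∫ z in D, (v z * conj (η z)).re) :
    ∀ᵐ z ∂mD, v z = dD (fun w => (a w : ℂ)) z := by
  have ha' : ∀ z ∈ D, ContDiffAt ℝ ∞ a z := fun z hz => ha.contDiffAt (isOpen_ball.mem_nhds hz)
  have haC : ContDiffOn ℝ 1 (fun w => (a w : ℂ)) D := fun z hz =>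
    (contDiffAt_ofReal' ((ha' z hz).of_le (by simp))).contDiffWithinAt
  have hDc : ContinuousOn (dD fun w => (a w : ℂ)) D := fun z hz =>
    (contDiffAt_dD (m := 0) (contDiffAt_ofReal' (ha' z hz))
      (by simp)).continuousAt.continuousWithinAt
  have key : ∀ η : ℂ → ℂ, ContDiff ℝ ∞ η → tsupport η ⊆ D →
      ∫ z in D, ((v z - dD (fun w => (a w : ℂ)) z) * conj (η z)).re = 0 := by
    intro η hη hs
    have hη1 : ContDiff ℝ 1 η := hη.of_le (by simp)
    have hW := reg_contDiff_mul haC hη1 hs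
    have hWs : tsupport (fun z => (a z : ℂ) * η z) ⊆ D := tsupport_mul_subset_right.trans hs
    have h1 := reg_mean (adm_of_compactSupportL S hW hWs)
    have hdW : Continuous (dB fun z => (a z : ℂ) * η z) :=
      continuous_iff_continuousAt.2 fun z => (contDiffAt_dB (m := 0) hW.contDiffAt
        (by simp)).continuousAt
    obtain ⟨i1, i0⟩ := h η hη hs
    have i2 := regT_int_re_mul hv (reg_memLp_cont hη.continuous)
    have i3 : Integrable (fun z => (dB (fun z => (a z : ℂ) * η z) z).re) mD := (reg_int_cont hdW).re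
    have e1 : (fun z => (deriv φ z * (dB (fun z => (a z : ℂ) * η z) z / deriv φ z)).re) =ᵐ[mD]
        fun z => (dB (fun z => (a z : ℂ) * η z) z).re := regT_ae_mem.mono fun z hz => by
      simp only [mul_div_cancel₀ _ (S.ne z hz)]
    rw [integral_congr_ae e1] at h1
    have e2 : (fun z => ((v z - dD (fun w => (a w : ℂ)) z) * conj (η z)).re) =ᵐ[mD] fun z =>
        (v z * conj (η z)).re + a z * (dB η z).re - (dB (fun z => (a z : ℂ) * η z) z).re := by
      filter_upwards [regT_ae_mem] with z hz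
      have d1 : DifferentiableAt ℝ a z := (ha' z hz).differentiableAt (by simp)
      rw [dB_mul (differentiableAt_ofReal' d1) (hη1.differentiable one_ne_zero z),
        dB_ofReal_eq_conj d1, add_re, re_ofReal_mul, sub_mul, sub_re,
        ← conj_re (conj (dD (fun w => (a w : ℂ)) z) * η z), map_mul, conj_conj]
      ring
    have i4 : Integrable (fun z => (v z * conj (η z)).re + a z * (dB η z).re) mD := i2.add i1
    rw [integral_congr_ae e2, integral_sub i4 i3, integral_add i2 i1, i0, h1]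
    ring
  have hloc : LocallyIntegrableOn (fun z => v z - dD (fun w => (a w : ℂ)) z) D mD :=
    ((hv.integrable one_le_two).locallyIntegrable.locallyIntegrableOn D).sub
      (hDc.locallyIntegrableOn measurableSet_ball)
  have main : ∀ u : ℂ, ∀ᵐ z ∂mD, z ∈ D → ((v z - dD (fun w => (a w : ℂ)) z) * conj u).re = 0 := by
    intro u
    refine isOpen_ball.ae_eq_zero_of_integral_contDiff_smul_eq_zero ?_ fun g hg _ hs => ?_
    · intro x hx
      obtain ⟨s, hs, hi⟩ := hloc x hx
      exact ⟨s, hs, (hi.mul_const (conj u)).re⟩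
    · rw [← key (fun z => g z * u) ((ofRealCLM.contDiff.comp hg).mul contDiff_const)
        (tsupport_mul_subset_left.trans ((closure_mono fun z hz => ?_).trans hs))]
      · refine integral_congr_ae (Eventually.of_forall fun z => ?_)
        simp only [smul_eq_mul, map_mul, conj_ofReal]
        rw [← re_ofReal_mul]
        refine congrArg re ?_
        ring
      · simpa using hz
  filter_upwards [main 1, main I, regT_ae_mem] with z k1 k2 hz
  have k3 := k1 hz
  have k4 := k2 hz
  rw [← sub_eq_zero]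
  apply Complex.ext
  · simpa using k3
  · simpa using k4

lemma rl_test {U : ℂ → ℝ} (hU : ContDiff ℝ ∞ U) (hs : tsupport U ⊆ D) :
    ContDiff ℝ ∞ (dD fun z => (U z : ℂ)) ∧ tsupport (dD fun z => (U z : ℂ)) ⊆ D ∧
      ∀ z, (dB (dD fun z => (U z : ℂ)) z).re = lap U z := by
  have hUC : ContDiff ℝ ∞ fun z => (U z : ℂ) := ofRealCLM.contDiff.comp hU
  have hsC : tsupport (fun z => (U z : ℂ)) ⊆ D :=
    (closure_mono fun z hz => by simpa using hz).trans hs
  refine ⟨contDiff_iff_contDiffAt.2 fun z => contDiffAt_dD hUC.contDiffAt le_rfl,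
    (reg_tsupport_dD _).trans hsC, fun z => ?_⟩
  rw [dB_dD (hUC.contDiffAt.of_le reg_two_le), lap_ofReal (hU.contDiffAt.of_le reg_two_le),
    ofReal_re]

/-- A continuous function with vanishing weak gradient is constant. -/
lemma rl_const (S : LAn φ) {b : ℂ → ℝ} (hb : ContinuousOn b D)
    (h : ∀ η : ℂ → ℂ, ContDiff ℝ ∞ η → tsupport η ⊆ D →
      Integrable (fun z => b z * (dB η z).re) mD ∧ ∫ z in D, b z * (dB η z).re = 0) :
    ∃ c : ℝ, ∀ z ∈ D, b z = c := by
  obtain ⟨g, hg, hbg, -⟩ := weyl isOpen_ball (μ := 0) le_rfl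
    (hb.locallyIntegrableOn measurableSet_ball) fun U hU _ hs => by
      obtain ⟨h1, h2, h3⟩ := rl_test hU hs
      simpa only [h3, zero_mul, add_zero] using (h _ h1 h2).2
  have h1 := rl_grad S (v := fun _ => 0) hg (memLp_const 0) fun η hη hs => by
    have e : (fun z => b z * (dB η z).re) =ᵐ[mD] fun z => g z * (dB η z).re :=
      hbg.mono fun z hz => by simp only [hz]
    refine ⟨(h η hη hs).1.congr e, ?_⟩
    rw [← integral_congr_ae e, (h η hη hs).2]
    simp
  have hg' : ∀ z ∈ D, ContDiffAt ℝ ∞ g z := fun z hz => sl_contDiffAt hg hz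
  have h2 : EqOn (fun _ => (0 : ℂ)) (dD fun w => (g w : ℂ)) D :=
    Measure.eqOn_open_of_ae_eq (μ := volume) h1 isOpen_ball continuousOn_const fun z hz =>
      (contDiffAt_dD (m := 0) (contDiffAt_ofReal' (hg' z hz))
        (by simp)).continuousAt.continuousWithinAt
  have h3 : EqOn (fderiv ℝ g) 0 D := fun z hz => by
    have e1 := norm_dD_ofReal_sq ((hg' z hz).differentiableAt (by simp))
    rw [← h2 hz, norm_zero] at e1
    have e2 : dx g z = 0 := by nlinarith [sq_nonneg (dx g z), sq_nonneg (dy g z)]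
    have e3 : dy g z = 0 := by nlinarith [sq_nonneg (dx g z), sq_nonneg (dy g z)]
    have e4 := norm_fderiv_le g z
    rw [e2, e3, norm_zero, add_zero] at e4
    exact norm_le_zero_iff.1 e4
  have h4 : EqOn b g D :=
    Measure.eqOn_open_of_ae_eq (μ := volume) hbg isOpen_ball hb hg.continuousOn
  refine ⟨g 0, fun z hz => (h4 hz).trans ?_⟩
  exact isOpen_ball.is_const_of_fderiv_eq_zero (convex_ball (0 : ℂ) 1).isPreconnected
    (hg.differentiableOn (by simp)) h3 hz (mem_ball_self one_pos)

theorem exists_lmode (S : LSetup φ μ) (hθ : θ < 1) (hG : Ground φ μ θ) {v Φ : ℂ → ℂ}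
    (h : ZeroMode φ μ v Φ) : ∃ a : ℂ → ℝ, LMode φ μ v Φ a := by
  have hF : Integrable (fun z => deriv φ z * Φ z) mD := S.integrableOn_mul h.adm.l2F
  have him := rl_im_zero S.toLAn hθ hG h
  have hμ := S.mu_pos
  have hvT := rl_eq_TT S.toLAn hμ hG h.adm
  obtain ⟨f, hf⟩ : ∃ f : ℂ → ℝ, ∀ z, f z = -(deriv φ z * Φ z).re / (μ * rho φ z) :=
    ⟨_, fun _ => rfl⟩
  have hfm : AEStronglyMeasurable f mD := by
    rw [show f = _ from funext hf]
    exact (hF.re.1.aemeasurable.neg.div
      (reg_meas_rho.const_mul μ).aemeasurable).aestronglyMeasurable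
  have hf2 : IntegrableOn (fun z => rho φ z * f z ^ 2) D := by
    refine IntegrableOn.congr_fun (Integrable.const_mul (S.norm_sq_eq h.adm.l2F).1 (μ ^ 2)⁻¹)
      (fun z hz => ?_) measurableSet_ball
    have := (S.rho_pos hz).ne'
    simp only [hf]
    field_simp
  have hFf : ∀ᵐ z ∂mD, deriv φ z * Φ z = ((-(μ * rho φ z * f z) : ℝ) : ℂ) := by
    filter_upwards [him, regT_ae_mem] with z k1 hz
    have h1 := S.rho_pos hz
    apply Complex.ext
    · rw [ofReal_re, hf]
      field_simp
    · rw [k1, ofReal_im]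
  have star : ∀ η G : ℂ → ℂ, Adm φ η (fun z => G z / deriv φ z) →
      Integrable (fun z => f z * (G z).re) mD ∧
        ∫ z in D, f z * (G z).re = -∫ z in D, (v z * conj (η z)).re := by
    intro η G hA
    have h1 := h.zero _ _ hA
    have e : (fun z => (Φ z * conj (G z / deriv φ z)).re) =ᵐ[mD]
        fun z => -μ * (f z * (G z).re) := by
      filter_upwards [hFf, regT_ae_mem] with z k1 hz
      have n1 := S.ne z hz
      have n2 : conj (deriv φ z) ≠ 0 := by simpa using n1
      have e2 : Φ z * conj (G z / deriv φ z) = ((-μ * f z : ℝ) : ℂ) * conj (G z) := by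
        have e3 : Φ z = deriv φ z * Φ z / deriv φ z := by field_simp
        rw [e3, k1, map_div₀]
        push_cast
        rw [rho_eq]
        field_simp
      rw [e2, re_ofReal_mul, conj_re]
      ring
    refine ⟨?_, ?_⟩
    · refine (((regT_int_re_mul h.adm.l2F hA.l2F).congr e).const_mul (-μ)⁻¹).congr
        (Eventually.of_forall fun z => ?_)
      have := hμ.ne'
      simp only
      field_simp
    rw [EB, integral_congr_ae e, integral_const_mul] at h1
    have : μ * ((∫ z in D, f z * (G z).re) + ∫ z in D, (v z * conj (η z)).re) = 0 := by linarith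
    have := (mul_eq_zero.1 this).resolve_left hμ.ne'
    linarith
  obtain ⟨a, ha, hfa, hlap⟩ := S.weyl f hfm hf2 fun U hU _ hs => by
    have hUC : ContDiff ℝ ∞ fun z => (U z : ℂ) := ofRealCLM.contDiff.comp hU
    obtain ⟨hη, hηs, e1⟩ := rl_test hU hs
    obtain ⟨i2, h1⟩ := star _ _ (adm_of_compactSupportL S.toLAn (hη.of_le (by simp)) hηs)
    have h2 := h.adm.eq _ (UC.of_contDiff (hUC.of_le reg_two_le) fun z _ => ofReal_im _)
    simp only [e1] at h1 i2
    have i1 := regT_int_re_mul h.adm.l2v (reg_memLp_cont hη.continuous)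
    have i3 : Integrable (fun z => (deriv φ z * Φ z * conj (U z : ℂ)).re) mD :=
      Integrable.re (𝕜 := ℂ) (((BM.of_continuous hUC.continuous).conj.mul_integrableOn
        hF).congr_fun (fun z _ => mul_comm _ _) measurableSet_ball)
    have e2 : (fun z => f z * (lap U z + μ * rho φ z * U z)) =ᵐ[mD]
        fun z => f z * lap U z - (deriv φ z * Φ z * conj (U z : ℂ)).re := by
      filter_upwards [hFf] with z k1
      rw [k1, conj_ofReal, ← ofReal_mul, ofReal_re]
      ring
    simp only [add_re] at h2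
    rw [integral_add i1 i3] at h2
    rw [integral_congr_ae e2, integral_sub i2 i3, h1]
    linarith
  have star' : ∀ η : ℂ → ℂ, ContDiff ℝ ∞ η → tsupport η ⊆ D →
      Integrable (fun z => a z * (dB η z).re) mD ∧
        ∫ z in D, a z * (dB η z).re = -∫ z in D, (v z * conj (η z)).re := by
    intro η hη hs
    obtain ⟨h1, h2⟩ := star _ _ (adm_of_compactSupportL S.toLAn (hη.of_le (by simp)) hs)
    have e : (fun z => f z * (dB η z).re) =ᵐ[mD] fun z => a z * (dB η z).re :=
      hfa.mono fun z hz => by simp only [hz]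
    exact ⟨h1.congr e, by rw [← h2, integral_congr_ae e]⟩
  have hva := rl_grad S.toLAn ha h.adm.l2v star'
  have hFa : ∀ᵐ z ∂mD, deriv φ z * Φ z = FR φ μ a z := by
    filter_upwards [hFf, hfa] with z k1 k2
    rw [k1, k2, FR]
  have hTT : TT (fun z => deriv φ z * Φ z) = VT φ μ a := TT_congr hFa
  rw [hTT] at hvT
  have hN := S.NN_cont h.adm.l2F hFa
  have bN := BM.of_closedBall hN
  obtain ⟨c, hc⟩ := rl_const S.toLAn (b := fun z => a z - NN (FR φ μ a) z)
    (ha.continuousOn.sub (hN.mono ball_subset_closedBall)) fun η hη hs => by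
      obtain ⟨h1, h2⟩ := star' η hη hs
      have hη1 : ContDiff ℝ 1 η := hη.of_le (by simp)
      have h3 := S.NN_weak h.adm.l2F hFa (η := fun z => conj (η z))
        (contDiff_iff_contDiffAt.2 fun z => contDiffAt_conj' hη.contDiffAt)
        ((closure_mono fun z hz => by simpa using hz).trans hs)
      simp only [dD_conj (hη1.differentiable one_ne_zero _)] at h3
      have j1 : Integrable (fun z => (NN (FR φ μ a) z : ℂ) * conj (dB η z)) mD :=
        (bN.ofReal.mul (BM.dB_of_contDiff hη1).conj).integrableOn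
      have j2 := sl_integrable_mul_conj h.adm.l2v (reg_memLp_cont hη.continuous)
      have e1 : (fun z => TT (fun y => (FR φ μ a y : ℂ)) z * conj (η z)) =ᵐ[mD]
          fun z => v z * conj (η z) := hvT.mono fun z hz => by simp only [hz, VT]
      rw [integral_congr_ae e1] at h3
      have h4 := congrArg re h3
      have r1 := reCLM.integral_comp_comm j1
      have r2 := reCLM.integral_comp_comm j2
      simp only [reCLM_apply] at r1 r2
      rw [neg_re, ← r1, ← r2] at h4
      simp only [re_ofReal_mul, conj_re] at h4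
      have j3 : Integrable (fun z => NN (FR φ μ a) z * (dB η z).re) mD :=
        (bN.mul (BM.dB_of_contDiff hη1).re).integrableOn
      simp only [sub_mul]
      exact ⟨h1.sub j3, by rw [integral_sub h1 j3, h2, h4, sub_self]⟩
  obtain ⟨M, hM⟩ := bN.bdd
  refine ⟨a, ha, ⟨|c| + M, fun z hz => ?_⟩, hlap, ?_, hva, hFa, ?_,
    ⟨c, fun z hz => by linarith [hc z hz]⟩⟩
  · rw [show a z = c + NN (FR φ μ a) z by linarith [hc z hz]]
    exact (abs_add_le _ _).trans (add_le_add le_rfl (hM z hz))
  · rw [← reg_mean h.adm]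
    exact integral_congr_ae (hFa.mono fun z hz => by simp only [hz, ofReal_re])
  · filter_upwards [hva, hvT] with z k1 k2
    rw [← k1, k2]

end Vale.Agent.P071
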