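import Vale.Agent.P071L.TTL
import Vale.Agent.P071L.Hardy

/-!
# A Rellich type estimate: the smooth case
-/

open Complex Metric Set Filter Topology MeasureTheory
open scoped ContDiff ComplexConjugate Real

namespace Vale.Agent.P071

lemma rel_cs {α : Type*} [MeasurableSpace α] {m : Measure α} {f F G : α → ENNReal}
    (hF : AEMeasurable F m) (hG : AEMeasurable G m) (h : ∀ᵐ x ∂m, f x ^ 2 ≤ F x * G x) :
    (∫⁻ x, f x ∂m) ^ 2 ≤ (∫⁻ x, F x ∂m) * ∫⁻ x, G x ∂m := by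
  have h1 := ENNReal.lintegral_mul_norm_pow_le hF hG (p := 1 / 2) (q := 1 / 2) (by norm_num)
    (by norm_num) (by norm_num)
  have e : ∀ x : ENNReal, (x ^ 2) ^ (1 / 2 : ℝ) = x := fun x => by
    rw [← ENNReal.rpow_natCast, ← ENNReal.rpow_mul]; norm_num
  have e' : ∀ x : ENNReal, (x ^ (1 / 2 : ℝ)) ^ 2 = x := fun x => by
    rw [← ENNReal.rpow_natCast, ← ENNReal.rpow_mul]; norm_num
  have h2 : ∫⁻ x, f x ∂m ≤ ∫⁻ x, F x ^ (1 / 2 : ℝ) * G x ^ (1 / 2 : ℝ) ∂m := by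
    refine lintegral_mono_ae (h.mono fun x hx => ?_)
    rw [← ENNReal.mul_rpow_of_nonneg _ _ (by norm_num), ← e (f x)]
    exact ENNReal.rpow_le_rpow hx (by norm_num)
  calc (∫⁻ x, f x ∂m) ^ 2
      ≤ ((∫⁻ x, F x ∂m) ^ (1 / 2 : ℝ) * (∫⁻ x, G x ∂m) ^ (1 / 2 : ℝ)) ^ 2 := by
        gcongr; exact h2.trans h1
    _ = _ := by rw [mul_pow, e', e']

/-- A Schur test. -/
lemma rel_schur {α : Type*} [MeasurableSpace α] {m : Measure α} [SFinite m]
    {f K G : α → ℂ → ENNReal} {H : α → ENNReal} {A I : ENNReal}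
    (hH : AEMeasurable H m) (hK : Measurable (Function.uncurry K))
    (hG : ∀ y ∈ D, AEMeasurable (fun x => G x y) m)
    (h : ∀ y ∈ D, ∀ᵐ x ∂m, f x y ^ 2 ≤ H x * K x y * G x y)
    (hA : ∀ y ∈ D, ∫⁻ x, G x y ∂m ≤ A) (hI : ∀ᵐ x ∂m, ∫⁻ y in D, K x y ≤ I) :
    ∫⁻ y in D, (∫⁻ x, f x y ∂m) ^ 2 ≤ A * I * ∫⁻ x, H x ∂m := by
  have hm : AEMeasurable (Function.uncurry fun x y => H x * K x y) (m.prod mD) :=
    hH.comp_fst.mul hK.aemeasurable
  calc ∫⁻ y in D, (∫⁻ x, f x y ∂m) ^ 2 ≤ ∫⁻ y in D, A * ∫⁻ x, H x * K x y ∂m := by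
        refine lintegral_mono_ae (regT_ae_mem.mono fun y hy => ?_)
        have h1 := rel_cs (hH.mul (hK.of_uncurry_right (y := y)).aemeasurable) (hG y hy) (h y hy)
        refine h1.trans ?_
        rw [mul_comm A]
        exact mul_le_mul' le_rfl (hA y hy)
    _ = A * ∫⁻ y in D, ∫⁻ x, H x * K x y ∂m :=
        lintegral_const_mul'' _ hm.lintegral_prod_left'
    _ = A * ∫⁻ x, (∫⁻ y in D, H x * K x y) ∂m := by rw [lintegral_lintegral_swap hm]
    _ ≤ A * ∫⁻ x, I * H x ∂m := by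
        refine mul_le_mul' le_rfl (lintegral_mono_ae (hI.mono fun x hx => ?_))
        rw [lintegral_const_mul'' _ (hK.of_uncurry_left (x := x)).aemeasurable, mul_comm I]
        gcongr
    _ = _ := by rw [lintegral_const_mul'' _ hH, mul_assoc]

lemma rel_ec_mem (s : ℝ) : ec s ∈ S1 := circleMap_mem_sphere 0 zero_le_one s

lemma rel_S1_sub {s : ℂ} (hs : s ∈ S1) : s ∈ Db := sphere_subset_closedBall hs

lemma rel_mc_eq {E : Type*} [NormedAddCommGroup E] [NormedSpace ℝ E] (f : ℝ → E) :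
    ∫ θ in (-π)..π, f θ = ∫ θ, f θ ∂mc :=
  intervalIntegral.integral_of_le (by linarith [Real.pi_pos])

lemma rel_int_mc {E : Type*} [NormedAddCommGroup E] {f : ℂ → E} (hf : ContinuousOn f S1) :
    Integrable (fun s => f (ec s)) mc := by
  have h : Continuous fun s => f (ec s) :=
    hf.comp_continuous (continuous_circleMap 0 1) rel_ec_mem
  exact (h.continuousOn.integrableOn_compact isCompact_Icc).mono_set Ioc_subset_Icc_self

lemma rel_dB_mul {W g : ℂ → ℂ} {z : ℂ} (hW : DifferentiableAt ℝ W z) (hg : AnalyticAt ℂ g z) :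
    dB (fun w => W w * g w) z = dB W z * g z := by
  rw [dB_mul hW (hg.differentiableAt.restrictScalars ℝ), dB_holo hg.differentiableAt, mul_zero,
    add_zero]

/-- The Rellich identity. -/
lemma rel_green {W g : ℂ → ℂ} {κ : ℝ} (hκ : 0 ≤ κ) (hW : ∀ z ∈ Db, ContDiffAt ℝ 1 W z)
    (ht : ∀ s ∈ S1, (s * W s).re = 0) (hg : ∀ z ∈ Db, AnalyticAt ℂ g z)
    (hs : ∀ s ∈ S1, ‖g s‖ ≤ κ * (g s).re) :
    ∫ s, ‖W (ec s)‖ ^ 2 * ‖g (ec s)‖ ∂mc ≤
      κ * ((∫ z in D, ‖W z‖ ^ 2) + ∫ z in D, ‖dB W z * g z‖ ^ 2) := by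
  have hg1 : ∀ z ∈ Db, ContDiffAt ℝ 1 g z := fun z hz => (hg z hz).contDiffAt.restrict_scalars ℝ
  have hU : ∀ z ∈ closedBall (0 : ℂ) 1, ContDiffAt ℝ 1 (fun w => W w * W w * (w * g w)) z :=
    fun z hz => ((hW z hz).mul (hW z hz)).mul (contDiffAt_id.mul (hg1 z hz))
  have h1 := green_dB zero_le_one hU
  rw [rel_mc_eq] at h1
  have cW : ContinuousOn W Db := fun z hz => (hW z hz).continuousAt.continuousWithinAt
  have cg : ContinuousOn g Db := fun z hz => (hg z hz).continuousAt.continuousWithinAt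
  have cB : ContinuousOn (dB W) Db := fun z hz =>
    (contDiffAt_dB (m := 0) (hW z hz) (by simp)).continuousAt.continuousWithinAt
  have e1 : ∀ s : ℝ, W (ec s) * W (ec s) * (ec s * g (ec s)) * ec s =
      -((‖W (ec s)‖ ^ 2 : ℝ) * g (ec s)) := fun s => by
    have k1 := ht _ (rel_ec_mem s)
    have k2 : ‖ec s * W (ec s)‖ = ‖W (ec s)‖ := by
      rw [norm_mul, norm_eq_of_mem_sphere ⟨_, rel_ec_mem s⟩, one_mul]
    have k3 : (ec s * W (ec s)) * (ec s * W (ec s)) = -((‖W (ec s)‖ ^ 2 : ℝ) : ℂ) := by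
      rw [← k2, Complex.sq_norm, Complex.normSq_apply]
      apply Complex.ext <;> simp [k1]
    calc _ = (ec s * W (ec s)) * (ec s * W (ec s)) * g (ec s) := by ring
      _ = _ := by rw [k3]; ring
  have i1 : Integrable (fun s => ((‖W (ec s)‖ ^ 2 : ℝ) : ℂ) * g (ec s)) mc :=
    rel_int_mc (f := fun z => ((‖W z‖ ^ 2 : ℝ) : ℂ) * g z)
      (((continuous_ofReal.comp_continuousOn (cW.norm.pow 2)).mul cg).mono fun _ => rel_S1_sub)
  have e2 : ∫ s, ‖W (ec s)‖ ^ 2 * (g (ec s)).re ∂mc =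
      -(∫ z in D, dB (fun w => W w * W w * (w * g w)) z).re := by
    rw [h1]
    simp_rw [e1]
    rw [integral_neg, neg_re, neg_neg]
    have := integral_re i1
    simp only [RCLike.re_to_complex, re_ofReal_mul] at this
    exact this
  have i2 : IntegrableOn (fun z => ‖W z‖ ^ 2) D := (BM.of_closedBall cW).norm.sq.integrableOn
  have i3 : IntegrableOn (fun z => ‖dB W z * g z‖ ^ 2) D :=
    (BM.of_closedBall (cB.mul cg)).norm.sq.integrableOn
  have h2 : ‖∫ z in D, dB (fun w => W w * W w * (w * g w)) z‖ ≤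
      ∫ z in D, (‖W z‖ ^ 2 + ‖dB W z * g z‖ ^ 2) := by
    refine norm_integral_le_of_norm_le (i2.add i3) (regT_ae_mem.mono fun z hz => ?_)
    have hz' := regT_D_sub hz
    have d1 := (hW z hz').differentiableAt one_ne_zero
    rw [rel_dB_mul (W := fun w => W w * W w) (g := fun w => w * g w) (d1.mul d1)
      (analyticAt_id.mul (hg z hz')), dB_mul d1 d1]
    have e : (dB W z * W z + W z * dB W z) * (z * g z) = 2 * z * (W z * (dB W z * g z)) := by ring
    rw [e, norm_mul, norm_mul, norm_mul]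
    have k1 := (regT_norm_lt hz).le
    have k2 : ‖(2 : ℂ)‖ = 2 := by simp
    rw [k2]
    have k3 : 0 ≤ ‖W z‖ * ‖dB W z * g z‖ := by positivity
    nlinarith [sq_nonneg (‖W z‖ - ‖dB W z * g z‖)]
  rw [integral_add i2 i3] at h2
  have h3 : ∫ s, ‖W (ec s)‖ ^ 2 * ‖g (ec s)‖ ∂mc ≤
      ∫ s, κ * (‖W (ec s)‖ ^ 2 * (g (ec s)).re) ∂mc := by
    refine integral_mono_of_nonneg (Eventually.of_forall fun s => by positivity) ?_
      (Eventually.of_forall fun s => ?_)
    · exact (rel_int_mc (f := fun z => ‖W z‖ ^ 2 * (g z).re)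
        (((cW.norm.pow 2).mul (continuous_re.comp_continuousOn cg)).mono
          fun _ => rel_S1_sub)).const_mul κ
    · have := hs _ (rel_ec_mem s)
      calc ‖W (ec s)‖ ^ 2 * ‖g (ec s)‖ ≤ ‖W (ec s)‖ ^ 2 * (κ * (g (ec s)).re) := by gcongr
        _ = _ := by ring
  rw [integral_const_mul, e2] at h3
  refine h3.trans (mul_le_mul_of_nonneg_left ?_ hκ)
  exact (neg_le_abs _).trans ((abs_re_le_norm _).trans h2)

lemma rel_enorm_sq (x : ℂ) : ‖x‖ₑ ^ 2 = ENNReal.ofReal (‖x‖ ^ 2) := by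
  rw [← ofReal_norm, ENNReal.ofReal_pow (norm_nonneg _)]

lemma rel_lint_le {α : Type*} [MeasurableSpace α] {m : Measure α} {f : α → ℝ} {A : ℝ}
    (hf : Integrable f m) (h0 : ∀ x, 0 ≤ f x) (h : ∫ x, f x ∂m ≤ A) :
    ∫⁻ x, ENNReal.ofReal (f x) ∂m ≤ ENNReal.ofReal A := by
  rw [← ofReal_integral_eq_lintegral_ofReal hf (Eventually.of_forall h0)]
  exact ENNReal.ofReal_le_ofReal h

/-- The area term. -/
lemma rel_area : ∃ C : ℝ, 0 ≤ C ∧ ∀ f : ℂ → ℂ, MemLp f 2 mD →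
    ∫⁻ y in D, ‖∫ z in D, f z / (z - y)‖ₑ ^ 2 ≤ ENNReal.ofReal (C * ∫ z in D, ‖f z‖ ^ 2) := by
  obtain ⟨I₀, hI0, hI⟩ := regT_sing
  refine ⟨2 * I₀ * (2 * I₀), by positivity, fun f hf => ?_⟩
  have hk : Measurable (Function.uncurry fun z y : ℂ => ENNReal.ofReal ‖z - y‖⁻¹) :=
    regT_meas_inv.ennreal_ofReal
  have h1 := rel_schur (m := mD) (f := fun z y => ‖f z / (z - y)‖ₑ)
    (K := fun z y => ENNReal.ofReal ‖z - y‖⁻¹) (G := fun z y => ENNReal.ofReal ‖z - y‖⁻¹)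
    (H := fun z => ENNReal.ofReal (‖f z‖ ^ 2)) (A := ENNReal.ofReal (2 * I₀))
    (I := ENNReal.ofReal (2 * I₀)) (hf.1.norm.aemeasurable.pow_const 2).ennreal_ofReal hk
    (fun y _ => (hk.of_uncurry_right (y := y)).aemeasurable)
    (fun y _ => Eventually.of_forall fun z => by
      rw [rel_enorm_sq, ← ENNReal.ofReal_mul (by positivity), ← ENNReal.ofReal_mul (by positivity),
        norm_div, div_eq_mul_inv]
      exact ENNReal.ofReal_le_ofReal (le_of_eq (by ring)))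
    (fun y hy => rel_lint_le (hI y (regT_D_sub hy)).2.1 (fun _ => by positivity)
      (hI y (regT_D_sub hy)).2.2)
    (regT_ae_mem.mono fun z hz => by
      simp_rw [norm_sub_rev z]
      exact rel_lint_le (hI z (regT_D_sub hz)).2.1 (fun _ => by positivity)
        (hI z (regT_D_sub hz)).2.2)
  calc ∫⁻ y in D, ‖∫ z in D, f z / (z - y)‖ₑ ^ 2
      ≤ ∫⁻ y in D, (∫⁻ z in D, ‖f z / (z - y)‖ₑ) ^ 2 := by
        refine lintegral_mono fun y => ?_
        exact pow_le_pow_left' (enorm_integral_le_lintegral_enorm _) 2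
    _ ≤ _ := h1
    _ ≤ _ := by
        rw [← ENNReal.ofReal_mul (by positivity),
          ENNReal.ofReal_mul (p := 2 * I₀ * (2 * I₀)) (by positivity)]
        exact mul_le_mul' le_rfl
          (rel_lint_le (integrableOn_norm_sq hf) (fun _ => by positivity) le_rfl)

/-- The circle term. -/
lemma rel_circle {q Cq : ℝ} (hq : 1 < q) (hCq : 0 ≤ Cq) : ∃ C : ℝ, 0 ≤ C ∧ ∀ W g : ℂ → ℂ,
    ContinuousOn W S1 → ContinuousOn g S1 → ∫ s, ‖g (ec s)‖ ^ q ∂mc ≤ Cq →
    ∫⁻ y in D, ‖∫ s, W (ec s) * g (ec s) * ec s / (ec s - y) ∂mc‖ₑ ^ 2 ≤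
      ENNReal.ofReal (C * ∫ s, ‖W (ec s)‖ ^ 2 * ‖g (ec s)‖ ∂mc) := by
  have hqq := Real.HolderConjugate.conjExponent hq
  set q' := q.conjExponent
  have hq' : 1 < q' := hqq.symm.lt
  set b : ℝ := 1 / (2 * q') with hb
  have hb0 : 0 < b := by positivity
  have hb1 : b < 1 := by
    rw [hb, div_lt_one (by positivity)]; linarith
  have hbq : -b * q' = -(1 / 2) := by rw [hb]; field_simp
  obtain ⟨I₁, hI₁0, hI₁⟩ := sing_circle (b := 1 / 2) (by norm_num) (by norm_num)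
  obtain ⟨I₂, hI₂0, hI₂⟩ := sing_disc (a := 2 - b) (by linarith) (by linarith)
  refine ⟨(Cq + I₁) * I₂, by positivity, fun W g hW hg hgq => ?_⟩
  have cec : Continuous ec := continuous_circleMap 0 1
  have cW : Continuous fun s => W (ec s) := hW.comp_continuous cec rel_ec_mem
  have cg : Continuous fun s => g (ec s) := hg.comp_continuous cec rel_ec_mem
  have hk : Measurable (Function.uncurry fun (s : ℝ) (y : ℂ) =>
      ENNReal.ofReal (‖y - ec s‖ ^ (-(2 - b)))) :=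
    ((measurable_snd.sub (cec.measurable.comp measurable_fst)).norm.pow_const _).ennreal_ofReal
  have h1 := rel_schur (m := mc) (f := fun s y => ‖W (ec s) * g (ec s) * ec s / (ec s - y)‖ₑ)
    (K := fun s y => ENNReal.ofReal (‖y - ec s‖ ^ (-(2 - b))))
    (G := fun s y => ENNReal.ofReal (‖g (ec s)‖ * ‖ec s - y‖ ^ (-b)))
    (H := fun s => ENNReal.ofReal (‖W (ec s)‖ ^ 2 * ‖g (ec s)‖)) (A := ENNReal.ofReal (Cq + I₁))
    (I := ENNReal.ofReal I₂)
    ((cW.norm.pow 2).mul cg.norm).measurable.ennreal_ofReal.aemeasurable hk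
    (fun y _ => (cg.norm.measurable.mul
      ((cec.measurable.sub_const y).norm.pow_const _)).ennreal_ofReal.aemeasurable)
    (fun y hy => Eventually.of_forall fun s => by
      have hn : ‖ec s‖ = 1 := norm_eq_of_mem_sphere ⟨_, rel_ec_mem s⟩
      have hd : 0 < ‖ec s - y‖ := by
        refine norm_pos_iff.2 (sub_ne_zero.2 fun h => ?_)
        have := regT_norm_lt hy
        rw [← h, hn] at this
        exact lt_irrefl _ this
      rw [rel_enorm_sq, ← ENNReal.ofReal_mul (by positivity), ← ENNReal.ofReal_mul (by positivity),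
        norm_div, norm_mul, norm_mul, hn, norm_sub_rev y]
      refine ENNReal.ofReal_le_ofReal (le_of_eq ?_)
      have e : ‖ec s - y‖ ^ (-(2 - b)) * ‖ec s - y‖ ^ (-b) = (‖ec s - y‖ ^ 2)⁻¹ := by
        rw [← Real.rpow_add hd, show -(2 - b) + -b = -((2 : ℕ) : ℝ) by push_cast; ring,
          Real.rpow_neg hd.le, Real.rpow_natCast]
      calc _ = ‖W (ec s)‖ ^ 2 * ‖g (ec s)‖ ^ 2 * (‖ec s - y‖ ^ 2)⁻¹ := by field_simp
        _ = _ := by rw [← e]; ring)
    (fun y hy => by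
      obtain ⟨k1, k2⟩ := hI₁ y (regT_D_sub hy)
      have k3 : Integrable (fun s => ‖g (ec s)‖ ^ q) mc :=
        rel_int_mc (f := fun z => ‖g z‖ ^ q) (hg.norm.rpow_const fun _ _ => Or.inr (by linarith))
      refine le_trans (lintegral_mono fun s => ENNReal.ofReal_le_ofReal ?_)
        (rel_lint_le (k3.add k1) (fun s => by simp only [Pi.add_apply]; positivity) ?_)
      · have := Real.young_inequality_of_nonneg (norm_nonneg (g (ec s)))
          (Real.rpow_nonneg (norm_nonneg (ec s - y)) (-b)) hqq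
        rw [← Real.rpow_mul (norm_nonneg _), hbq] at this
        refine this.trans (add_le_add (div_le_self (by positivity) hq.le)
          (div_le_self (by positivity) hq'.le))
      · simp only [Pi.add_apply]
        rw [integral_add k3 k1]
        exact add_le_add hgq k2)
    (Eventually.of_forall fun s => by
      obtain ⟨k1, k2⟩ := hI₂ (ec s) (rel_S1_sub (rel_ec_mem s))
      simp only [one_mul] at k1 k2
      exact rel_lint_le k1 (fun _ => by positivity) k2)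
  calc ∫⁻ y in D, ‖∫ s, W (ec s) * g (ec s) * ec s / (ec s - y) ∂mc‖ₑ ^ 2
      ≤ ∫⁻ y in D, (∫⁻ s, ‖W (ec s) * g (ec s) * ec s / (ec s - y)‖ₑ ∂mc) ^ 2 := by
        refine lintegral_mono fun y => ?_
        exact pow_le_pow_left' (enorm_integral_le_lintegral_enorm _) 2
    _ ≤ _ := h1
    _ ≤ _ := by
        rw [ENNReal.ofReal_mul (by positivity), ENNReal.ofReal_mul (by positivity)]
        exact mul_le_mul' le_rfl (rel_lint_le
          (rel_int_mc (f := fun z => ‖W z‖ ^ 2 * ‖g z‖) ((hW.norm.pow 2).mul hg.norm))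
          (fun _ => by positivity) le_rfl)

/-- The estimate in the smooth case. -/
lemma rel_key {q Cq κ : ℝ} (hq : 1 < q) (hCq : 0 ≤ Cq) (hκ : 0 ≤ κ) : ∃ C : ℝ, ∀ (W g : ℂ → ℂ)
    (N : ℝ), (∀ z ∈ Db, ContDiffAt ℝ 1 W z) → (∀ s ∈ S1, (s * W s).re = 0) →
    (∀ z ∈ Db, AnalyticAt ℂ g z) → (∀ s ∈ S1, ‖g s‖ ≤ κ * (g s).re) →
    ∫ s, ‖g (ec s)‖ ^ q ∂mc ≤ Cq → ∫ z in D, ‖W z‖ ^ 2 ≤ N →
    ∫ z in D, ‖dB W z * g z‖ ^ 2 ≤ N →
    ∫⁻ y in D, ‖W y * g y‖ₑ ^ 2 ≤ ENNReal.ofReal (C * N) := by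
  obtain ⟨C₁, hC₁, h₁⟩ := rel_circle hq hCq
  obtain ⟨C₂, hC₂, h₂⟩ := rel_area
  refine ⟨2 * (C₁ * (κ * 2)) + 2 * C₂, fun W g N hW ht hg hs hgq hN1 hN2 => ?_⟩
  have hN : 0 ≤ N := le_trans (integral_nonneg fun _ => by positivity) hN1
  have hg1 : ∀ z ∈ Db, ContDiffAt ℝ 1 g z := fun z hz => (hg z hz).contDiffAt.restrict_scalars ℝ
  have cW : ContinuousOn W Db := fun z hz => (hW z hz).continuousAt.continuousWithinAt
  have cg : ContinuousOn g Db := fun z hz => (hg z hz).continuousAt.continuousWithinAt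
  have cB : ContinuousOn (dB W) Db := fun z hz =>
    (contDiffAt_dB (m := 0) (hW z hz) (by simp)).continuousAt.continuousWithinAt
  have bm : BM fun z => dB W z * g z := BM.of_closedBall (cB.mul cg)
  have eB : ∀ z ∈ D, dB (fun w => W w * g w) z = dB W z * g z := fun z hz =>
    rel_dB_mul ((hW z (regT_D_sub hz)).differentiableAt one_ne_zero) (hg z (regT_D_sub hz))
  have k1 := h₁ W g (cW.mono fun _ => rel_S1_sub) (cg.mono fun _ => rel_S1_sub) hgq
  have k2 := h₂ _ bm.memLp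
  have k3 := rel_green hκ hW ht hg hs
  set X : ℂ → ℂ := fun y => ∫ s, W (ec s) * g (ec s) * ec s / (ec s - y) ∂mc with hX
  set Y : ℂ → ℂ := fun y => ∫ z in D, dB W z * g z / (z - y) with hY
  have mY : AEMeasurable (fun y => ‖Y y‖ₑ ^ 2) mD := by
    have : AEStronglyMeasurable (fun p : ℂ × ℂ => dB W p.2 * g p.2 / (p.2 - p.1)) (mD.prod mD) :=
      (bm.meas.aemeasurable.comp_snd.div
        (measurable_snd.sub measurable_fst).aemeasurable).aestronglyMeasurable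
    exact this.integral_prod_right'.enorm.pow_const 2
  have k4 : ∀ y ∈ D, ‖W y * g y‖ₑ ^ 2 ≤ 2 * ‖X y‖ₑ ^ 2 + 2 * ‖Y y‖ₑ ^ 2 := fun y hy => by
    have p := pompeiu (W := fun w => W w * g w) (cW.mul cg)
      (fun z hz => ((hW z (regT_D_sub hz)).mul (hg1 z (regT_D_sub hz))).contDiffWithinAt)
      (bm.congr fun z hz => (eB z hz).symm) hy
    have e : ∫ z in D, dB (fun w => W w * g w) z / (z - y) = Y y :=
      setIntegral_congr_fun measurableSet_ball fun z hz => by simp only [eB z hz]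
    rw [e] at p
    have p1 : 2 * π * ‖W y * g y‖ ≤ ‖X y‖ + ‖Y y‖ := by
      rw [← regT_norm_two_pi, ← norm_mul, p]
      exact norm_sub_le _ _
    have p2 : ‖W y * g y‖ ≤ ‖X y‖ + ‖Y y‖ := by
      nlinarith [Real.pi_gt_three, norm_nonneg (W y * g y)]
    have p3 : ‖W y * g y‖ ^ 2 ≤ 2 * ‖X y‖ ^ 2 + 2 * ‖Y y‖ ^ 2 := by
      nlinarith [sq_nonneg (‖X y‖ - ‖Y y‖), norm_nonneg (W y * g y)]
    rw [rel_enorm_sq, rel_enorm_sq, rel_enorm_sq, ← ENNReal.ofReal_ofNat 2,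
      ← ENNReal.ofReal_mul (by positivity), ← ENNReal.ofReal_mul (by positivity),
      ← ENNReal.ofReal_add (by positivity) (by positivity)]
    exact ENNReal.ofReal_le_ofReal p3
  calc ∫⁻ y in D, ‖W y * g y‖ₑ ^ 2 ≤ ∫⁻ y in D, (2 * ‖X y‖ₑ ^ 2 + 2 * ‖Y y‖ₑ ^ 2) :=
        lintegral_mono_ae (regT_ae_mem.mono k4)
    _ = 2 * (∫⁻ y in D, ‖X y‖ₑ ^ 2) + 2 * ∫⁻ y in D, ‖Y y‖ₑ ^ 2 := by
        rw [lintegral_add_right' _ (mY.const_mul 2), lintegral_const_mul' _ _ (by simp),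
          lintegral_const_mul' _ _ (by simp)]
    _ ≤ 2 * ENNReal.ofReal (C₁ * (κ * 2) * N) + 2 * ENNReal.ofReal (C₂ * N) := by
        gcongr
        · refine k1.trans (ENNReal.ofReal_le_ofReal ?_)
          rw [mul_assoc C₁]
          refine mul_le_mul_of_nonneg_left (k3.trans ?_) hC₁
          rw [mul_assoc]
          exact mul_le_mul_of_nonneg_left (by linarith) hκ
        · exact k2.trans (ENNReal.ofReal_le_ofReal (mul_le_mul_of_nonneg_left hN2 hC₂))
    _ = _ := by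
        rw [← ENNReal.ofReal_ofNat 2, ← ENNReal.ofReal_mul (by positivity),
          ← ENNReal.ofReal_mul (by positivity),
          ← ENNReal.ofReal_add (by positivity) (by positivity)]
        congr 1
        ring

end Vale.Agent.P071
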