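import Vale.Agent.P071L.TTL
import Vale.Agent.P071L.Hardy
import Vale.Agent.P071L.RellichAux

/-!
# A Rellich type estimate
-/

open Complex Metric Set Filter Topology MeasureTheory
open scoped ContDiff ComplexConjugate Real

namespace Vale.Agent.P071

variable {φ : ℂ → ℂ} {μ : ℝ}

lemma rel_cutoff : ∃ χ : ℕ → ℂ → ℝ, (∀ j, ContDiff ℝ ∞ (χ j)) ∧ (∀ j, tsupport (χ j) ⊆ D) ∧
    (∀ j z, 0 ≤ χ j z ∧ χ j z ≤ 1) ∧ ∀ z ∈ D, ∀ᶠ j in atTop, χ j z = 1 := by
  have h1 : ∀ j : ℕ, 0 < 1 / ((j : ℝ) + 1) ∧ 1 / ((j : ℝ) + 1) ≤ 1 := fun j =>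
    ⟨by positivity, by rw [div_le_one (by positivity)]; linarith [Nat.cast_nonneg (α := ℝ) j]⟩
  let f : ℕ → ContDiffBump (0 : ℂ) := fun j =>
    ⟨1 - 1 / ((j : ℝ) + 1) / 2, 1 - 1 / ((j : ℝ) + 1) / 4, by linarith [(h1 j).2],
      by linarith [(h1 j).1]⟩
  refine ⟨fun j => f j, fun j => (f j).contDiff, fun j => ?_,
    fun j z => ⟨(f j).nonneg, (f j).le_one⟩, fun z hz => ?_⟩
  · rw [(f j).tsupport_eq]
    exact closedBall_subset_ball (show 1 - 1 / ((j : ℝ) + 1) / 4 < 1 by linarith [(h1 j).1])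
  · have h2 := regT_norm_lt hz
    filter_upwards [(tendsto_order.1 tendsto_one_div_add_atTop_nhds_zero_nat).2 (1 - ‖z‖)
      (by linarith)] with j hj
    refine (f j).one_of_mem_closedBall (mem_closedBall_zero_iff.2 ?_)
    show ‖z‖ ≤ 1 - 1 / ((j : ℝ) + 1) / 2
    linarith [(h1 j).1]

lemma rel_approx (S : LAn φ) {b : ℂ → ℝ} (hb : ContDiffOn ℝ ∞ b D) {M : ℝ}
    (hM : ∀ z ∈ D, |b z| ≤ M) (h0 : ∫ z in D, rho φ z * b z = 0) :
    ∃ ζ : ℕ → ℂ → ℂ, (∀ j, ContDiff ℝ ∞ (ζ j)) ∧ (∀ j, tsupport (ζ j) ⊆ D) ∧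
      (∀ᶠ j in atTop, ∫ z in D, (ζ j z).re = 0 ∧ ∀ z ∈ D, ‖ζ j z‖ ≤ (M + 1) * rho φ z) ∧
      ∀ z ∈ D, Tendsto (fun j => ζ j z) atTop (𝓝 ((rho φ z * b z : ℝ) : ℂ)) := by
  obtain ⟨χ, hχ, hs, h01, h1⟩ := rel_cutoff
  have hbm : BM b := BM.of_continuousOn hb.continuousOn ⟨M, hM⟩
  have hχm : ∀ j, BM (χ j) := fun j => BM.of_continuous (hχ j).continuous
  have iρ := S.integrableOn_rho
  have iρb : IntegrableOn (fun z => rho φ z * b z) D := by
    simpa only [mul_comm] using hbm.mul_integrableOn iρ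
  have lim : ∀ f : ℂ → ℝ, IntegrableOn f D →
      Tendsto (fun j => ∫ z in D, χ j z * f z) atTop (𝓝 (∫ z in D, f z)) := fun f hf => by
    refine tendsto_integral_of_dominated_convergence (fun z => ‖f z‖)
      (fun j => (hχm j).meas.mul hf.1) hf.norm (fun j => Eventually.of_forall fun z => ?_)
      (regT_ae_mem.mono fun z hz => ?_)
    · rw [norm_mul, Real.norm_of_nonneg (h01 j z).1]
      exact mul_le_of_le_one_left (norm_nonneg _) (h01 j z).2
    · refine tendsto_const_nhds.congr' ((h1 z hz).mono fun j hj => ?_)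
      simp only [hj, one_mul]
  have l1 := lim _ iρ
  have l2 := lim _ iρb
  rw [h0] at l2
  have hpos := S.integral_rho_pos
  set c : ℕ → ℝ := fun j => (∫ z in D, χ j z * (rho φ z * b z)) / ∫ z in D, χ j z * rho φ z with hc
  have l3 : Tendsto c atTop (𝓝 0) := by
    have := l2.div l1 hpos.ne'
    rw [zero_div] at this
    exact this
  refine ⟨fun j z => ((rho φ z * (b z - c j) * χ j z : ℝ) : ℂ), fun j => ?_, fun j => ?_, ?_,
    fun z hz => ?_⟩
  · refine contDiff_iff_contDiffAt.2 fun z => contDiffAt_ofReal' ?_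
    by_cases hz : z ∈ tsupport (χ j)
    · have hz' := hs j hz
      exact (((S.contDiffAt_deriv hz').norm_sq ℂ).mul
        ((hb.contDiffAt (isOpen_ball.mem_nhds hz')).sub contDiffAt_const)).mul (hχ j).contDiffAt
    · refine (contDiffAt_const (c := (0 : ℝ))).congr_of_eventuallyEq ?_
      filter_upwards [notMem_tsupport_iff_eventuallyEq.1 hz] with w hw
      rw [hw, Pi.zero_apply, mul_zero]
  · refine (closure_mono fun z hz => ?_).trans (hs j)
    intro h
    exact hz (by simp only [h, mul_zero, ofReal_zero])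
  · filter_upwards [l1.eventually (lt_mem_nhds hpos),
      l3.eventually (closedBall_mem_nhds (0 : ℝ) one_pos)] with j k1 k2
    refine ⟨?_, fun z hz => ?_⟩
    · have e : ∀ z, (((rho φ z * (b z - c j) * χ j z : ℝ) : ℂ)).re =
          χ j z * (rho φ z * b z) - c j * (χ j z * rho φ z) := fun z => by
        rw [ofReal_re]; ring
      simp_rw [e]
      rw [integral_sub ((hχm j).mul_integrableOn iρb) (((hχm j).mul_integrableOn iρ).const_mul _),
        integral_const_mul, hc]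
      simp only
      rw [div_mul_cancel₀ _ k1.ne', sub_self]
    · have k3 : |c j| ≤ 1 := by simpa using k2
      have k4 : |b z - c j| ≤ M + 1 := (abs_sub _ _).trans (add_le_add (hM z hz) k3)
      rw [Complex.norm_real, Real.norm_eq_abs, abs_mul, abs_mul, abs_of_nonneg (rho_nonneg φ z),
        abs_of_nonneg (h01 j z).1]
      calc rho φ z * |b z - c j| * χ j z ≤ rho φ z * (M + 1) * 1 := by
            have := rho_nonneg φ z
            have := (abs_nonneg _).trans k4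
            gcongr
            · exact (h01 j z).1
            · exact (h01 j z).2
        _ = _ := by ring
  · refine (continuous_ofReal.tendsto _).comp ?_
    have : Tendsto (fun j => rho φ z * (b z - c j)) atTop (𝓝 (rho φ z * (b z - 0))) :=
      (tendsto_const_nhds.sub l3).const_mul _
    rw [sub_zero] at this
    exact this.congr' ((h1 z hz).mono fun j hj => by simp only [hj, mul_one])

lemma rel_TT_tendsto {F : ℂ → ℂ} {ζ : ℕ → ℂ → ℂ} {w : ℂ → ℝ} (hw : Integrable w mD)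
    (hm : ∀ j, AEStronglyMeasurable (ζ j) mD) (hb : ∀ᶠ j in atTop, ∀ z ∈ D, ‖ζ j z‖ ≤ w z)
    (hl : ∀ z ∈ D, Tendsto (fun j => ζ j z) atTop (𝓝 (F z))) :
    ∀ᵐ y ∂mD, Tendsto (fun j => TT (ζ j) y) atTop (𝓝 (TT F y)) := by
  filter_upwards [regT_ae_mem, (regT_int_prod hw).prod_right_ae] with y hy hi
  refine tendsto_integral_filter_of_dominated_convergence (fun z => ‖y - z‖⁻¹ * w z)
    (Eventually.of_forall fun j => regT_tau_meas_right (hm j) y) (hb.mono fun j hj => ?_) hi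
    (regT_ae_mem.mono fun z hz => ?_)
  · filter_upwards [regT_ae_mem, mD.ae_ne y] with z hz hne
    exact (regT_tau_le _ (regT_D_sub hy) hz hne.symm).trans
      (mul_le_mul_of_nonneg_left (hj z hz) (by positivity))
  · exact (((hl z hz).div_const _).sub
      ((((continuous_conj.tendsto _).comp (hl z hz)).const_mul _).div_const _)).div_const _

lemma rel_dil {p : ℂ → ℂ} (hp : ∀ z ∈ D, ContinuousAt p z) (h0 : ∀ z ∈ D, p z ≠ 0)
    {K : ℕ → Set ℂ} (hK : ∀ j, IsClosed (K j)) (hKD : ∀ j, K j ⊆ D) :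
    ∃ t : ℕ → ℝ, Tendsto t atTop (𝓝 1) ∧
      ∀ j, 0 < t j ∧ t j < 1 ∧ ∀ z ∈ K j, ‖p (t j * z)‖ ≤ 2 * ‖p z‖ := by
  have h : ∀ j : ℕ, ∃ t : ℝ, 1 - 1 / ((j : ℝ) + 1) < t ∧ 0 < t ∧ t < 1 ∧
      ∀ z ∈ K j, ‖p (t * z)‖ ≤ 2 * ‖p z‖ := fun j => by
    have hc : IsCompact (K j) := (isCompact_closedBall (0 : ℂ) 1).of_isClosed_subset (hK j)
      ((hKD j).trans ball_subset_closedBall)
    have h1 : ∀ᶠ t : ℝ in 𝓝 1, ∀ z ∈ K j, ‖p (t * z)‖ ≤ 2 * ‖p z‖ := by
      refine hc.eventually_forall_of_forall_eventually fun z hz => ?_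
      have c1 : ContinuousAt (fun x : ℝ × ℂ => ‖p (x.1 * x.2)‖) (1, z) := by
        refine ContinuousAt.norm (ContinuousAt.comp (g := p) ?_ (by fun_prop))
        simpa using hp z (hKD j hz)
      have c2 : ContinuousAt (fun x : ℝ × ℂ => 2 * ‖p x.2‖) (1, z) :=
        (ContinuousAt.comp (g := p) (hp z (hKD j hz)) continuousAt_snd).norm.const_mul 2
      have := norm_pos_iff.2 (h0 z (hKD j hz))
      exact (c1.eventually_lt c2 (by simp only [ofReal_one, one_mul]; linarith)).mono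
        fun _ hx => hx.le
    have h2 : ∀ᶠ t : ℝ in 𝓝 1, 1 - 1 / ((j : ℝ) + 1) < t :=
      lt_mem_nhds (by have : 0 < 1 / ((j : ℝ) + 1) := by positivity
                      linarith)
    have h3 : ∀ᶠ t : ℝ in 𝓝 1, 0 < t := lt_mem_nhds one_pos
    obtain ⟨t, ⟨k1, k2, k3⟩, k4⟩ :=
      (((h1.and (h2.and h3)).filter_mono (nhdsWithin_le_nhds (s := Iio 1))).and
        self_mem_nhdsWithin).exists
    exact ⟨t, k2, k3, k4, k1⟩
  choose t h1 h2 using h
  refine ⟨t, ?_, h2⟩
  have h3 : Tendsto (fun j : ℕ => 1 - 1 / ((j : ℝ) + 1)) atTop (𝓝 (1 - 0)) :=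
    tendsto_const_nhds.sub tendsto_one_div_add_atTop_nhds_zero_nat
  rw [sub_zero] at h3
  exact tendsto_of_tendsto_of_tendsto_of_le_of_le h3 tendsto_const_nhds (fun j => (h1 j).le)
    fun j => (h2 j).2.1.le

theorem LMode.memLp_om (S : LAn φ) {v Φ : ℂ → ℂ} {a : ℂ → ℝ} (hm : LMode φ μ v Φ a) :
    MemLp (omL φ a) 2 (volume.restrict D) := by
  obtain ⟨P, κ, hP, hκ, hsec⟩ := S.sector
  set p : ℂ → ℂ := fun z => exp (P z) / deriv φ z with hp
  have ap : ∀ z ∈ D, AnalyticAt ℂ p z := fun z hz =>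
    (hP.analyticAt z).cexp.div (S.analyticAt_deriv hz) (S.ne z hz)
  have p0 : ∀ z ∈ D, p z ≠ 0 := fun z hz => div_ne_zero (exp_ne_zero _) (S.ne z hz)
  obtain ⟨q, Cq, hq, -, hCq, hcirc, -⟩ := sector_circle
    (fun z hz => (ap z hz).differentiableAt.differentiableWithinAt) p0 hκ hsec
  have psec : ∀ z ∈ D, ‖p z‖ ≤ (1 + κ) * (p z).re := fun z hz => by
    have h1 : |(p z).im| ≤ κ * (p z).re := hsec z hz
    have h2 : 0 ≤ (p z).re := (mul_nonneg_iff_of_pos_left hκ).1 ((abs_nonneg _).trans h1)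
    have h3 := norm_le_abs_re_add_abs_im (p z)
    rw [abs_of_nonneg h2] at h3
    linarith
  obtain ⟨C, hC⟩ := rel_key hq hCq (κ := 1 + κ) (by linarith)
  obtain ⟨B, hB, hTT⟩ := S.exists_TT_bound
  obtain ⟨E, hE0, hE⟩ := (BM.of_continuous (f := fun z => exp (P z)) hP.continuous.cexp).bdd'
  obtain ⟨M, hM⟩ := hm.bdd
  have eF : ∀ z, FR φ μ a z = rho φ z * -(μ * a z) := fun z => by rw [FR]; ring
  obtain ⟨ζ, hζ, hs, hev, hl⟩ := rel_approx S (b := fun z => -(μ * a z))
    (contDiffOn_const.mul hm.smooth).neg (M := |μ| * M)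
    (fun z hz => by
      rw [abs_neg, abs_mul]
      exact mul_le_mul_of_nonneg_left (hM z hz) (abs_nonneg _))
    (by simpa only [eF] using hm.mean)
  set L := |μ| * M + 1
  obtain ⟨t, ht, ht'⟩ := rel_dil (fun z hz => (ap z hz).continuousAt) p0
    (K := fun j => tsupport (ζ j)) (fun j => isClosed_tsupport _) hs
  have bζ : ∀ j, BM (ζ j) := fun j => BM.of_continuous (hζ j).continuous
  have lim := rel_TT_tendsto (F := fun y => (FR φ μ a y : ℂ)) (S.integrableOn_rho.const_mul L)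
    (fun j => (bζ j).meas) (hev.mono fun j hj => hj.2) (by simpa only [eF] using hl)
  have ag : ∀ j, ∀ z ∈ Db, AnalyticAt ℂ (fun w => p (t j * w)) z := fun j z hz =>
    AnalyticAt.comp (g := p) (f := fun w => t j * w)
      (ap _ (mul_mem_D_of_lt (ht' j).1 (ht' j).2.1 hz)) (analyticAt_const.mul analyticAt_id)
  set R := L ^ 2 * ∫ z in D, rho φ z with hRdef
  have key : ∀ᶠ j in atTop, ∫⁻ y in D, ‖TT (ζ j) y * p (t j * y)‖ₑ ^ 2 ≤
      ENNReal.ofReal (C * ((B + 4 * E ^ 2) * R)) := by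
    filter_upwards [hev] with j ⟨k1, k2⟩
    obtain ⟨t0, t1, t2⟩ := ht' j
    have n1 : ∀ z ∈ D, ‖ζ j z / deriv φ z‖ ≤ ‖L * deriv φ z‖ := fun z hz => by
      have hd := norm_pos_iff.2 (S.ne z hz)
      rw [norm_div, div_le_iff₀ hd, norm_mul, Complex.norm_real, mul_assoc, ← sq]
      exact (k2 z hz).trans (mul_le_mul_of_nonneg_right (le_abs_self L) (rho_nonneg φ z))
    have m1 : MemLp (fun z => ζ j z / deriv φ z) 2 mD :=
      (S.memLp_deriv.const_mul (L : ℂ)).of_le
        ((bζ j).meas.aemeasurable.div (measurable_deriv φ).aemeasurable).aestronglyMeasurable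
        (regT_ae_mem.mono n1)
    have n2 : ∫ z in D, ‖ζ j z / deriv φ z‖ ^ 2 ≤ R := by
      rw [hRdef, ← integral_const_mul]
      refine integral_mono_ae (integrableOn_norm_sq m1) (S.integrableOn_rho.const_mul _)
        (regT_ae_mem.mono fun z hz => ?_)
      refine (pow_le_pow_left₀ (norm_nonneg _) (n1 z hz) 2).trans (le_of_eq ?_)
      rw [norm_mul, mul_pow, Complex.norm_real, Real.norm_eq_abs, sq_abs]
      rfl
    have hR : 0 ≤ R := le_trans (integral_nonneg fun _ => by positivity) n2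
    have e1 : TT (fun y => deriv φ y * (ζ j y / deriv φ y)) = TT (ζ j) :=
      TT_congr (regT_ae_mem.mono fun z hz => mul_div_cancel₀ _ (S.ne z hz))
    have n3 := (hTT _ m1).2
    rw [e1] at n3
    obtain ⟨M', hM'⟩ := (bζ j).bdd
    refine hC (TT (ζ j)) (fun w => p (t j * w)) _
      (fun z hz => (TT_smooth (hζ j) (hs j) hz).1.of_le (by simp))
      (fun s hs => TT_tang (bζ j).meas hM' k1 hs) (ag j)
      (fun s hs => psec _ (mul_mem_D_of_lt t0 t1 (rel_S1_sub hs))) (hcirc _ t0 t1) ?_ ?_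
    · refine n3.trans ((mul_le_mul_of_nonneg_left n2 hB).trans ?_)
      exact mul_le_mul_of_nonneg_right (by nlinarith) hR
    · have n4 : ∫ z in D, ‖dB (TT (ζ j)) z * p (t j * z)‖ ^ 2 ≤
          ∫ z in D, 4 * E ^ 2 * ‖ζ j z / deriv φ z‖ ^ 2 := by
        refine integral_mono_of_nonneg (Eventually.of_forall fun _ => by positivity)
          ((integrableOn_norm_sq m1).const_mul _) (regT_ae_mem.mono fun z hz => ?_)
        have n5 : ‖ζ j z * p (t j * z)‖ ≤ 2 * E * ‖ζ j z / deriv φ z‖ := by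
          by_cases hz' : z ∈ tsupport (ζ j)
          · rw [norm_mul]
            refine (mul_le_mul_of_nonneg_left (t2 z hz') (norm_nonneg _)).trans ?_
            simp only [hp, norm_div]
            calc ‖ζ j z‖ * (2 * (‖exp (P z)‖ / ‖deriv φ z‖))
                = 2 * ‖exp (P z)‖ * (‖ζ j z‖ / ‖deriv φ z‖) := by ring
              _ ≤ _ := by gcongr; exact hE z hz
          · rw [image_eq_zero_of_notMem_tsupport hz']
            simp
        simp only [(TT_smooth (hζ j) (hs j) (regT_D_sub hz)).2]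
        refine (pow_le_pow_left₀ (norm_nonneg _) n5 2).trans (le_of_eq (by ring))
      rw [integral_const_mul] at n4
      refine n4.trans ((mul_le_mul_of_nonneg_left n2 (by positivity)).trans ?_)
      exact mul_le_mul_of_nonneg_right (by linarith) hR
  have meas : ∀ j, AEMeasurable (fun y => ‖TT (ζ j) y * p (t j * y)‖ₑ ^ 2) mD := fun j =>
    (sl_aesm (f := fun y => TT (ζ j) y * p (t j * y)) fun z hz =>
      ((TT_smooth (hζ j) (hs j) (regT_D_sub hz)).1.continuousAt.mul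
        (ag j z (regT_D_sub hz)).continuousAt).continuousWithinAt).enorm.pow_const 2
  have fat := (lintegral_liminf_le' (u := atTop) meas).trans
    (liminf_le_of_frequently_le' key.frequently)
  have e2 : ∀ᵐ y ∂mD, liminf (fun j => ‖TT (ζ j) y * p (t j * y)‖ₑ ^ 2) atTop =
      ‖dD (fun w => (a w : ℂ)) y * p y‖ₑ ^ (2 : ENNReal).toReal := by
    filter_upwards [regT_ae_mem, lim, hm.TT_eq] with y hy k1 k2
    have k3 : Tendsto (fun j => (t j : ℂ) * y) atTop (𝓝 y) := by
      simpa using ((continuous_ofReal.tendsto _).comp ht).mul_const y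
    have k4 := k1.mul ((ap y hy).continuousAt.tendsto.comp k3)
    rw [k2, ENNReal.toReal_ofNat, ENNReal.rpow_two]
    exact (ENNReal.Tendsto.pow k4.enorm).liminf_eq
  rw [lintegral_congr_ae e2] at fat
  have cD : ContinuousOn (dD fun w => (a w : ℂ)) D := fun z hz =>
    (contDiffAt_dD (m := 0) (contDiffAt_ofReal' (sl_contDiffAt hm.smooth hz))
      (by simp)).continuousAt.continuousWithinAt
  have m2 : MemLp (fun y => dD (fun w => (a w : ℂ)) y * p y) 2 mD :=
    ⟨sl_aesm (cD.mul fun z hz => (ap z hz).continuousAt.continuousWithinAt),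
      (eLpNorm_lt_top_iff_lintegral_rpow_enorm_lt_top (by simp) (by simp)).2
        (fat.trans_lt ENNReal.ofReal_lt_top)⟩
  have m3 := (BM.of_continuous (f := fun z => exp (-P z)) hP.continuous.neg.cexp).mul_memLp m2
  refine m3.ae_eq (Eventually.of_forall fun z => ?_)
  simp only [omL, hp, exp_neg]
  have := exp_ne_zero (P z)
  field_simp

end Vale.Agent.P071
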