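import Vale.Agent.P071L.Growth
import Vale.Agent.P071.Dense

/-!
# The sector property of the conformal map
-/

open Complex Metric Set Filter Topology MeasureTheory
open scoped ContDiff ComplexConjugate Real

namespace Vale.Agent.P071

/-- Functions with a continuous logarithm on the circle. -/
def SecLog (g : ℂ → ℂ) : Prop := ∃ l : ℂ → ℂ, ContinuousOn l S1 ∧ ∀ s ∈ S1, exp (l s) = g s

lemma sec_lift {H : ℝ → ℂ → ℂ} (hc : ContinuousOn (fun q : ℝ × ℂ => H q.1 q.2) (Icc 0 1 ×ˢ S1))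
    (h0 : ∀ t ∈ Icc (0 : ℝ) 1, ∀ s ∈ S1, H t s ≠ 0) (hl : SecLog (H 0)) : SecLog (H 1) := by
  classical
  obtain ⟨l, hl, hl'⟩ := hl
  let G : C(unitInterval × S1, {z : ℂ // z ≠ 0}) :=
    ⟨fun q => ⟨H q.1 q.2, h0 _ q.1.2 _ q.2.2⟩, Continuous.subtype_mk
      (hc.comp_continuous (f := fun q : unitInterval × S1 => ((q.1 : ℝ), (q.2 : ℂ)))
        (by fun_prop) fun q => ⟨q.1.2, q.2.2⟩) _⟩
  let F : C(S1, ℂ) := ⟨S1.domRestrict l, hl.domRestrict⟩
  have hG : ∀ a, G (0, a) = (⟨_, (F a).exp_ne_zero⟩ : {z : ℂ // z ≠ 0}) := fun a =>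
    Subtype.ext (hl' a a.2).symm
  let L := isCoveringMap_exp.liftHomotopy G F hG
  have hL := isCoveringMap_exp.liftHomotopy_lifts G F hG
  refine ⟨fun z => if h : z ∈ S1 then L (1, ⟨z, h⟩) else 0, ?_, fun s hs => ?_⟩
  · rw [continuousOn_iff_continuous_domRestrict]
    have e : (S1.domRestrict fun z => if h : z ∈ S1 then L (1, ⟨z, h⟩) else 0) =
        fun a : S1 => L (1, a) := funext fun a => dif_pos a.2
    rw [e]
    fun_prop
  · simp only [dif_pos hs]
    exact congrArg Subtype.val (congrFun hL (1, ⟨s, hs⟩))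

lemma sec_diag {E : ℂ × ℂ → ℝ} (hE : ContinuousOn E (Db ×ˢ S1)) (h : ∀ s ∈ S1, 0 < E (s, s)) :
    ∃ η : ℝ, 0 < η ∧ ∀ z ∈ Db, ∀ s ∈ S1, ‖z - s‖ < η → 0 < E (z, s) := by
  have hK : IsCompact (Db ×ˢ S1) := (isCompact_closedBall _ _).prod (isCompact_sphere _ _)
  have hA : IsCompact (Db ×ˢ S1 ∩ E ⁻¹' Iic 0) :=
    hK.of_isClosed_subset (hE.preimage_isClosed_of_isClosed hK.isClosed isClosed_Iic)
      inter_subset_left
  obtain ⟨η, hη, hη'⟩ := hA.exists_forall_le' (f := fun q : ℂ × ℂ => ‖q.1 - q.2‖) (by fun_prop)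
    (a := 0) fun q hq => by
      refine norm_pos_iff.2 (sub_ne_zero.2 fun he => ?_)
      have h1 := h q.2 hq.1.2
      have h2 : E (q.1, q.2) ≤ 0 := hq.2
      rw [he] at h2
      linarith
  refine ⟨η, hη, fun z hz s hs hzs => ?_⟩
  by_contra hc
  exact absurd (hη' (z, s) ⟨⟨hz, hs⟩, not_lt.1 hc⟩) (not_le.2 hzs)

lemma sec_poly {q : ℂ → ℂ} (hq : q ∈ densePoly) :
    ∃ P : ℂ → ℂ, Differentiable ℂ P ∧ ∀ s ∈ S1, (P s).im = (q s).re := by
  refine dense_induction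
    (P := fun q => ∃ P : ℂ → ℂ, Differentiable ℂ P ∧ ∀ s ∈ S1, (P s).im = (q s).re)
    ⟨fun _ => 0, differentiable_const _, fun _ _ => rfl⟩ ?_ ?_ hq
  · intro c a b
    rcases le_total b a with h | h
    · obtain ⟨k, rfl⟩ := Nat.exists_eq_add_of_le' h
      refine ⟨fun z => I * (c * z ^ k), by fun_prop, fun s hs => ?_⟩
      have h1 := dense_mon_sphere c k 0 b hs
      rw [zero_add] at h1
      rw [h1, I_mul_im, denseMon, pow_zero, mul_one]
    · obtain ⟨k, rfl⟩ := Nat.exists_eq_add_of_le' h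
      refine ⟨fun z => I * (conj c * z ^ k), by fun_prop, fun s hs => ?_⟩
      have h1 := dense_mon_sphere c 0 k a hs
      rw [zero_add] at h1
      rw [h1, I_mul_im, denseMon, pow_zero, one_mul, ← conj_re, map_mul, map_pow, conj_conj]
  · rintro f g ⟨P, h1, h2⟩ ⟨Q, h3, h4⟩
    exact ⟨fun z => P z + Q z, h1.add h3, fun s hs => by simp [h2 s hs, h4 s hs]⟩

variable {Ω : Set ℂ} {p : ℂ} {φ ψ σ f : ℂ → ℂ} {K t₀ : ℝ}

lemma sec_not_mem (hΩ : IsOpen Ω) {y : ℂ} (hy : y ∈ frontier Ω) : y ∉ Ω := by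
  rw [hΩ.frontier_eq] at hy
  exact hy.2

lemma sec_out (hΩ : IsOpen Ω) (hc : Cone Ω σ K t₀) {y : ℂ} (hy : y ∈ frontier Ω) {t : ℝ}
    (ht : 0 < t) (ht1 : t ≤ t₀) (ht2 : t * ‖σ y‖ ≤ t₀) : y - t * σ y ∉ closure Ω := by
  intro h
  have h1 := hc.mem y hy _ h (by
    rwa [sub_sub_cancel_left, norm_neg, norm_mul, norm_real, Real.norm_of_nonneg ht.le]) t
    (by simpa using ht) (by rwa [norm_real, Real.norm_of_nonneg ht.le])
  rw [sub_add_cancel] at h1
  exact sec_not_mem hΩ hy h1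

lemma sec_ne (hΩ : IsOpen Ω) (hc : Cone Ω σ K t₀) {y : ℂ} (hy : y ∈ frontier Ω) : σ y ≠ 0 := by
  intro h
  have h1 := sec_out hΩ hc hy hc.t_pos le_rfl (by simpa [h] using hc.t_pos.le)
  rw [h, mul_zero, sub_zero] at h1
  exact h1 (frontier_subset_closure hy)

lemma sec_S1 {s : ℂ} (hs : s ∈ S1) : s ∈ Db ∧ ‖s‖ = 1 ∧ s ≠ 0 := by
  have h := mem_sphere_zero_iff_norm.1 hs
  refine ⟨sphere_subset_closedBall hs, h, fun h0 => ?_⟩
  rw [h0, norm_zero] at h
  exact zero_ne_one h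

lemma sec_closure (h : LPair Ω p φ ψ) (hf1 : ∀ z ∈ D, f z = φ z)
    (hf2 : ∀ s ∈ S1, f s ∈ frontier Ω) {z : ℂ} (hz : z ∈ Db) : f z ∈ closure Ω := by
  rcases (regT_norm_le hz).eq_or_lt with h1 | h1
  · exact frontier_subset_closure (hf2 z (mem_sphere_zero_iff_norm.2 h1))
  · have h2 : z ∈ D := mem_ball_zero_iff.2 h1
    rw [hf1 z h2]
    exact subset_closure (h.maps h2)

lemma sec_mul_mem {t : ℝ} (ht : t ∈ Icc (0 : ℝ) 1) {s : ℂ} (hs : s ∈ S1) : (t : ℂ) * s ∈ Db := by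
  rw [mem_closedBall_zero_iff, norm_mul, (sec_S1 hs).2.1, mul_one, norm_real,
    Real.norm_of_nonneg ht.1]
  exact ht.2

/-- The outward field has the winding of the radial field. -/
lemma sec_log (h : LPair Ω p φ ψ) (hc : Cone Ω σ K t₀) (hf : ContinuousOn f Db)
    (hf1 : ∀ z ∈ D, f z = φ z) (hf2 : ∀ s ∈ S1, f s ∈ frontier Ω) :
    ∃ τ : ℝ, 0 < τ ∧ SecLog fun s => -(τ * σ (f s)) / s := by
  have h0D : (0 : ℂ) ∈ D := mem_ball_self one_pos
  have hev : f =ᶠ[𝓝 0] φ := mem_of_superset (isOpen_ball.mem_nhds h0D) hf1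
  have hf0 : f 0 ∈ Ω := hf1 0 h0D ▸ h.maps h0D
  have hg : ContinuousOn (dslope f 0) Db :=
    (continuousOn_dslope (closedBall_mem_nhds 0 one_pos)).2
      ⟨hf, (h.diff.differentiableAt (isOpen_ball.mem_nhds h0D)).congr_of_eventuallyEq hev⟩
  have hg0 : ∀ z ∈ Db, dslope f 0 z ≠ 0 := by
    intro z hz
    rcases eq_or_ne z 0 with rfl | hne
    · rw [dslope_same, hev.deriv_eq]
      exact h.deriv_ne h0D
    · rw [dslope_of_ne _ hne, slope_def_field]
      refine div_ne_zero (sub_ne_zero.2 fun he => ?_) (sub_ne_zero.2 hne)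
      rcases (regT_norm_le hz).eq_or_lt with h1 | h1
      · exact sec_not_mem h.isOpen (hf2 z (mem_sphere_zero_iff_norm.2 h1)) (he ▸ hf0)
      · have h2 : z ∈ D := mem_ball_zero_iff.2 h1
        rw [hf1 z h2, hf1 0 h0D] at he
        exact hne (by rw [← h.left z h2, he, h.left 0 h0D])
  have hmul : ContinuousOn (fun q : ℝ × ℂ => (q.1 : ℂ) * q.2) (Icc 0 1 ×ˢ S1) := by fun_prop
  obtain ⟨l, hl, hl'⟩ := sec_lift (H := fun t s => dslope f 0 (t * s))
    (hg.comp hmul fun q hq => sec_mul_mem hq.1 hq.2)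
    (fun t ht s hs => hg0 _ (sec_mul_mem ht hs))
    ⟨fun _ => log (dslope f 0 0), continuousOn_const, fun s _ => by
      simp only [exp_log (hg0 0 (regT_D_sub h0D)), ofReal_zero, zero_mul]⟩
  obtain ⟨M, hM⟩ := (isCompact_closedBall (0 : ℂ) 1).exists_bound_of_continuousOn
    (hc.cont.comp_continuousOn hf)
  have hM0 : 0 ≤ M := (norm_nonneg _).trans (hM 0 (regT_D_sub h0D))
  have ht₀ := hc.t_pos
  set τ := t₀ / (M + 1) with hτ
  have hτ0 : 0 < τ := by positivity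
  have hτ1 : τ * (M + 1) = t₀ := by rw [hτ]; field_simp
  have hfs : ContinuousOn (fun q : ℝ × ℂ => f q.2) (Icc 0 1 ×ˢ S1) :=
    hf.comp continuousOn_snd fun q hq => (sec_S1 hq.2).1
  obtain ⟨l₁, hl₁, hl₁'⟩ := sec_lift
    (H := fun t s => (f s - (t * τ : ℝ) * σ (f s) - f (t * s)) / s)
    (((hfs.sub (ContinuousOn.mul (by fun_prop) (hc.cont.comp_continuousOn hfs))).sub
      (hf.comp hmul fun q hq => sec_mul_mem hq.1 hq.2)).div continuousOn_snd
        fun q hq => (sec_S1 hq.2).2.2)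
    (fun t ht s hs => by
      refine div_ne_zero (sub_ne_zero.2 fun he => ?_) (sec_S1 hs).2.2
      rcases ht.1.eq_or_lt with h1 | h1
      · rw [← h1, zero_mul, ofReal_zero, zero_mul, zero_mul, sub_zero] at he
        exact sec_not_mem h.isOpen (hf2 s hs) (he ▸ hf0)
      · have h2 : t * τ ≤ τ := mul_le_of_le_one_left hτ0.le ht.2
        have h3 : ‖σ (f s)‖ ≤ M := hM s (sec_S1 hs).1
        refine sec_out h.isOpen hc (hf2 s hs) (mul_pos h1 hτ0) (by nlinarith) ?_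
          (he ▸ sec_closure h hf1 hf2 (sec_mul_mem ht hs))
        have := mul_le_mul h2 h3 (norm_nonneg _) hτ0.le
        nlinarith)
    ⟨l, hl, fun s hs => by
      rw [hl' s hs]
      simp only [ofReal_one, one_mul, zero_mul, ofReal_zero, sub_zero]
      rw [dslope_of_ne _ (sec_S1 hs).2.2, slope_def_field, sub_zero]⟩
  refine ⟨τ, hτ0, l₁, hl₁, fun s hs => ?_⟩
  rw [hl₁' s hs]
  simp only [ofReal_one, one_mul]
  ring

/-- Inward perturbations of the conformal map. -/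
lemma sec_maps (h : LPair Ω p φ ψ) (hc : Cone Ω σ K t₀) (hf : ContinuousOn f Db)
    (hf1 : ∀ z ∈ D, f z = φ z) (hf2 : ∀ s ∈ S1, f s ∈ frontier Ω) {Q : ℂ → ℂ} (hQ : Continuous Q)
    (hs : ∀ s ∈ S1, K * |(-(s * Q s) / σ (f s)).im| < (-(s * Q s) / σ (f s)).re) :
    ∃ t₁ : ℝ, 0 < t₁ ∧ ∀ t : ℝ, 0 < t → t ≤ t₁ → ∀ z ∈ D, φ z - t * (z * Q z) ∈ Ω := by
  have ht₀ := hc.t_pos
  have hf' : ContinuousOn (fun q : ℂ × ℂ => f q.1) (Db ×ˢ S1) :=
    hf.comp continuousOn_fst fun q hq => hq.1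
  have hf'' : ContinuousOn (fun q : ℂ × ℂ => f q.2) (Db ×ˢ S1) :=
    hf.comp continuousOn_snd fun q hq => (sec_S1 hq.2).1
  have hu : ContinuousOn (fun q : ℂ × ℂ => -(q.1 * Q q.1) / σ (f q.2)) (Db ×ˢ S1) :=
    ContinuousOn.div (by fun_prop) (hc.cont.comp_continuousOn hf'')
      fun q hq => sec_ne h.isOpen hc (hf2 _ hq.2)
  obtain ⟨η₀, hη₀, hη₁⟩ := sec_diag (E := fun q => min (t₀ - ‖f q.1 - f q.2‖)
    ((-(q.1 * Q q.1) / σ (f q.2)).re - K * |(-(q.1 * Q q.1) / σ (f q.2)).im|))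
    ((continuousOn_const.sub (hf'.sub hf'').norm).inf
      ((continuous_re.comp_continuousOn hu).sub
        (continuousOn_const.mul (continuous_im.comp_continuousOn hu).abs)))
    fun s hs' => lt_min (by simpa using ht₀) (sub_pos.2 (hs s hs'))
  obtain ⟨M, hM⟩ := ((isCompact_closedBall (0 : ℂ) 1).prod
    (isCompact_sphere (0 : ℂ) 1)).exists_bound_of_continuousOn hu
  obtain ⟨N, hN⟩ := (isCompact_closedBall (0 : ℂ) 1).exists_bound_of_continuousOn
    (f := fun z => z * Q z) (by fun_prop)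
  have hM0 : 0 ≤ M := (norm_nonneg _).trans (hM (0, 1) ⟨by simp, by simp⟩)
  have hN0 : 0 ≤ N := (norm_nonneg _).trans (hN 0 (by simp))
  set η := min η₀ (1 / 2) with hη
  have hη2 : 0 < η := lt_min hη₀ (by norm_num)
  have hη3 : η ≤ 1 / 2 := min_le_right _ _
  have hsub : closedBall (0 : ℂ) (1 - η) ⊆ D := closedBall_subset_ball (by linarith)
  obtain ⟨d, hd, hd'⟩ := ((isCompact_closedBall (0 : ℂ) (1 - η)).image_of_continuousOn
    (h.diff.continuousOn.mono hsub)).exists_thickening_subset_open h.isOpen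
      (by rintro _ ⟨z, hz, rfl⟩; exact h.maps (hsub hz))
  refine ⟨min (t₀ / (M + 1)) (d / (N + 1)), by positivity, fun t ht ht1 z hz => ?_⟩
  have ht2 : t * (M + 1) ≤ t₀ := (le_div_iff₀ (by positivity)).1 (ht1.trans (min_le_left _ _))
  have ht3 : t * (N + 1) ≤ d := (le_div_iff₀ (by positivity)).1 (ht1.trans (min_le_right _ _))
  rcases le_or_gt ‖z‖ (1 - η) with h1 | h1
  · refine hd' (mem_thickening_iff.2 ⟨φ z, ⟨z, mem_closedBall_zero_iff.2 h1, rfl⟩, ?_⟩)
    rw [dist_eq_norm, sub_sub_cancel_left, norm_neg, norm_mul, norm_real,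
      Real.norm_of_nonneg ht.le]
    have := mul_le_mul_of_nonneg_left (hN z (regT_D_sub hz)) ht.le
    linarith
  · have hz0 : 0 < ‖z‖ := by linarith
    have hz1 := regT_norm_lt hz
    have hz2 : ((‖z‖ : ℝ) : ℂ) ≠ 0 := ofReal_ne_zero.2 hz0.ne'
    set s : ℂ := z / (‖z‖ : ℝ) with hsd
    have hs1 : s ∈ S1 := by
      rw [mem_sphere_zero_iff_norm, hsd, norm_div, norm_real, norm_norm, div_self hz0.ne']
    have hs2 : ‖z - s‖ < η₀ := by
      have e : z - s = ((‖z‖ - 1 : ℝ) : ℂ) * s := by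
        rw [hsd]; push_cast; field_simp
      rw [e, norm_mul, (sec_S1 hs1).2.1, mul_one, norm_real, Real.norm_eq_abs,
        abs_of_neg (by linarith)]
      linarith [min_le_left η₀ (1 / 2)]
    have h2 := lt_min_iff.1 (hη₁ z (regT_D_sub hz) s hs1 hs2)
    have h3 := hM (z, s) ⟨regT_D_sub hz, hs1⟩
    simp only at h2 h3
    have h4 := hc.mem _ (hf2 s hs1) _ (subset_closure (h.maps hz))
      (by rw [← hf1 z hz]; linarith [h2.1]) (t * (-(z * Q z) / σ (f s)))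
      (by
        rw [im_ofReal_mul, re_ofReal_mul, abs_mul, abs_of_pos ht]
        nlinarith [mul_pos ht h2.2])
      (by
        rw [norm_mul, norm_real, Real.norm_of_nonneg ht.le]
        nlinarith [mul_le_mul_of_nonneg_left h3 ht.le])
    have h5 := sec_ne h.isOpen hc (hf2 s hs1)
    rwa [mul_assoc, div_mul_cancel₀ _ h5, mul_neg, ← sub_eq_add_neg] at h4

/-- The Schwarz lemma applied to inward perturbations. -/
lemma sec_schwarz (h : LPair Ω p φ ψ) {Q : ℂ → ℂ} (hQ : Differentiable ℂ Q) {t₁ : ℝ} (ht₁ : 0 < t₁)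
    (hm : ∀ t : ℝ, 0 < t → t ≤ t₁ → ∀ z ∈ D, φ z - t * (z * Q z) ∈ Ω) {z : ℂ} (hz : z ∈ D) :
    0 ≤ (Q z / deriv φ z).re := by
  have h0D : (0 : ℂ) ∈ D := mem_ball_self one_pos
  have main : ∀ z ∈ D, z ≠ 0 → 0 ≤ (Q z / deriv φ z).re := by
    intro z hz hne
    have h1 : ∀ t : ℝ, 0 < t → t ≤ t₁ → ‖ψ (φ z - t * (z * Q z))‖ ≤ ‖z‖ := fun t ht ht1 =>
      norm_le_norm_of_mapsTo_ball (f := fun w => ψ (φ w - t * (w * Q w))) (R := 1)
        (h.diff'.comp (h.diff.sub (by fun_prop)) (hm t ht ht1))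
        (fun w hw => regT_D_sub (h.maps' (hm t ht ht1 w hw)))
        (by simpa using h.left 0 h0D) (regT_norm_lt hz)
    have hφz := (h.diff.differentiableAt (isOpen_ball.mem_nhds hz)).hasDerivAt
    have hψz := (h.diff'.differentiableAt (h.isOpen.mem_nhds (h.maps hz))).hasDerivAt
    have h2 := (hψz.comp z hφz).deriv
    have h3 : (ψ ∘ φ) =ᶠ[𝓝 z] id := mem_of_superset (isOpen_ball.mem_nhds hz) h.left
    rw [h3.deriv_eq, deriv_id] at h2
    have h4 : HasDerivAt (fun w : ℂ => φ z - w * (z * Q z)) (-(z * Q z)) ((0 : ℝ) : ℂ) := by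
      simpa using ((hasDerivAt_id ((0 : ℝ) : ℂ)).mul_const (z * Q z)).const_sub (φ z)
    have h5 := (HasDerivAt.comp_of_eq _ hψz h4 (by simp)).mul_const (conj z)
    have h6 := h5.real_of_complex.tendsto_slope_zero_right
    have h7 := le_of_tendsto h6 (b := 0) (by
      filter_upwards [Ioc_mem_nhdsGT ht₁] with t ht
      refine smul_nonpos_of_nonneg_of_nonpos (inv_nonneg.2 ht.1.le) (sub_nonpos.2 ?_)
      simp only [Function.comp_apply, zero_add, ofReal_zero, zero_mul, sub_zero]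
      rw [h.left z hz, mul_conj_re_self]
      refine (re_le_norm _).trans ?_
      rw [norm_mul, Complex.norm_conj, sq]
      exact mul_le_mul_of_nonneg_right (h1 t ht.1 ht.2) (norm_nonneg _))
    have h8 : deriv ψ (φ z) * -(z * Q z) * conj z = -((‖z‖ ^ 2 : ℝ) * (Q z / deriv φ z)) := by
      have h9 := h.deriv_ne hz
      have h10 : deriv ψ (φ z) = (deriv φ z)⁻¹ := eq_inv_of_mul_eq_one_left h2.symm
      rw [h10, ← normSq_eq_norm_sq, ← mul_conj]
      field_simp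
    rw [h8, neg_re, re_ofReal_mul, neg_nonpos] at h7
    exact nonneg_of_mul_nonneg_right h7 (pow_pos (norm_pos_iff.2 hne) 2)
  rcases eq_or_ne z 0 with rfl | hne
  · have h1 : ContinuousAt (fun z => (Q z / deriv φ z).re) 0 :=
      continuous_re.continuousAt.comp (hQ.continuous.continuousAt.div
        (h.diff.analyticAt (isOpen_ball.mem_nhds h0D)).deriv.continuousAt (h.deriv_ne h0D))
    refine ge_of_tendsto (h1.tendsto.mono_left (nhdsWithin_le_nhds (s := {0}ᶜ))) ?_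
    filter_upwards [self_mem_nhdsWithin, nhdsWithin_le_nhds (isOpen_ball.mem_nhds h0D)] with w h2 h3
    exact main w h3 h2
  · exact main z hz hne

lemma sec_cone {K b β : ℝ} {w : ℂ} (hK : 0 ≤ K) (hb : 0 < b) (hbK : 4 * (K + 1) * b = 1)
    (hβ : |β| ≤ b) (hw : |w.im| ≤ b) :
    K * |((1 + β * I) * exp w).im| < ((1 + β * I) * exp w).re := by
  have h1 : ((1 + β * I) * exp w).re = Real.exp w.re * (Real.cos w.im - β * Real.sin w.im) := by
    simp [exp_re, exp_im]; ring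
  have h2 : ((1 + β * I) * exp w).im = Real.exp w.re * (Real.sin w.im + β * Real.cos w.im) := by
    simp [exp_re, exp_im]; ring
  have hb4 : b ≤ 1 / 4 := by nlinarith
  have h3 : |Real.sin w.im| ≤ b := Real.abs_sin_le_abs.trans hw
  have h4 : |Real.sin w.im + β * Real.cos w.im| ≤ 2 * b := by
    refine (abs_add_le _ _).trans ?_
    rw [abs_mul]
    have := mul_le_mul hβ (Real.abs_cos_le_one w.im) (abs_nonneg _) hb.le
    linarith
  have h5 : β * Real.sin w.im ≤ b * b := by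
    refine (le_abs_self _).trans ?_
    rw [abs_mul]
    exact mul_le_mul hβ h3 (abs_nonneg _) hb.le
  have h6 : 1 - w.im ^ 2 / 2 ≤ Real.cos w.im := Real.one_sub_sq_div_two_le_cos
  have h7 : w.im ^ 2 ≤ b ^ 2 := sq_le_sq' (abs_le.1 hw).1 (abs_le.1 hw).2
  have h8 := Real.exp_pos w.re
  rw [h1, h2, abs_mul, abs_of_pos h8, mul_left_comm]
  refine mul_lt_mul_of_pos_left ?_ h8
  have h9 := mul_le_mul_of_nonneg_left h4 hK
  nlinarith

theorem LPair.sector {Ω : Set ℂ} {p : ℂ} {φ ψ σ : ℂ → ℂ} {K t₀ : ℝ} (h : LPair Ω p φ ψ)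
    (hc : Cone Ω σ K t₀) : Sector φ := by
  obtain ⟨f, hf, hf1, hf2⟩ := h.exists_extension hc
  obtain ⟨τ, hτ, l, hl, hl'⟩ := sec_log h hc hf hf1 hf2
  have hK := hc.K_nonneg
  set b : ℝ := 1 / (4 * (K + 1)) with hb
  have hb0 : 0 < b := by positivity
  have hbK : 4 * (K + 1) * b = 1 := by rw [hb]; field_simp
  obtain ⟨q, hq, hq'⟩ := dense_uniform (isCompact_sphere (0 : ℂ) 1) (f := fun z => ((l z).im : ℂ))
    (continuous_ofReal.comp_continuousOn (continuous_im.comp_continuousOn hl)) hb0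
  obtain ⟨P, hP, hP'⟩ := sec_poly hq
  have key : ∀ β : ℝ, |β| ≤ b → ∀ z ∈ D, 0 ≤ ((1 + β * I) * exp (P z) / deriv φ z).re := by
    intro β hβ z hz
    have hQ : Differentiable ℂ fun z => (1 + β * I) * exp (P z) := hP.cexp.const_mul _
    obtain ⟨t₁, ht₁, hm⟩ := sec_maps h hc hf hf1 hf2 hQ.continuous fun s hs => by
      have h1 := sec_ne h.isOpen hc (hf2 s hs)
      have h2 := (sec_S1 hs).2.2
      have h3 : (τ : ℂ) ≠ 0 := ofReal_ne_zero.2 hτ.ne'
      have e : -(s * ((1 + β * I) * exp (P s))) / σ (f s) =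
          τ * ((1 + β * I) * exp (P s - l s)) := by
        rw [exp_sub, hl' s hs]
        field_simp
      have h4 : |(P s - l s).im| ≤ b := by
        have h5 := (abs_re_le_norm _).trans (hq' s hs)
        rwa [sub_re, ofReal_re, ← hP' s hs, abs_sub_comm, ← sub_im] at h5
      rw [e, im_ofReal_mul, re_ofReal_mul, abs_mul, abs_of_pos hτ, mul_left_comm]
      exact mul_lt_mul_of_pos_left (sec_cone hK hb0 hbK hβ h4) hτ
    exact sec_schwarz h hQ ht₁ hm hz
  refine ⟨P, 1 / b, hP, by positivity, fun z hz => ?_⟩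
  have h1 := key b (abs_of_pos hb0).le z hz
  have h2 := key (-b) (by rw [abs_neg, abs_of_pos hb0]) z hz
  rw [mul_div_assoc] at h1 h2
  generalize exp (P z) / deriv φ z = E at h1 h2
  simp only [mul_re, add_re, one_re, ofReal_re, I_re, mul_zero, ofReal_im, I_im,
    sub_zero, add_zero, one_mul, add_im, one_im, mul_im, mul_one, zero_add] at h1 h2
  rw [one_div, ← div_eq_inv_mul, le_div_iff₀ hb0, ← abs_of_pos hb0, ← abs_mul, abs_le]
  constructor <;> linarith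

end Vale.Agent.P071
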