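import Vale.Agent.P071L.Defs
import Vale.Agent.P071.BM
import Vale.Agent.P071.KernelDefs
import Vale.Agent.P071.RegT

/-!
# Lipschitz domains in disc coordinates: definitions
-/

open Complex Metric Set Filter Topology MeasureTheory
open scoped ContDiff ComplexConjugate Real

namespace Vale.Agent.P071

/-- A conformal parametrisation of a bounded open set by the unit disc. -/
structure LPair (Ω : Set ℂ) (p : ℂ) (φ ψ : ℂ → ℂ) : Prop where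
  isOpen : IsOpen Ω
  bounded : Bornology.IsBounded Ω
  diff : DifferentiableOn ℂ φ D
  diff' : DifferentiableOn ℂ ψ Ω
  maps : MapsTo φ D Ω
  maps' : MapsTo ψ Ω D
  left : ∀ z ∈ D, ψ (φ z) = z
  right : ∀ x ∈ Ω, φ (ψ x) = x
  zero : φ 0 = p

/-- Uniform cone condition along a continuous inward vector field `σ`. -/
structure Cone (Ω : Set ℂ) (σ : ℂ → ℂ) (K t₀ : ℝ) : Prop where
  cont : Continuous σ
  K_nonneg : 0 ≤ K
  t_pos : 0 < t₀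
  mem : ∀ y ∈ frontier Ω, ∀ x ∈ closure Ω, ‖x - y‖ ≤ t₀ → ∀ ζ : ℂ, K * |ζ.im| < ζ.re →
    ‖ζ‖ ≤ t₀ → x + ζ * σ y ∈ Ω

/-- Up to a nonvanishing entire factor, `1 / φ'` takes values in a sector of opening `< π`. -/
def Sector (φ : ℂ → ℂ) : Prop :=
  ∃ (P : ℂ → ℂ) (κ : ℝ), Differentiable ℂ P ∧ 0 < κ ∧
    ∀ z ∈ D, |(exp (P z) / deriv φ z).im| ≤ κ * (exp (P z) / deriv φ z).re

/-- Higher integrability of the conformal factor. -/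
def Lq (φ : ℂ → ℂ) : Prop :=
  ∃ δ : ℝ, 0 < δ ∧ δ < 1 / 2 ∧
    IntegrableOn (fun y => rho φ y ^ (1 + δ) * (1 - ‖y‖) ^ (-(2 * δ))) D

/-- A uniform bound for the Riesz potential of a weight. -/
def Riesz (w : ℂ → ℝ) (τ B : ℝ) : Prop :=
  ∀ x ∈ Db, IntegrableOn (fun y => w y * ‖y - x‖ ^ (-τ)) D ∧ ∫ y in D, w y * ‖y - x‖ ^ (-τ) ≤ B

/-- The part of a weight above the level `N`. -/
noncomputable def cut (w : ℂ → ℝ) (N : ℝ) (y : ℂ) : ℝ := if N < w y then w y else 0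

/-- Analytic properties of the conformal map. -/
structure LAn (φ : ℂ → ℂ) : Prop where
  diff : DifferentiableOn ℂ φ D
  ne : ∀ z ∈ D, deriv φ z ≠ 0
  bdd : ∃ B : ℝ, ∀ z ∈ D, ‖φ z‖ ≤ B
  sector : Sector φ
  kato : ∃ η B : ℝ, 0 < η ∧ η ≤ 1 ∧ Riesz (rho φ) η B ∧
    ∀ ε : ℝ, 0 < ε → ∃ N : ℝ, 0 ≤ N ∧ Riesz (cut (rho φ) N) η ε
  circ : Integrable (fun p : ℝ × ℂ => rho φ p.2 * ‖ec p.1 - p.2‖⁻¹) (mc.prod (volume.restrict D))
  good : ∃ τ B : ℝ, 0 < τ ∧ τ ≤ 1 ∧ Riesz (fun y => rho φ y * ‖y - 1‖⁻¹) τ B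

/-- The data of the Neumann problem in disc coordinates. -/
structure LSetup (φ : ℂ → ℂ) (μ : ℝ) : Prop extends LAn φ where
  mu_pos : 0 < μ
  poincare : ∀ a : ℂ → ℝ, ContDiffOn ℝ 1 a D → (∃ M : ℝ, ∀ z ∈ D, |a z| ≤ M) →
    MemLp (dx a) 2 (volume.restrict D) → MemLp (dy a) 2 (volume.restrict D) →
    ∫ z in D, rho φ z * a z = 0 →
    μ * ∫ z in D, rho φ z * a z ^ 2 ≤ ∫ z in D, (dx a z ^ 2 + dy a z ^ 2)
  weyl : ∀ f : ℂ → ℝ, AEStronglyMeasurable f (volume.restrict D) →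
    IntegrableOn (fun z => rho φ z * f z ^ 2) D →
    (∀ U : ℂ → ℝ, ContDiff ℝ ∞ U → HasCompactSupport U → tsupport U ⊆ D →
      ∫ z in D, f z * (lap U z + μ * rho φ z * U z) = 0) →
    ∃ a : ℂ → ℝ, ContDiffOn ℝ ∞ a D ∧ (∀ᵐ z ∂(volume.restrict D), f z = a z) ∧
      ∀ z ∈ D, lap a z = -(μ * rho φ z * a z)

/-- A bounded Neumann eigenfunction in disc coordinates. -/
structure LEigen (φ : ℂ → ℂ) (μ : ℝ) (a : ℂ → ℝ) : Prop where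
  smooth : ContDiffOn ℝ ∞ a D
  eq : ∀ z ∈ D, lap a z = -(μ * rho φ z * a z)
  bdd : ∃ M : ℝ, ∀ z ∈ D, |a z| ≤ M
  l2grad : MemLp (dD fun z => (a z : ℂ)) 2 (volume.restrict D)
  weak : ∀ b : ℂ → ℝ, Bdd1 b →
    ∫ z in D, (dx a z * dx b z + dy a z * dy b z) = μ * ∫ z in D, rho φ z * (a z * b z)

/-- The logarithmic potential with the Neumann kernel of the disc. -/
noncomputable def NN (F : ℂ → ℝ) (z : ℂ) : ℝ :=
  ∫ y in D, (Real.log ‖z - y‖ + Real.log ‖1 - z * conj y‖) / (2 * π) * F y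

/-- The Laplacian of a mode. -/
noncomputable def FR (φ : ℂ → ℂ) (μ : ℝ) (a : ℂ → ℝ) (y : ℂ) : ℝ := -(μ * rho φ y * a y)

/-- The gradient field of a mode as a potential; it makes sense at almost every boundary point. -/
noncomputable def VT (φ : ℂ → ℂ) (μ : ℝ) (a : ℂ → ℝ) : ℂ → ℂ := TT fun y => (FR φ μ a y : ℂ)

/-- A zero mode described by a bounded Neumann potential `a`. -/
structure LMode (φ : ℂ → ℂ) (μ : ℝ) (v Φ : ℂ → ℂ) (a : ℂ → ℝ) : Prop where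
  smooth : ContDiffOn ℝ ∞ a D
  bdd : ∃ M : ℝ, ∀ z ∈ D, |a z| ≤ M
  eq : ∀ z ∈ D, lap a z = FR φ μ a z
  mean : ∫ z in D, FR φ μ a z = 0
  v_eq : ∀ᵐ z ∂(volume.restrict D), v z = dD (fun w => (a w : ℂ)) z
  F_eq : ∀ᵐ z ∂(volume.restrict D), deriv φ z * Φ z = FR φ μ a z
  TT_eq : ∀ᵐ z ∂(volume.restrict D), dD (fun w => (a w : ℂ)) z = VT φ μ a z
  rep : ∃ c : ℝ, ∀ z ∈ D, a z = c + NN (FR φ μ a) z

/-- The gradient field in the original coordinates. -/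
noncomputable def omL (φ : ℂ → ℂ) (a : ℂ → ℝ) (z : ℂ) : ℂ :=
  dD (fun w => (a w : ℂ)) z / deriv φ z

/-- Bounded `H¹` limits of test functions. -/
structure UH (U : ℂ → ℂ) : Prop where
  l2D : MemLp (dD U) 2 (volume.restrict D)
  l2B : MemLp (dB U) 2 (volume.restrict D)
  approx : ∃ Us : ℕ → ℂ → ℂ, (∀ j, UC (Us j)) ∧ (∃ M : ℝ, ∀ j, ∀ z ∈ D, ‖Us j z‖ ≤ M) ∧
    (∀ z ∈ D, Tendsto (fun j => Us j z) atTop (𝓝 (U z))) ∧
    Tendsto (fun j => ∫ z in D, ‖dD (Us j) z - dD U z‖ ^ 2) atTop (𝓝 0) ∧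
    Tendsto (fun j => ∫ z in D, ‖dB (Us j) z - dB U z‖ ^ 2) atTop (𝓝 0)

/-- Kernel bounds which are uniform in the radius. -/
structure Unif (φ : ℂ → ℂ) (μ θ C η : ℝ) : Prop where
  η_pos : 0 < η
  C_pos : 0 < C
  pot : ∀ r : ℝ, 0 < r → r < 1 → ∃ A, Pot (nu φ μ r) A θ
  le : ∀ r : ℝ, 0 < r → r < 1 → ∀ p ∈ Db, ∀ q ∈ Db, p ≠ q → KK (nu φ μ r) p q ≤ C * K0 p q
  near : ∀ r : ℝ, 0 < r → r < 1 → ∀ s ∈ S1, ∀ t : ℂ, t ≠ 0 → ‖t‖ ≤ 1 / 4 →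
    |dd (nu φ μ r) s t - KK (nu φ μ r) 0 t| ≤ C * ‖t‖ ^ η * K0 0 t

/-- The radii used in the limit. -/
noncomputable def rj (j : ℕ) : ℝ := 1 - 1 / ((j : ℝ) + 1) / 4

/-- A fixed ultrafilter finer than `atTop`. -/
noncomputable def UF : Ultrafilter ℕ := Ultrafilter.of atTop

/-- The limit of the kernels `dd` along the ultrafilter. -/
noncomputable def dU (φ : ℂ → ℂ) (μ : ℝ) (p q : ℂ) : ℝ :=
  limUnder (UF : Filter ℕ) fun j => dd (nu φ μ (rj j)) p q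

end Vale.Agent.P071
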