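import Vale.Agent.P071L.Setup
import Vale.Agent.P071.Kernel0

/-!
# Singular integrals with general exponents
-/

open Complex Metric Set Filter Topology MeasureTheory
open scoped ContDiff ComplexConjugate Real

namespace Vale.Agent.P071

theorem sing_disc {a : ℝ} (ha0 : 0 ≤ a) (ha : a < 2) : ∃ I : ℝ, 0 ≤ I ∧ Riesz (fun _ => 1) a I := by
  have _ := ha0
  have h0 : IntegrableOn (fun y : ℂ => ‖y‖ ^ (-a)) (ball 0 2) := by
    refine integrableOn_ball_of_norm_le_rpow (C := 1) (α := a) (by simp) (by simpa using ha)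
      (Eventually.of_forall fun y => ?_)
      (by fun_prop : Measurable fun y : ℂ => ‖y‖ ^ (-a)).aestronglyMeasurable
    rw [one_mul, Real.norm_of_nonneg (by positivity)]
  refine ⟨∫ y in ball (0 : ℂ) 2, ‖y‖ ^ (-a), integral_nonneg fun y => by positivity,
    fun x hx => ?_⟩
  have hx' := regT_norm_le hx
  simp only [one_mul]
  have hI := (integrable_indicator_iff measurableSet_ball).2 h0
  have hI2 := hI.comp_sub_right x
  have e : (fun y => (ball (0 : ℂ) 2).indicator (fun y : ℂ => ‖y‖ ^ (-a)) (y - x)) =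
      (ball x 2).indicator fun y : ℂ => ‖y - x‖ ^ (-a) := by
    funext y
    have : y - x ∈ ball (0 : ℂ) 2 ↔ y ∈ ball x 2 := by simp [dist_eq_norm]
    by_cases h : y ∈ ball x 2
    · rw [indicator_of_mem h, indicator_of_mem (this.2 h)]
    · rw [indicator_of_notMem h, indicator_of_notMem fun h' => h (this.1 h')]
  have hsub : D ⊆ ball x 2 := fun y hy => by
    have := mem_ball_zero_iff.1 hy
    rw [mem_ball, dist_eq_norm]
    linarith [norm_sub_le y x]
  rw [e] at hI2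
  have h1 := (integrable_indicator_iff measurableSet_ball).1 hI2
  refine ⟨h1.mono_set hsub, ?_⟩
  rw [← integral_indicator (s := ball (0 : ℂ) 2) measurableSet_ball,
    ← integral_sub_right_eq_self ((ball (0 : ℂ) 2).indicator _) x, e,
    integral_indicator measurableSet_ball]
  exact setIntegral_mono_set h1 (Eventually.of_forall fun y => by positivity) hsub.eventuallyLE

lemma sing_ec_sub_one {s : ℝ} (hs : |s| ≤ π) : 2 / π * |s| ≤ ‖ec s - 1‖ := by
  have e : ec s = exp (I * s) := by simp [circleMap, mul_comm]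
  rw [e, Complex.norm_exp_I_mul_ofReal_sub_one, norm_mul, Real.norm_eq_abs, Real.norm_eq_abs]
  have := Real.mul_abs_le_abs_sin (x := s / 2) (by rw [abs_div, abs_two]; linarith)
  rw [abs_div, abs_two] at this
  rw [abs_two]
  linarith

lemma sing_ec_int {b : ℝ} (hb0 : 0 ≤ b) (hb : b < 1) :
    IntervalIntegrable (fun s : ℝ => ‖ec s - 1‖ ^ (-b)) volume (-π) π := by
  have hpi := Real.pi_pos
  have h0 : IntegrableOn (fun y : ℝ => (2 / π) ^ (-b) * ‖y‖ ^ (-b)) (ball 0 4) := by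
    refine integrableOn_ball_of_norm_le_rpow (C := (2 / π) ^ (-b)) (α := b) (by simp)
      (by simpa using hb) (Eventually.of_forall fun y => ?_)
      (by fun_prop : Measurable fun y : ℝ => (2 / π) ^ (-b) * ‖y‖ ^ (-b)).aestronglyMeasurable
    rw [Real.norm_of_nonneg (by positivity)]
  rw [intervalIntegrable_iff_integrableOn_Ioc_of_le (by linarith)]
  have hsub : Ioc (-π) π ⊆ ball (0 : ℝ) 4 := fun s hs => by
    rw [mem_ball_zero_iff, Real.norm_eq_abs, abs_lt]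
    have := Real.pi_lt_four
    constructor <;> linarith [hs.1, hs.2]
  refine Integrable.mono' (h0.mono_set hsub)
    (by fun_prop : Measurable fun s : ℝ => ‖ec s - 1‖ ^ (-b)).aestronglyMeasurable ?_
  filter_upwards [ae_restrict_mem measurableSet_Ioc, mc.ae_ne 0] with s hs hs0
  rw [Real.norm_of_nonneg (by positivity), Real.norm_eq_abs,
    ← Real.mul_rpow (by positivity) (abs_nonneg _)]
  exact Real.rpow_le_rpow_of_nonpos (mul_pos (by positivity) (abs_pos.2 hs0))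
    (sing_ec_sub_one (abs_le.2 ⟨hs.1.le, hs.2⟩)) (by linarith)

theorem sing_circle {b : ℝ} (hb0 : 0 ≤ b) (hb : b < 1) : ∃ I : ℝ, 0 ≤ I ∧ ∀ z ∈ Db,
    Integrable (fun s => ‖ec s - z‖ ^ (-b)) mc ∧ ∫ s, ‖ec s - z‖ ^ (-b) ∂mc ≤ I := by
  have hpi := Real.pi_pos
  set g : ℝ → ℝ := fun s => ‖ec s - 1‖ ^ (-b) with hg
  have hper : Function.Periodic g (2 * π) := fun s => by
    simp only [hg, periodic_circleMap 0 1 s]
  have hint : ∀ t u, IntervalIntegrable g volume t u := by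
    refine hper.intervalIntegrable (t := -π) (by positivity) ?_
    rw [show -π + 2 * π = π by ring]
    exact sing_ec_int hb0 hb
  refine ⟨2 * ∫ s in (-π)..π, g s, mul_nonneg zero_le_two
    (intervalIntegral.integral_nonneg (by linarith) fun s _ => by positivity), fun z hz => ?_⟩
  have hz' := regT_norm_le hz
  set a := arg z with ha
  have h1 : Integrable (fun s => 2 * g (s - a)) mc := by
    have := (hint (-π - a) (π - a)).comp_sub_right a
    simp only [sub_add_cancel] at this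
    exact ((intervalIntegrable_iff_integrableOn_Ioc_of_le (by linarith)).1 this).const_mul 2
  have hle : ∀ᵐ s ∂mc, ‖ec s - z‖ ^ (-b) ≤ 2 * g (s - a) := by
    filter_upwards [ae_restrict_mem measurableSet_Ioc, mc.ae_ne a] with s hs hsa
    have e1 : ‖ec (s - a) - 1‖ = ‖ec s - ec a‖ := by
      have : ec s - ec a = (ec (s - a) - 1) * ec a := by
        simp only [circleMap, zero_add, ofReal_one, one_mul, sub_mul, ← Complex.exp_add]
        congr 2; push_cast; ring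
      rw [this, norm_mul, norm_circleMap_zero, abs_one, mul_one]
    have e2 : ‖z - ec a‖ = 1 - ‖z‖ := by
      have : z - ec a = ((‖z‖ - 1 : ℝ) : ℂ) * ec a := by
        conv_lhs => rw [← norm_mul_exp_arg_mul_I z]
        simp only [circleMap, zero_add, ofReal_one, one_mul]
        push_cast; ring
      rw [this, norm_mul, norm_circleMap_zero, abs_one, mul_one, Complex.norm_real,
        Real.norm_eq_abs, abs_of_nonpos (by linarith)]
      ring
    have e3 : 1 - ‖z‖ ≤ ‖ec s - z‖ := by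
      have := norm_sub_norm_le (ec s) z
      rwa [norm_circleMap_zero, abs_one] at this
    have e4 : ‖ec s - ec a‖ / 2 ≤ ‖ec s - z‖ := by
      have := norm_sub_le_norm_sub_add_norm_sub (ec s) z (ec a)
      linarith
    have e5 : 0 < ‖ec s - ec a‖ := by
      refine norm_pos_iff.2 (sub_ne_zero.2 fun h => hsa ?_)
      refine eq_of_circleMap_eq one_ne_zero ?_ h
      have := arg_mem_Ioc z
      rw [abs_lt]
      constructor <;> linarith [hs.1, hs.2, this.1, this.2]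
    simp only [hg]
    rw [e1]
    calc ‖ec s - z‖ ^ (-b) ≤ (‖ec s - ec a‖ / 2) ^ (-b) :=
          Real.rpow_le_rpow_of_nonpos (by positivity) e4 (by linarith)
      _ = 2 ^ b * ‖ec s - ec a‖ ^ (-b) := by
          rw [Real.div_rpow e5.le zero_le_two, Real.rpow_neg zero_le_two, div_inv_eq_mul, mul_comm]
      _ ≤ 2 * ‖ec s - ec a‖ ^ (-b) := by
          gcongr
          calc (2 : ℝ) ^ b ≤ 2 ^ (1 : ℝ) := Real.rpow_le_rpow_of_exponent_le one_le_two hb.le
            _ = 2 := Real.rpow_one 2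
  have h2 : Integrable (fun s => ‖ec s - z‖ ^ (-b)) mc := by
    refine h1.mono' (by fun_prop : Measurable fun s : ℝ => ‖ec s - z‖ ^ (-b)).aestronglyMeasurable
      (hle.mono fun s hs => ?_)
    rwa [Real.norm_of_nonneg (by positivity)]
  refine ⟨h2, (integral_mono_ae h2 h1 hle).trans (le_of_eq ?_)⟩
  rw [integral_const_mul, ← intervalIntegral.integral_of_le (by linarith),
    intervalIntegral.integral_comp_sub_right]
  have := hper.intervalIntegral_add_eq (-π - a) (-π)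
  rw [show -π - a + 2 * π = π - a by ring, show -π + 2 * π = π by ring] at this
  rw [this]

theorem sing_collar {b : ℝ} (hb : b < 1) : IntegrableOn (fun y : ℂ => (1 - ‖y‖) ^ (-b)) D := by
  refine (integrableOn_fun_norm_addHaar volume (f := fun r : ℝ => (1 - r) ^ (-b))).2 ?_
  have h1 := (intervalIntegral.intervalIntegrable_rpow' (r := -b) (a := 1) (b := 0)
    (by linarith)).comp_sub_left 1
  simp only [sub_self, sub_zero] at h1
  have h2 := h1.continuousOn_mul (g := fun y : ℝ => y ^ (Module.finrank ℝ ℂ - 1)) (by fun_prop)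
  exact ((intervalIntegrable_iff_integrableOn_Ioo_of_le zero_le_one).1 h2)

lemma sing_split_aux {τ u v d : ℝ} (h0 : 0 ≤ τ) (h1 : τ ≤ 1) (hu : 0 < u) (huv : u ≤ v)
    (hd : 0 < d) (h : d ≤ u + v) : u⁻¹ * v⁻¹ ≤ 2 * d ^ (-τ) * u ^ (-(2 - τ)) := by
  have hv : 0 < v := hu.trans_le huv
  have e1 : v⁻¹ = v ^ (-(1 - τ)) * v ^ (-τ) := by
    rw [← Real.rpow_add hv, ← Real.rpow_neg_one]; congr 1; ring
  have e2 : u ^ (-(2 - τ)) = u⁻¹ * u ^ (-(1 - τ)) := by
    rw [← Real.rpow_neg_one, ← Real.rpow_add hu]; congr 1; ring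
  have h2 : v ^ (-(1 - τ)) ≤ u ^ (-(1 - τ)) := Real.rpow_le_rpow_of_nonpos hu huv (by linarith)
  have h3 : v ^ (-τ) ≤ 2 * d ^ (-τ) := by
    calc v ^ (-τ) ≤ (d / 2) ^ (-τ) :=
          Real.rpow_le_rpow_of_nonpos (by positivity) (by linarith) (by linarith)
      _ = 2 ^ τ * d ^ (-τ) := by
          rw [Real.div_rpow hd.le zero_le_two, Real.rpow_neg zero_le_two, div_inv_eq_mul, mul_comm]
      _ ≤ 2 * d ^ (-τ) := by
          gcongr
          calc (2 : ℝ) ^ τ ≤ 2 ^ (1 : ℝ) := Real.rpow_le_rpow_of_exponent_le one_le_two h1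
            _ = 2 := Real.rpow_one 2
  rw [e1, e2]
  calc u⁻¹ * (v ^ (-(1 - τ)) * v ^ (-τ)) ≤ u⁻¹ * (u ^ (-(1 - τ)) * (2 * d ^ (-τ))) := by gcongr
    _ = _ := by ring

/-- Splitting a product of two simple poles. -/
lemma sing_split {τ : ℝ} (h0 : 0 ≤ τ) (h1 : τ ≤ 1) {a b y : ℂ} (hab : a ≠ b) :
    ‖y - a‖⁻¹ * ‖y - b‖⁻¹ ≤ 2 * ‖a - b‖ ^ (-τ) *
      (‖y - a‖ ^ (-(2 - τ)) + ‖y - b‖ ^ (-(2 - τ))) := by
  have hd : 0 < ‖a - b‖ := norm_pos_iff.2 (sub_ne_zero.2 hab)
  rcases eq_or_lt_of_le (norm_nonneg (y - a)) with hu | hu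
  · rw [← hu, inv_zero, zero_mul]; positivity
  rcases eq_or_lt_of_le (norm_nonneg (y - b)) with hv | hv
  · rw [← hv, inv_zero, mul_zero]; positivity
  have htri : ‖a - b‖ ≤ ‖y - a‖ + ‖y - b‖ := by
    have := norm_sub_le (y - b) (y - a)
    rw [show y - b - (y - a) = a - b by ring] at this
    linarith
  rw [mul_add]
  rcases le_total ‖y - a‖ ‖y - b‖ with h | h
  · have := sing_split_aux h0 h1 hu h hd htri
    have h2 : 0 ≤ 2 * ‖a - b‖ ^ (-τ) * ‖y - b‖ ^ (-(2 - τ)) := by positivity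
    linarith
  · have := sing_split_aux h0 h1 hv h hd (by linarith)
    have h2 : 0 ≤ 2 * ‖a - b‖ ^ (-τ) * ‖y - a‖ ^ (-(2 - τ)) := by positivity
    linarith

lemma sing_log {τ : ℝ} (h0 : 0 < τ) (h1 : τ ≤ 1) {t : ℝ} (ht : 0 < t) (ht2 : t ≤ 2) :
    |Real.log t| ≤ 2 / τ * t ^ (-τ) := by
  have hp : 0 < t ^ (-τ) := by positivity
  rcases le_total t 1 with h | h
  · rw [abs_of_nonpos (Real.log_nonpos ht.le h), ← Real.log_inv]
    have := Real.log_le_rpow_div (inv_nonneg.2 ht.le) h0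
    rw [Real.inv_rpow ht.le, ← Real.rpow_neg ht.le] at this
    refine this.trans ?_
    rw [div_mul_eq_mul_div]
    gcongr
    linarith
  · rw [abs_of_nonneg (Real.log_nonneg h)]
    have h3 := Real.log_le_sub_one_of_pos ht
    have h4 : (2 : ℝ)⁻¹ ≤ t ^ (-τ) := by
      calc (2 : ℝ)⁻¹ = 2 ^ (-1 : ℝ) := (Real.rpow_neg_one 2).symm
        _ ≤ 2 ^ (-τ) := Real.rpow_le_rpow_of_exponent_le one_le_two (by linarith)
        _ ≤ t ^ (-τ) := Real.rpow_le_rpow_of_nonpos ht ht2 (by linarith)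
    have h5 : 2 ≤ 2 / τ := by rw [le_div_iff₀ h0]; linarith
    nlinarith

lemma sing_log_one_add {τ x : ℝ} (h0 : 0 < τ) (h1 : τ ≤ 1) (hx : 0 ≤ x) :
    Real.log (1 + x) ≤ x ^ τ / τ := by
  rw [le_div_iff₀ h0, mul_comm, ← Real.log_rpow (by linarith)]
  have h2 := Real.log_le_sub_one_of_pos (show 0 < (1 + x) ^ τ by positivity)
  have h3 := Real.rpow_add_le_add_rpow zero_le_one hx h0.le h1
  rw [Real.one_rpow] at h3
  linarith

lemma sing_log_sub_aux {τ : ℝ} (h0 : 0 < τ) (h1 : τ ≤ 1) {a b r : ℝ} (hb : 0 < b) (hab : b ≤ a)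
    (h : a - b ≤ r) : Real.log a - Real.log b ≤ r ^ τ / τ * b ^ (-τ) := by
  have ha : 0 < a := hb.trans_le hab
  have hr : 0 ≤ r := by linarith
  rw [← Real.log_div ha.ne' hb.ne']
  calc Real.log (a / b) ≤ Real.log (1 + r / b) := by
        refine Real.log_le_log (by positivity) ?_
        rw [div_le_iff₀ hb, add_mul, div_mul_cancel₀ _ hb.ne']; linarith
    _ ≤ (r / b) ^ τ / τ := sing_log_one_add h0 h1 (by positivity)
    _ = r ^ τ / τ * b ^ (-τ) := by
        rw [Real.div_rpow hr hb.le, Real.rpow_neg hb.le]; ring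

lemma sing_log_sub {τ : ℝ} (h0 : 0 < τ) (h1 : τ ≤ 1) {a b r : ℝ} (ha : 0 < a) (hb : 0 < b)
    (h : |a - b| ≤ r) : |Real.log a - Real.log b| ≤ r ^ τ / τ * (a ^ (-τ) + b ^ (-τ)) := by
  have hr : 0 ≤ r := (abs_nonneg _).trans h
  have h2 : 0 ≤ r ^ τ / τ * a ^ (-τ) := by positivity
  have h3 : 0 ≤ r ^ τ / τ * b ^ (-τ) := by positivity
  rw [mul_add]
  rcases le_total b a with hab | hab
  · rw [abs_of_nonneg (sub_nonneg.2 (Real.log_le_log hb hab))]
    have := sing_log_sub_aux h0 h1 hb hab ((le_abs_self _).trans h)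
    linarith
  · rw [abs_sub_comm] at h
    rw [abs_sub_comm, abs_of_nonneg (sub_nonneg.2 (Real.log_le_log ha hab))]
    have := sing_log_sub_aux h0 h1 ha hab ((le_abs_self _).trans h)
    linarith

lemma G0_le_rpow {τ : ℝ} (h0 : 0 < τ) (h1 : τ ≤ 1) {x y : ℂ} (hx : x ∈ Db) (hy : y ∈ Db) :
    G0 x y ≤ 1 / τ * ‖y - x‖ ^ (-τ) := by
  rcases eq_or_ne x y with rfl | hxy
  · simp only [G0, sub_self, norm_zero]
    norm_num
    positivity
  have hr : 0 < ‖x - y‖ := norm_pos_iff.2 (sub_ne_zero.2 hxy)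
  rw [norm_sub_rev y x]
  have hd : dl x * dl y ≤ 1 := mul_le_one₀ (dl_le_one x) (dl_nonneg hy) (dl_le_one y)
  have ha := kern0_arg_nonneg hx hy
  have h2 := sing_log_one_add (τ := τ / 2) (by positivity) (by linarith) ha
  have h3 : (dl x * dl y / ‖x - y‖ ^ 2) ^ (τ / 2) ≤ ‖x - y‖ ^ (-τ) := by
    calc (dl x * dl y / ‖x - y‖ ^ 2) ^ (τ / 2) ≤ (‖x - y‖ ^ (-2 : ℝ)) ^ (τ / 2) := by
          refine Real.rpow_le_rpow ha ?_ (by positivity)
          rw [Real.rpow_neg hr.le, Real.rpow_two, ← one_div]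
          gcongr
      _ = ‖x - y‖ ^ (-τ) := by rw [← Real.rpow_mul hr.le]; congr 1; ring
  unfold G0
  rw [div_le_iff₀ (by positivity)]
  have hpi := Real.pi_gt_three
  have hp : 0 < ‖x - y‖ ^ (-τ) / τ := by positivity
  calc _ ≤ ‖x - y‖ ^ (-τ) / (τ / 2) := h2.trans (by gcongr)
    _ = 2 * (‖x - y‖ ^ (-τ) / τ) := by field_simp
    _ ≤ 4 * π * (‖x - y‖ ^ (-τ) / τ) := by gcongr; linarith
    _ = _ := by ring

lemma sing_riesz_aux {w : ℂ → ℝ} {τ τ' B : ℝ} (h : Riesz w τ B) (h1 : τ' ≤ τ)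
    (h2 : τ - τ' ≤ 1) (hm : Measurable w) (hw : ∀ y ∈ D, 0 ≤ w y) : Riesz w τ' (2 * B) := by
  intro x hx
  obtain ⟨hi, hB⟩ := h x hx
  have hle : ∀ᵐ y ∂mD, w y * ‖y - x‖ ^ (-τ') ≤ 2 * (w y * ‖y - x‖ ^ (-τ)) := by
    filter_upwards [regT_ae_mem, mD.ae_ne x] with y hy hyx
    have hr : 0 < ‖y - x‖ := norm_pos_iff.2 (sub_ne_zero.2 hyx)
    have hr2 := kern0_norm_sub_le (regT_D_sub hy) hx
    have e : ‖y - x‖ ^ (-τ') = ‖y - x‖ ^ (τ - τ') * ‖y - x‖ ^ (-τ) := by
      rw [← Real.rpow_add hr]; congr 1; ring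
    have h3 : ‖y - x‖ ^ (τ - τ') ≤ 2 := by
      calc ‖y - x‖ ^ (τ - τ') ≤ 2 ^ (τ - τ') := Real.rpow_le_rpow hr.le hr2 (by linarith)
        _ ≤ 2 ^ (1 : ℝ) := Real.rpow_le_rpow_of_exponent_le one_le_two h2
        _ = 2 := Real.rpow_one 2
    have h4 := hw y hy
    rw [e]
    calc w y * (‖y - x‖ ^ (τ - τ') * ‖y - x‖ ^ (-τ)) ≤ w y * (2 * ‖y - x‖ ^ (-τ)) := by gcongr
      _ = _ := by ring
  have h5 : Integrable (fun y => w y * ‖y - x‖ ^ (-τ')) mD := by
    refine (Integrable.const_mul hi 2).mono'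
      (by fun_prop : Measurable fun y => w y * ‖y - x‖ ^ (-τ')).aestronglyMeasurable ?_
    filter_upwards [hle, regT_ae_mem] with y hy hy'
    have := hw y hy'
    rwa [Real.norm_of_nonneg (by positivity)]
  refine ⟨h5, (integral_mono_ae h5 (Integrable.const_mul hi 2) hle).trans ?_⟩
  rw [integral_const_mul]
  linarith

lemma Riesz.integrableOn {w : ℂ → ℝ} {τ B : ℝ} (h : Riesz w τ B) (h0 : 0 ≤ τ) (h1 : τ ≤ 1)
    (hm : Measurable w) (hw : ∀ y ∈ D, 0 ≤ w y) : IntegrableOn w D ∧ ∫ y in D, w y ≤ 2 * B := by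
  have := sing_riesz_aux (τ' := 0) h h0 (by linarith) hm hw 0 kern0_zero_mem
  simpa using this

lemma Riesz.mono {w : ℂ → ℝ} {τ τ' B : ℝ} (h : Riesz w τ B) (h0 : 0 ≤ τ') (h1 : τ' ≤ τ)
    (h2 : τ ≤ 1) (hm : Measurable w) (hw : ∀ y ∈ D, 0 ≤ w y) : Riesz w τ' (2 * B) :=
  sing_riesz_aux h h1 (by linarith) hm hw

lemma sing_two_poles {τ : ℝ} (h0 : 0 < τ) (h1 : τ ≤ 1) : ∃ J : ℝ, 0 ≤ J ∧ ∀ x ∈ Db, ∀ y ∈ Db,
    y ≠ x → Integrable (fun z => ‖z - y‖⁻¹ * ‖z - x‖⁻¹) mD ∧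
      ∫ z, ‖z - y‖⁻¹ * ‖z - x‖⁻¹ ∂mD ≤ J * ‖y - x‖ ^ (-τ) := by
  obtain ⟨I, hI0, hI⟩ := sing_disc (a := 2 - τ) (by linarith) (by linarith)
  refine ⟨4 * I, by positivity, fun x hx y hy hyx => ?_⟩
  obtain ⟨a1, a2⟩ := hI x hx
  obtain ⟨b1, b2⟩ := hI y hy
  simp only [one_mul] at a1 a2 b1 b2
  have hg : Integrable (fun z => 2 * ‖y - x‖ ^ (-τ) *
      (‖z - y‖ ^ (-(2 - τ)) + ‖z - x‖ ^ (-(2 - τ)))) mD := (Integrable.add b1 a1).const_mul _
  have h2 : Integrable (fun z => ‖z - y‖⁻¹ * ‖z - x‖⁻¹) mD := by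
    refine hg.mono' (by fun_prop : Measurable fun z : ℂ => ‖z - y‖⁻¹ * ‖z - x‖⁻¹).aestronglyMeasurable
      (Eventually.of_forall fun z => ?_)
    rw [Real.norm_of_nonneg (by positivity)]
    exact sing_split h0.le h1 hyx
  refine ⟨h2, (integral_mono h2 hg fun z => sing_split h0.le h1 hyx).trans ?_⟩
  rw [integral_const_mul, integral_add b1 a1]
  have : 0 ≤ ‖y - x‖ ^ (-τ) := by positivity
  nlinarith

/-- The Newtonian potential of a weight with bounded Riesz potential is square integrable. -/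
theorem Riesz.memLp_pot {w : ℂ → ℝ} {τ B : ℝ} (h : Riesz w τ B) (h0 : 0 < τ) (h1 : τ ≤ 1)
    (hm : Measurable w) (hw : ∀ y ∈ D, 0 ≤ w y) :
    (∀ᵐ z ∂(volume.restrict D), IntegrableOn (fun y => w y * ‖z - y‖⁻¹) D) ∧
      MemLp (fun z => ∫ y in D, w y * ‖z - y‖⁻¹) 2 (volume.restrict D) ∧
      ∀ x ∈ Db, IntegrableOn (fun z => (∫ y in D, w y * ‖z - y‖⁻¹) * ‖z - x‖⁻¹) D := by
  obtain ⟨J, hJ0, hJ⟩ := sing_two_poles h0 h1
  have hwi : Integrable w mD := (h.integrableOn h0.le h1 hm hw).1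
  have hp : Integrable (fun p : ℂ × ℂ => w p.2 * ‖p.1 - p.2‖⁻¹) (mD.prod mD) := by
    simpa only [mul_comm] using regT_int_prod hwi
  set W : ℂ → ℝ := fun z => ∫ y in D, w y * ‖z - y‖⁻¹ with hW
  have hWm : AEStronglyMeasurable W mD := hp.integral_prod_left.1
  have hW0 : ∀ z, 0 ≤ W z := fun z =>
    setIntegral_nonneg measurableSet_ball fun y hy => mul_nonneg (hw y hy) (by positivity)
  have key : ∀ x ∈ Db, Integrable (fun z => W z * ‖z - x‖⁻¹) mD ∧
      ∫ z, W z * ‖z - x‖⁻¹ ∂mD ≤ J * B := by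
    intro x hx
    obtain ⟨c1, c2⟩ := h x hx
    have hb : ∀ᵐ y ∂mD, Integrable (fun z => w y * ‖z - y‖⁻¹ * ‖z - x‖⁻¹) mD ∧
        ∫ z, w y * ‖z - y‖⁻¹ * ‖z - x‖⁻¹ ∂mD ≤ J * (w y * ‖y - x‖ ^ (-τ)) := by
      filter_upwards [regT_ae_mem, mD.ae_ne x] with y hy hyx
      obtain ⟨d1, d2⟩ := hJ x hx y (regT_D_sub hy) hyx
      simp only [mul_assoc]
      refine ⟨d1.const_mul _, ?_⟩
      rw [integral_const_mul]
      have := hw y hy
      nlinarith
    have hH : Integrable (fun p : ℂ × ℂ => w p.2 * ‖p.1 - p.2‖⁻¹ * ‖p.1 - x‖⁻¹) (mD.prod mD) := by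
      refine regT_prod_int (by fun_prop : Measurable _).aestronglyMeasurable
        (Integrable.const_mul c1 J) ?_
      filter_upwards [hb, regT_ae_mem] with y hy hy'
      refine ⟨hy.1, le_trans (le_of_eq ?_) hy.2⟩
      refine integral_congr_ae (Eventually.of_forall fun z => ?_)
      have := hw y hy'
      exact Real.norm_of_nonneg (by positivity)
    have e : (fun z => W z * ‖z - x‖⁻¹) =
        fun z => ∫ y, w y * ‖z - y‖⁻¹ * ‖z - x‖⁻¹ ∂mD := by
      funext z; rw [integral_mul_const]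
    rw [e]
    refine ⟨hH.integral_prod_left, ?_⟩
    rw [integral_integral_swap hH]
    refine (integral_mono_ae hH.integral_prod_right (Integrable.const_mul c1 J)
      (hb.mono fun y hy => hy.2)).trans ?_
    rw [integral_const_mul]
    gcongr
  refine ⟨hp.prod_right_ae, ?_, fun x hx => (key x hx).1⟩
  refine (memLp_two_iff_integrable_sq hWm).2 ?_
  have hH : Integrable (fun p : ℂ × ℂ => w p.2 * ‖p.1 - p.2‖⁻¹ * W p.1) (mD.prod mD) := by
    refine regT_prod_int (hp.1.mul hWm.comp_fst) (hwi.mul_const (J * B)) ?_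
    filter_upwards [regT_ae_mem] with x hx
    obtain ⟨d1, d2⟩ := key x (regT_D_sub hx)
    have hx0 := hw x hx
    have e : (fun z => w x * ‖z - x‖⁻¹ * W z) = fun z => w x * (W z * ‖z - x‖⁻¹) := by
      funext z; ring
    refine ⟨e ▸ d1.const_mul _, ?_⟩
    have e2 : ∫ z, ‖w x * ‖z - x‖⁻¹ * W z‖ ∂mD = ∫ z, w x * (W z * ‖z - x‖⁻¹) ∂mD := by
      refine integral_congr_ae (Eventually.of_forall fun z => ?_)
      have := hW0 z
      simp only
      rw [Real.norm_of_nonneg (by positivity)]; ring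
    rw [e2, integral_const_mul]
    gcongr
  refine hH.integral_prod_left.congr (Eventually.of_forall fun z => ?_)
  simp only
  rw [integral_mul_const, sq]

end Vale.Agent.P071
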