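import Vale.Agent.P071L.Lemmas
import Vale.Agent.P071L.Pompeiu

/-!
# The solution operator on data of the form `φ' Φ`
-/

open Complex Metric Set Filter Topology MeasureTheory
open scoped ContDiff ComplexConjugate Real

namespace Vale.Agent.P071

variable {φ : ℂ → ℂ} {μ : ℝ}

theorem LAn.exists_TT_bound (S : LAn φ) : ∃ B : ℝ, 0 ≤ B ∧ ∀ Φ : ℂ → ℂ,
    MemLp Φ 2 (volume.restrict D) →
      MemLp (TT fun y => deriv φ y * Φ y) 2 (volume.restrict D) ∧
      ∫ z in D, ‖TT (fun y => deriv φ y * Φ y) z‖ ^ 2 ≤ B * ∫ z in D, ‖Φ z‖ ^ 2 := by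
  obtain ⟨η, B, h0, h1, hR, -⟩ := S.kato
  obtain ⟨J, hJ0, hJ⟩ := sing_disc (a := 2 - η) (by linarith) (by linarith)
  have hB0 : 0 ≤ B := le_trans (integral_nonneg fun y => by
    have := rho_nonneg φ y
    positivity) (hR 0 (by simp)).2
  refine ⟨B * J, by positivity, fun Φ hΦ => ?_⟩
  have hF : Integrable (fun y => deriv φ y * Φ y) mD := S.integrableOn_mul hΦ
  have h2 : Integrable (fun y => ‖Φ y‖ ^ 2) mD := integrableOn_norm_sq hΦ
  have hm : AEStronglyMeasurable (TT fun y => deriv φ y * Φ y) mD :=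
    (regT_tau_meas hF.1).integral_prod_right'
  have hy : ∀ y ∈ D, Integrable (fun z : ℂ => ‖z - y‖ ^ (-(2 - η)) * ‖Φ y‖ ^ 2) mD ∧
      ∫ z, ‖z - y‖ ^ (-(2 - η)) * ‖Φ y‖ ^ 2 ∂mD ≤ J * ‖Φ y‖ ^ 2 := by
    intro y hy
    obtain ⟨a1, a2⟩ := hJ y (regT_D_sub hy)
    simp only [one_mul] at a1 a2
    refine ⟨Integrable.mul_const a1 _, ?_⟩
    rw [integral_mul_const]
    exact mul_le_mul_of_nonneg_right a2 (by positivity)
  have hK : Integrable (fun p : ℂ × ℂ => ‖p.1 - p.2‖ ^ (-(2 - η)) * ‖Φ p.2‖ ^ 2) (mD.prod mD) := by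
    refine regT_prod_int ((by fun_prop : Measurable fun p : ℂ × ℂ =>
      ‖p.1 - p.2‖ ^ (-(2 - η))).aestronglyMeasurable.mul h2.1.comp_snd) (h2.const_mul J)
      (regT_ae_mem.mono fun y hy' => ⟨(hy y hy').1, le_trans (le_of_eq ?_) (hy y hy').2⟩)
    exact integral_congr_ae (Eventually.of_forall fun z => Real.norm_of_nonneg (by positivity))
  have hpt : ∀ᵐ z ∂mD, ‖TT (fun y => deriv φ y * Φ y) z‖ ^ 2 ≤
      B * ∫ y, ‖z - y‖ ^ (-(2 - η)) * ‖Φ y‖ ^ 2 ∂mD := by
    filter_upwards [regT_ae_mem, (regT_int_prod hF.norm).prod_right_ae, hK.prod_right_ae]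
      with z hz k1 k2
    obtain ⟨a1, a2⟩ := hR z (regT_D_sub hz)
    have e1 : ∀ y, ‖z - y‖ ^ (-η) * ‖deriv φ y‖ ^ 2 = rho φ y * ‖y - z‖ ^ (-η) := fun y => by
      rw [norm_sub_rev, mul_comm, rho]
    have e2 : ∀ y, ‖z - y‖ ^ (-η) * (‖z - y‖ ^ (-(1 - η)) * ‖Φ y‖) ^ 2 =
        ‖z - y‖ ^ (-(2 - η)) * ‖Φ y‖ ^ 2 := fun y => by
      rw [mul_pow, ← mul_assoc, ← Real.rpow_natCast (‖z - y‖ ^ (-(1 - η))),
        ← Real.rpow_mul (norm_nonneg _), ← Real.rpow_add' (norm_nonneg _) (by push_cast; linarith)]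
      refine congrArg (fun t : ℝ => ‖z - y‖ ^ t * ‖Φ y‖ ^ 2) ?_
      push_cast
      ring
    have e3 : ∀ y, ‖z - y‖ ^ (-η) * (‖deriv φ y‖ * (‖z - y‖ ^ (-(1 - η)) * ‖Φ y‖)) =
        ‖z - y‖⁻¹ * ‖deriv φ y * Φ y‖ := fun y => by
      have e4 : ‖z - y‖ ^ (-η) * ‖z - y‖ ^ (-(1 - η)) = ‖z - y‖⁻¹ := by
        rw [← Real.rpow_add' (norm_nonneg _) (by linarith), ← Real.rpow_neg_one]
        refine congrArg (fun t : ℝ => ‖z - y‖ ^ t) ?_
        ring
      rw [norm_mul, ← e4]
      ring
    have k5 := regT_cs (μ := mD) (w := fun y => ‖z - y‖ ^ (-η)) (a := fun y => ‖deriv φ y‖)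
      (b := fun y => ‖z - y‖ ^ (-(1 - η)) * ‖Φ y‖) (Eventually.of_forall fun y => by positivity)
      (by simpa only [e1] using a1.integrable) (by simpa only [e2] using k2)
      (by simpa only [e3] using k1)
    simp only [e1, e2, e3] at k5
    calc _ ≤ (∫ y, ‖z - y‖⁻¹ * ‖deriv φ y * Φ y‖ ∂mD) ^ 2 :=
          pow_le_pow_left₀ (norm_nonneg _) (regT_TT_le (regT_D_sub hz) k1) 2
      _ ≤ _ := k5
      _ ≤ _ := mul_le_mul_of_nonneg_right a2 (integral_nonneg fun y => by positivity)
  have hi := hK.integral_prod_left.const_mul B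
  have hsq : Integrable (fun z => ‖TT (fun y => deriv φ y * Φ y) z‖ ^ 2) mD :=
    hi.mono' (hm.norm.pow 2) (hpt.mono fun z hz => by rwa [Real.norm_of_nonneg (by positivity)])
  refine ⟨(memLp_two_iff_integrable_sq_norm hm).2 hsq, (integral_mono_ae hsq hi hpt).trans ?_⟩
  rw [integral_const_mul, integral_integral_swap hK, mul_assoc, ← integral_const_mul J]
  exact mul_le_mul_of_nonneg_left (integral_mono_ae hK.integral_prod_right (h2.const_mul J)
    (regT_ae_mem.mono fun y hy' => (hy y hy').2)) hB0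

/-- The weak equation for integrable data. -/
lemma tl_repro {F : ℂ → ℂ} (h1 : Integrable F mD) (h0 : ∫ z in D, (F z).re = 0) {U : ℂ → ℂ}
    (hU : UC U) : ∫ z, (TT F z * conj (dD U z)).re ∂mD = -∫ y, (F y * conj (U y)).re ∂mD := by
  obtain ⟨M, hM⟩ := (ll_bm_dD hU).conj.bdd
  have hP : Integrable (fun p : ℂ × ℂ => tau F p.1 p.2 * conj (dD U p.1)) (mD.prod mD) :=
    (regT_tau_int h1).mul_bdd (c := M) (ll_bm_dD hU).conj.meas.comp_fst
      (regT_ae_ne.mono fun p hp => hM _ hp.1)
  have hP' : Integrable (fun p : ℂ × ℂ => (tau F p.1 p.2 * conj (dD U p.1)).re) (mD.prod mD) :=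
    hP.re
  have hκ : Integrable (fun z => (conj z * conj (dD U z) + 2 * conj (U z)).re) mD :=
    (((BM.of_continuous continuous_conj).mul (ll_bm_dD hU).conj).add
      (hU.bm.conj.const_mul 2)).re.integrableOn
  set κ : ℝ := ∫ z, (conj z * conj (dD U z) + 2 * conj (U z)).re ∂mD with hκd
  have hπ : (π : ℂ) ≠ 0 := ofReal_ne_zero.2 Real.pi_ne_zero
  have e1 : ∫ z, (TT F z * conj (dD U z)).re ∂mD =
      ∫ z, ∫ y, (tau F z y * conj (dD U z)).re ∂mD ∂mD := by
    refine integral_congr_ae ?_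
    filter_upwards [hP.prod_right_ae] with z hz
    rw [TT, ← integral_mul_const]
    exact (reCLM.integral_comp_comm hz).symm
  have e2 : ∫ y, ∫ z, (tau F z y * conj (dD U z)).re ∂mD ∂mD =
      ∫ y, (-(F y * conj (U y)).re + κ / (2 * π) * (F y).re) ∂mD := by
    refine integral_congr_ae ?_
    filter_upwards [hP'.prod_left_ae, regT_ae_mem] with y k1 hy
    have k2 := regT_repro hU (F y) hy
    have k3 : ∀ z, ((F y / (z - y) - regR (F y) y z) * conj (dD U z) -
        2 * (F y).re * conj (U z)).re = 2 * π * (tau F z y * conj (dD U z)).re -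
          (F y).re * (conj z * conj (dD U z) + 2 * conj (U z)).re := by
      intro z
      rw [← re_ofReal_mul, ← re_ofReal_mul, ← sub_re, tau, regR]
      refine congrArg re ?_
      push_cast
      field_simp
      ring
    simp only [k3] at k2
    rw [integral_sub (k1.const_mul _) (hκ.const_mul _), integral_const_mul, integral_const_mul,
      ← hκd] at k2
    have hπ' := Real.pi_pos
    field_simp
    linarith
  have i1 : Integrable (fun y => (F y * conj (U y)).re) mD := Integrable.re (𝕜 := ℂ)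
    ((hU.bm.conj.mul_integrableOn h1).congr_fun (fun z _ => mul_comm _ _) measurableSet_ball)
  have i3 : Integrable (fun y => -(F y * conj (U y)).re) mD := i1.neg
  have i4 : Integrable (fun y => κ / (2 * π) * (F y).re) mD := h1.re.const_mul _
  rw [e1, integral_integral_swap hP', e2, integral_add i3 i4, integral_const_mul, integral_neg,
    h0, mul_zero, add_zero]

theorem LAn.adm_TT (S : LAn φ) {Φ : ℂ → ℂ} (hΦ : MemLp Φ 2 (volume.restrict D))
    (h0 : ∫ z in D, (deriv φ z * Φ z).re = 0) : Adm φ (TT fun y => deriv φ y * Φ y) Φ := by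
  obtain ⟨B, -, hB⟩ := S.exists_TT_bound
  have hF := S.integrableOn_mul hΦ
  refine ⟨(hB Φ hΦ).1, hΦ, fun U hU => ?_⟩
  have i1 : Integrable (fun y => (deriv φ y * Φ y * conj (U y)).re) mD := Integrable.re (𝕜 := ℂ)
    ((hU.bm.conj.mul_integrableOn hF).congr_fun (fun z _ => mul_comm _ _) measurableSet_ball)
  have i2 := regT_int_re_mul (hB Φ hΦ).1 hU.memLp_dD
  simp only [add_re]
  rw [integral_add i2 i1, tl_repro hF h0 hU, neg_add_cancel]

lemma TT_congr {F F' : ℂ → ℂ} (h : F =ᵐ[volume.restrict D] F') : TT F = TT F' := by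
  funext z
  refine integral_congr_ae (h.mono fun y hy => ?_)
  simp only [tau, hy]

/-- `TT` is additive wherever both integrals converge, in particular almost everywhere. -/
lemma TT_sub_ae {F F' : ℂ → ℂ} (hF : IntegrableOn F D) (hF' : IntegrableOn F' D) :
    ∀ᵐ z ∂(volume.restrict D), TT (fun y => F y - F' y) z = TT F z - TT F' z := by
  filter_upwards [(regT_tau_int hF).prod_right_ae, (regT_tau_int hF').prod_right_ae] with z h1 h2
  rw [TT, TT, TT, ← integral_sub h1 h2]
  refine integral_congr_ae (Eventually.of_forall fun y => ?_)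
  simp only [tau, map_sub]
  ring

lemma tl_ne {s y : ℂ} (hs : s ∈ S1) (hy : y ∈ D) : s ≠ y := by
  rintro rfl
  have := regT_norm_lt hy
  rw [mem_sphere_zero_iff_norm.1 hs] at this
  exact lt_irrefl _ this

lemma TT_re_boundary {F : ℂ → ℂ} (hF : IntegrableOn F D) (h0 : ∫ z in D, (F z).re = 0) {s : ℂ}
    (hs : s ∈ S1) (hi : IntegrableOn (fun y => ‖F y‖ * ‖s - y‖⁻¹) D) : (s * TT F s).re = 0 := by
  have hz' : s ∈ Db := sphere_subset_closedBall hs
  have h1 : Integrable (fun y => s * tau F s y) mD := by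
    refine Integrable.const_mul (hi.mono' (regT_tau_meas_right hF.1 s) ?_) s
    filter_upwards [regT_ae_mem] with y hy
    exact (regT_tau_le F hz' hy (tl_ne hs hy)).trans (mul_comm _ _).le
  rw [TT, ← integral_const_mul]
  have h2 : (∫ y, s * tau F s y ∂mD).re = ∫ y, (s * tau F s y).re ∂mD :=
    (reCLM.integral_comp_comm h1).symm
  have h3 : (fun y => (s * tau F s y).re) =ᵐ[mD] fun y => (2 * π)⁻¹ * (F y).re := by
    filter_upwards [regT_ae_mem] with y hy
    have := regT_re_formula (F y) (tl_ne hs hy) (regT_one_sub_ne hz' hy)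
    rw [dl_eq_zero hs, zero_mul, add_zero] at this
    rw [← this, ← re_ofReal_mul, tau]
    refine congrArg re ?_
    push_cast
    ring
  rw [h2, integral_congr_ae h3, integral_const_mul, h0, mul_zero]

lemma tl_int_mc {g : ℝ → ℂ} (hg : Continuous g) : Integrable g mc :=
  hg.integrableOn_Icc.mono_set Ioc_subset_Icc_self

/-- Green's formula for the kernel of the solution operator. -/
lemma tl_kernel (F : ℂ → ℂ) {G : ℂ → ℂ} (hG : ContDiff ℝ 1 G) {y : ℂ} (hy : y ∈ D) :
    (∫ z in D, dB G z * tau F z y) + G y * F y = ∫ s, G (ec s) * (ec s * tau F (ec s) y) ∂mc := by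
  obtain ⟨I₀, -, hI⟩ := regT_sing
  have hπ : (π : ℂ) ≠ 0 := ofReal_ne_zero.2 Real.pi_ne_zero
  have bG := BM.dB_of_contDiff hG
  have h1 := pompeiu hG.continuous.continuousOn hG.contDiffOn bG hy
  set h : ℂ → ℂ := fun w => conj y * conj (F y) / (1 - w * conj y) with hh
  have ha : ∀ z ∈ Db, AnalyticAt ℂ h z := fun z hz => regR_holo (F y) hy hz
  have e : ∀ z ∈ D, dB (fun w => G w * h w) z = dB G z * h z := fun z hz => by
    have d := (ha z (regT_D_sub hz)).differentiableAt
    rw [dB_mul (hG.differentiable (by norm_num) z) (d.restrictScalars ℝ), dB_holo d, mul_zero,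
      add_zero]
  have i2 : IntegrableOn (fun z => dB G z * h z) D :=
    (bG.mul (BM.of_continuousAt fun z hz => (ha z hz).continuousAt)).integrableOn
  have h2 := green_dB_closed (W := fun w => G w * h w)
    (hG.continuous.continuousOn.mul fun z hz => (ha z hz).continuousAt.continuousWithinAt)
    (hG.contDiffOn.mul fun z hz =>
      ((ha z (regT_D_sub hz)).contDiffAt.restrict_scalars ℝ).contDiffWithinAt)
    (i2.congr_fun (fun z hz => (e z hz).symm) measurableSet_ball)
  rw [setIntegral_congr_fun measurableSet_ball e,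
    intervalIntegral.integral_of_le (by linarith [Real.pi_pos])] at h2
  have i0 : IntegrableOn (fun z : ℂ => (z - y)⁻¹) D :=
    (hI y (regT_D_sub hy)).2.1.mono' (by fun_prop : Measurable _).aestronglyMeasurable
      (Eventually.of_forall fun z => (norm_inv _).le)
  have i1 : IntegrableOn (fun z => dB G z / (z - y)) D := by
    simpa only [div_eq_mul_inv] using bG.mul_integrableOn i0
  have c0 : Continuous ec := continuous_circleMap 0 1
  have c1 : Continuous fun s => G (ec s) * ec s / (ec s - y) :=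
    ((hG.continuous.comp c0).mul c0).div (c0.sub continuous_const) fun s =>
      sub_ne_zero.2 (tl_ne (ec_mem s) hy)
  have c2 : Continuous fun s => G (ec s) * h (ec s) * ec s :=
    ((hG.continuous.comp c0).mul (continuous_iff_continuousAt.2 fun s =>
      (ha _ (sphere_subset_closedBall (ec_mem s))).continuousAt.comp c0.continuousAt)).mul c0
  have e1 : ∀ z, dB G z * tau F z y =
      F y / (2 * π) * (dB G z / (z - y)) - 1 / (2 * π) * (dB G z * h z) := fun z => by
    rw [tau, hh]; ring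
  have e2 : ∀ s, G (ec s) * (ec s * tau F (ec s) y) =
      F y / (2 * π) * (G (ec s) * ec s / (ec s - y)) - 1 / (2 * π) * (G (ec s) * h (ec s) * ec s) :=
    fun s => by rw [tau, hh]; ring
  simp only [e1, e2]
  rw [integral_sub (i1.const_mul _) (i2.const_mul _),
    integral_sub ((tl_int_mc c1).const_mul _) ((tl_int_mc c2).const_mul _), integral_const_mul,
    integral_const_mul, integral_const_mul, integral_const_mul, h2]
  have h3 : G y * F y = F y / (2 * π) * (2 * π * G y) := by field_simp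
  rw [h3, h1]
  ring

/-- Boundary values and Green's formula for data dominated by the conformal factor. -/
theorem LAn.TT_trace (S : LAn φ) {F : ℂ → ℂ} {M : ℝ}
    (hF : AEStronglyMeasurable F (volume.restrict D)) (hM : ∀ y ∈ D, ‖F y‖ ≤ M * rho φ y)
    (h0 : ∫ z in D, (F z).re = 0) :
    Integrable (fun s => TT F (ec s)) mc ∧ (∀ᵐ s ∂mc, (ec s * TT F (ec s)).re = 0) ∧
      ∀ G : ℂ → ℂ, ContDiff ℝ 1 G → ∫ z in D, (dB G z * TT F z + G z * F z).re =
        ∫ s, (G (ec s) * (ec s * TT F (ec s))).re ∂mc := by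
  have hFi : Integrable F mD := (S.integrableOn_rho.const_mul M).mono' hF (regT_ae_mem.mono hM)
  have c0 : Continuous ec := continuous_circleMap 0 1
  have hb : ∀ s, ∀ y ∈ D, ‖F y‖ * ‖ec s - y‖⁻¹ ≤ M * (rho φ y * ‖ec s - y‖⁻¹) := fun s y hy => by
    rw [← mul_assoc]
    exact mul_le_mul_of_nonneg_right (hM y hy) (by positivity)
  have hP : Integrable (fun p : ℝ × ℂ => tau F (ec p.1) p.2) (mc.prod mD) := by
    refine (S.circ.const_mul M).mono' ?_ ?_
    · have h1 : AEMeasurable (fun p : ℝ × ℂ => F p.2) (mc.prod mD) := hF.aemeasurable.comp_snd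
      have h2 : Measurable (fun p : ℝ × ℂ => conj p.2) := regT_meas_conj.comp measurable_snd
      have h3 : Measurable (fun p : ℝ × ℂ => ec p.1) := c0.measurable.comp measurable_fst
      exact (((h1.div (h3.sub measurable_snd).aemeasurable).sub
        ((h2.aemeasurable.mul (regT_meas_conj.comp_aemeasurable h1)).div
          (measurable_const.sub (h3.mul h2)).aemeasurable)).div_const _).aestronglyMeasurable
    · filter_upwards [(Measure.quasiMeasurePreserving_snd (μ := mc) (ν := mD)).ae regT_ae_mem]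
        with p hp
      exact ((regT_tau_le F (sphere_subset_closedBall (ec_mem _)) hp (tl_ne (ec_mem _) hp)).trans
        (mul_comm _ _).le).trans (hb _ _ hp)
  refine ⟨hP.integral_prod_left, ?_, fun G hG => ?_⟩
  · filter_upwards [S.circ.prod_right_ae] with s hs
    refine TT_re_boundary hFi h0 (ec_mem s) ((hs.const_mul M).mono'
      (hF.norm.mul (by fun_prop : Measurable fun y : ℂ => ‖ec s - y‖⁻¹).aestronglyMeasurable) ?_)
    filter_upwards [regT_ae_mem] with y hy
    rw [Real.norm_of_nonneg (by positivity)]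
    exact hb s y hy
  have bG := BM.dB_of_contDiff hG
  obtain ⟨M₁, hM₁⟩ := bG.bdd
  obtain ⟨M₂, hM₂⟩ := (isCompact_closedBall (0 : ℂ) 1).exists_bound_of_continuousOn
    hG.continuous.continuousOn
  have p1 : Integrable (fun p : ℂ × ℂ => dB G p.1 * tau F p.1 p.2) (mD.prod mD) :=
    (regT_tau_int hFi).bdd_mul (c := M₁) bG.meas.comp_fst (regT_ae_ne.mono fun p hp => hM₁ _ hp.1)
  have p2 : Integrable (fun p : ℝ × ℂ => G (ec p.1) * (ec p.1 * tau F (ec p.1) p.2))
      (mc.prod mD) :=
    (hP.bdd_mul (c := 1) (c0.comp continuous_fst).aestronglyMeasurable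
      (Eventually.of_forall fun p => by simp)).bdd_mul (c := M₂)
      (hG.continuous.comp (c0.comp continuous_fst)).aestronglyMeasurable
      (Eventually.of_forall fun p => hM₂ _ (sphere_subset_closedBall (ec_mem _)))
  have e1 : ∀ z, ∫ y, dB G z * tau F z y ∂mD = dB G z * TT F z := fun z => integral_const_mul _ _
  have e2 : ∀ s, ∫ y, G (ec s) * (ec s * tau F (ec s) y) ∂mD = G (ec s) * (ec s * TT F (ec s)) :=
    fun s => by rw [integral_const_mul, integral_const_mul, TT]
  have i1 : Integrable (fun z => dB G z * TT F z) mD := by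
    simpa only [e1] using p1.integral_prod_left
  have i2 : Integrable (fun z => G z * F z) mD :=
    (BM.of_continuous hG.continuous).mul_integrableOn hFi
  have i3 : Integrable (fun s => G (ec s) * (ec s * TT F (ec s))) mc := by
    simpa only [e2] using p2.integral_prod_left
  have i4 : Integrable (fun z => dB G z * TT F z + G z * F z) mD := i1.add i2
  refine (reCLM.integral_comp_comm i4).trans ((congrArg re ?_).trans
    (reCLM.integral_comp_comm i3).symm)
  rw [integral_add i1 i2]
  simp only [← e1, ← e2]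
  rw [integral_integral_swap (f := fun z y => dB G z * tau F z y) p1,
    integral_integral_swap (f := fun s y => G (ec s) * (ec s * tau F (ec s) y)) p2,
    ← integral_add p1.integral_prod_right i2]
  exact integral_congr_ae (regT_ae_mem.mono fun y hy => tl_kernel F hG hy)

end Vale.Agent.P071
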