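import Vale.Agent.P071L.ZM0
import Vale.Agent.P071L.Rellich
import Vale.Agent.P071.Test

/-!
# Test pairs built from a zero mode and a multiplier
-/

open Complex Metric Set Filter Topology MeasureTheory
open scoped ContDiff ComplexConjugate Real

namespace Vale.Agent.P071

/-- The gradient field of a real function. -/
noncomputable abbrev VD (a : ℂ → ℝ) : ℂ → ℂ := dD fun w => (a w : ℂ)

variable {φ : ℂ → ℂ} {μ A θ : ℝ}

/-- The inner correction has no flux. -/
lemma test_fluxL (S : LAn φ) {η : ℂ → ℂ} (hη : ContDiff ℝ ∞ η) (h0 : ∀ z ∈ S1, η z = 0)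
    {r : ℝ} (hr : 0 < r) (hr1 : r < 1) {U : ℂ → ℂ} (hU : ContDiffOn ℝ 1 U D) :
    ∫ z in D, ((ball (0 : ℂ) r).indicator (fun w => deriv φ w * η (w / r)) z * conj (dD U z) +
      deriv φ z * (ball (0 : ℂ) r).indicator (dB fun w => η (w / r)) z * conj (U z)).re = 0 := by
  have hsub : closedBall (0 : ℂ) r ⊆ D := closedBall_subset_ball hr1
  have hη' : ContDiff ℝ 1 fun w => η (w / r) :=
    (hη.of_le (by norm_cast)).comp (contDiff_id.div_const _)
  have hU' : ∀ z ∈ D, ContDiffAt ℝ 1 U z := fun z hz => hU.contDiffAt (isOpen_ball.mem_nhds hz)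
  have hW : ∀ z ∈ closedBall (0 : ℂ) r,
      ContDiffAt ℝ 1 (fun w => deriv φ w * η (w / r) * conj (U w)) z := fun z hz =>
    ((S.contDiffAt_deriv (hsub hz)).mul hη'.contDiffAt).mul (contDiffAt_conj' (hU' z (hsub hz)))
  have h := green_dB hr.le hW
  simp only [test_vanish h0 hr, mul_zero, zero_mul, intervalIntegral.integral_zero] at h
  have hi : IntegrableOn (dB fun w => deriv φ w * η (w / r) * conj (U w)) (ball 0 r) :=
    integrableOn_ball_of_continuousAt fun z hz =>
      (contDiffAt_dB (m := 0) (hW z hz) (by norm_num)).continuousAt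
  have h2 : ∫ z in ball 0 r, (dB (fun w => deriv φ w * η (w / r) * conj (U w)) z).re = 0 := by
    have := integral_re hi
    rw [h] at this
    simpa using this
  rw [← h2, ← test_indicator _ hr1.le]
  refine setIntegral_congr_fun measurableSet_ball fun z hz => ?_
  by_cases hb : z ∈ ball (0 : ℂ) r
  · have d1 : DifferentiableAt ℝ (deriv φ) z :=
      (S.contDiffAt_deriv (n := 1) hz).differentiableAt (by norm_num)
    have d2 : DifferentiableAt ℝ (fun w => η (w / r)) z :=
      hη'.contDiffAt.differentiableAt (by norm_num)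
    have d3 : DifferentiableAt ℝ U z := (hU' z hz).differentiableAt (by norm_num)
    simp only [indicator_of_mem hb]
    rw [dB_mul (d1.fun_mul d2) (differentiableAt_conj' d3), dB_mul d1 d2, dB_conj d3,
      dB_holo (S.analyticAt_deriv hz).differentiableAt]
    congr 1
    ring
  · simp [indicator_of_notMem hb]

/-- The energy pairing with the inner correction, rescaled to the unit disc. -/
lemma test_innerL (S : LAn φ) {η : ℂ → ℂ} (hη : ContDiff ℝ ∞ η) (h0 : ∀ z ∈ S1, η z = 0)
    {r : ℝ} (hr : 0 < r) (hr1 : r < 1) {g : ℂ → ℂ}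
    (hg : ∀ z ∈ closedBall (0 : ℂ) r, ContDiffAt ℝ 2 g z) :
    (∫ z in ball 0 r, (dB g z * conj (dB (fun w => η (w / r)) z)).re) -
      μ * ∫ z in ball 0 r, (deriv φ z * g z * conj (deriv φ z * η (z / r))).re =
    ∫ z in D, ((-lap (fun w => g (r * w)) z - nu φ μ r z * g (r * z)) * conj (η z)).re := by
  have hsub : closedBall (0 : ℂ) r ⊆ D := closedBall_subset_ball hr1
  have hr' : (r : ℂ) ≠ 0 := ofReal_ne_zero.2 hr.ne'
  have hη' : ContDiff ℝ 1 fun w => η (w / r) :=
    (hη.of_le (by norm_cast)).comp (contDiff_id.div_const _)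
  have hW : ∀ z ∈ closedBall (0 : ℂ) r,
      ContDiffAt ℝ 1 (fun w => dB g w * conj (η (w / r))) z := fun z hz =>
    (contDiffAt_dB (hg z hz) (by norm_num)).mul (contDiffAt_conj' hη'.contDiffAt)
  have h := green_dD hr.le hW
  simp only [test_vanish h0 hr, map_zero, mul_zero, zero_mul, intervalIntegral.integral_zero] at h
  have hi : IntegrableOn (dD fun w => dB g w * conj (η (w / r))) (ball 0 r) :=
    integrableOn_ball_of_continuousAt fun z hz =>
      (contDiffAt_dD (m := 0) (hW z hz) (by norm_num)).continuousAt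
  have h2 : ∫ z in ball 0 r, (dD (fun w => dB g w * conj (η (w / r))) z).re = 0 := by
    have := integral_re hi
    rw [h] at this
    simpa using this
  have i1 : IntegrableOn (fun z => (dB g z * conj (dB (fun w => η (w / r)) z)).re) (ball 0 r) :=
    integrableOn_ball_of_continuousAt fun z hz => continuous_re.continuousAt.comp
      ((contDiffAt_dB (m := 1) (hg z hz) (by norm_num)).continuousAt.mul
        (contDiffAt_conj' (contDiffAt_dB (m := 0) hη'.contDiffAt (by norm_num))).continuousAt)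
  have i2 : IntegrableOn (fun z => μ * (deriv φ z * g z * conj (deriv φ z * η (z / r))).re)
      (ball 0 r) := by
    refine integrableOn_ball_of_continuousAt fun z hz => continuousAt_const.mul ?_
    have c1 := (S.analyticAt_deriv (hsub hz)).continuousAt
    exact continuous_re.continuousAt.comp ((c1.mul (hg z hz).continuousAt).mul
      (continuous_conj.continuousAt.comp (c1.mul hη'.continuous.continuousAt)))
  have i3 : IntegrableOn (fun z => (dD (fun w => dB g w * conj (η (w / r))) z).re) (ball 0 r) :=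
    hi.re
  rw [← integral_const_mul, ← integral_sub i1 i2, ← sub_zero (∫ z in ball 0 r, _), ← h2,
    ← integral_sub (Integrable.sub' i1 i2) i3, integral_ball_scale _ hr, ← integral_smul]
  refine setIntegral_congr_fun measurableSet_ball fun z hz => ?_
  have hz' := ball_subset_closedBall (mul_mem_ball hr hz)
  have d1 : DifferentiableAt ℝ (dB g) (r * z) :=
    (contDiffAt_dB (m := 1) (hg _ hz') (by norm_num)).differentiableAt (by norm_num)
  have d2 : DifferentiableAt ℝ (fun w => η (w / r)) (r * z) :=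
    hη'.contDiffAt.differentiableAt (by norm_num)
  rw [dD_mul d1 (differentiableAt_conj' d2), dD_conj d2, dD_dB (hg _ hz'), test_lap_scale (hg _ hz'),
    nu_of_mem φ μ r hz, mul_div_cancel_left₀ _ hr', smul_eq_mul, ← re_ofReal_mul μ, ← sub_re,
    ← sub_re, ← re_ofReal_mul]
  congr 1
  push_cast
  rw [rho_eq, map_mul]
  ring

lemma test_ell_addL (S : LAn φ) {K : ℂ → ℝ} (hK : ContDiff ℝ ∞ K) {v Φ v' Φ' : ℂ → ℂ}
    (hv : MemLp v 2 (volume.restrict D)) (hΦ : MemLp Φ 2 (volume.restrict D))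
    (hv' : MemLp v' 2 (volume.restrict D)) (hΦ' : MemLp Φ' 2 (volume.restrict D)) :
    ell φ K (fun z => v z + v' z) (fun z => Φ z + Φ' z) = ell φ K v Φ + ell φ K v' Φ' := by
  have hU : ContDiff ℝ 1 fun w => I * (K w : ℂ) :=
    contDiff_const.mul (ofRealCLM.contDiff.comp (hK.of_le (by norm_cast)))
  have aux : ∀ {v Φ : ℂ → ℂ}, MemLp v 2 (volume.restrict D) → MemLp Φ 2 (volume.restrict D) →
      IntegrableOn (fun z => (v z * conj (dD (fun w => I * (K w : ℂ)) z) +
        deriv φ z * Φ z * conj (I * (K z : ℂ))).re) D := fun hv hΦ =>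
    S.adm_integrable hv hΦ (BM.of_continuous hU.continuous) (BM.dD_of_contDiff hU).memLp
  rw [ell, ell, ell, ← integral_add (aux hv hΦ) (aux hv' hΦ')]
  refine integral_congr_ae (Eventually.of_forall fun z => ?_)
  simp only [← add_re]
  congr 1
  ring

/-- The energy of a multiple of a zero mode. -/
lemma test_EB_mulL (S : LAn φ) {v Φ : ℂ → ℂ} (h : ZeroMode φ μ v Φ)
    (hom : MemLp (fun z => v z / deriv φ z) 2 (volume.restrict D)) {m : ℂ → ℝ}
    (hm : ContDiff ℝ ∞ m) :
    EB μ (fun z => m z * v z) (fun z => m z * Φ z + dB (fun w => (m w : ℂ)) z * v z / deriv φ z)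
      (fun z => m z * v z) (fun z => m z * Φ z + dB (fun w => (m w : ℂ)) z * v z / deriv φ z) =
      ∫ z in D, (dx m z ^ 2 + dy m z ^ 2) * ‖v z / deriv φ z‖ ^ 2 := by
  have hm2 : ContDiff ℝ 2 fun w => (m w : ℂ) := ofRealCLM.contDiff.comp (hm.of_le (by norm_cast))
  have u1 : UC fun w => (m w : ℂ) := .of_contDiff hm2 fun z _ => ofReal_im _
  have a1 := h.adm.mulL S hom u1
  have a2 := h.adm.mulL S hom (u1.mul u1)
  have e := h.zero _ _ a2
  rw [← sub_zero (EB _ _ _ _ _), ← e, EB, EB]
  have e1 : ∫ z in D, (m z * v z * conj (m z * v z)).re =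
      ∫ z in D, (v z * conj ((m z : ℂ) * m z * v z)).re :=
    integral_congr_ae (Eventually.of_forall fun z => by
      simp only [map_mul, conj_ofReal]; congr 1; ring)
  rw [e1, sub_sub_sub_cancel_right, ← integral_sub (integrableOn_mul_conj_re a1.l2F a1.l2F)
    (integrableOn_mul_conj_re h.adm.l2F a2.l2F)]
  refine integral_congr_ae (Eventually.of_forall fun z => ?_)
  have d1 : DifferentiableAt ℝ m z := hm.contDiffAt.differentiableAt (by simp)
  have d2 := differentiableAt_ofReal' d1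
  simp only
  rw [dB_mul d2 d2, ← norm_dD_ofReal_sq d1, ← mul_pow, ← norm_conj (dD _ _), ← dB_ofReal_eq_conj d1,
    ← norm_mul, ← mul_conj_re_self (dB _ _ * _), mul_div_assoc, mul_div_assoc]
  generalize dB (fun w => (m w : ℂ)) z = b
  generalize v z / deriv φ z = w
  simp
  ring

lemma LMode.memLp_div (S : LAn φ) {v Φ : ℂ → ℂ} {a : ℂ → ℝ} (hm : LMode φ μ v Φ a) :
    MemLp (fun z => v z / deriv φ z) 2 (volume.restrict D) :=
  (hm.memLp_om S).ae_eq (hm.v_eq.mono fun z hz => by simp only [omL, hz])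

lemma test_bm_indicator {f : ℂ → ℂ} {r : ℝ}
    (hf : ∀ z ∈ closedBall (0 : ℂ) r, ContinuousAt f z) : BM ((ball (0 : ℂ) r).indicator f) := by
  have hc := continuousOn_of_forall_continuousAt hf
  obtain ⟨M, hM⟩ := (isCompact_closedBall (0 : ℂ) r).exists_bound_of_continuousOn hc
  refine ⟨((aestronglyMeasurable_indicator_iff measurableSet_ball).2
    ((hc.mono ball_subset_closedBall).aestronglyMeasurable measurableSet_ball)).restrict,
    max M 0, fun z _ => ?_⟩
  by_cases hz : z ∈ ball (0 : ℂ) r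
  · rw [indicator_of_mem hz]
    exact (hM z (ball_subset_closedBall hz)).trans (le_max_left _ _)
  · rw [indicator_of_notMem hz, norm_zero]
    exact le_max_right _ _

theorem exists_test_pairL (S : LSetup φ μ) (hG : Ground φ μ θ) {v₀ Φ₀ : ℂ → ℂ}
    (h₀ : ZeroMode φ μ v₀ Φ₀) {a : ℂ → ℝ} (hm : LMode φ μ v₀ Φ₀ a) {r : ℝ} (hr : 0 < r)
    (hr1 : r < 1) (hP : Pot (nu φ μ r) A θ) {m : ℂ → ℝ} (hmc : ContDiff ℝ ∞ m) {ε : ℝ}
    (hε : 0 < ε) : ∃ v Φ : ℂ → ℂ, Adm φ v Φ ∧
      EB μ v Φ v Φ ≤
        (∫ z in D \ ball 0 r, (dx m z ^ 2 + dy m z ^ 2) * ‖VD a z / deriv φ z‖ ^ 2) +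
        (∫ p : ℝ × ℝ, Wt φ μ (VD a) r p * (m (r * ec p.1) - m (r * ec p.2)) ^ 2 ∂(mc.prod mc)) +
          ε ∧
      (∀ M Λ : ℝ, (∀ z ∈ D, |m z| ≤ M ∧ dx m z ^ 2 + dy m z ^ 2 ≤ Λ) →
        (1 - θ) * (μ * ∫ z in D, ‖v z‖ ^ 2) ≤ 2 * M ^ 2 * (μ * ∫ z in D, ‖v₀ z‖ ^ 2) +
          8 * (EB μ v Φ v Φ + Λ * ∫ z in D, ‖omL φ a z‖ ^ 2)) ∧
      ∀ K : ℂ → ℝ, ContDiff ℝ ∞ K →
        ell φ K v Φ = ∫ s, m (ec s) * K (ec s) * (ec s * VT φ μ a (ec s)).im ∂mc := by
  obtain ⟨Ci, -, hin⟩ := inner_ineq A θ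
  have T := S.toLAn
  set om : ℂ → ℂ := omL φ a with hom
  have lom : MemLp om 2 (volume.restrict D) := hm.memLp_om T
  have ldiv := hm.memLp_div T
  have hr' : (r : ℂ) ≠ 0 := ofReal_ne_zero.2 hr.ne'
  have hsub : closedBall (0 : ℂ) r ⊆ D := closedBall_subset_ball hr1
  have com : ∀ z ∈ D, ContDiffAt ℝ 2 om z := fun z hz => (hm.om_eq T hz).1.of_le (by norm_cast)
  have hsc : ContDiff ℝ 2 fun w : ℂ => (r : ℂ) * w := contDiff_const.mul contDiff_id
  have hm2 : ContDiff ℝ 2 m := hmc.of_le (by norm_cast)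
  have hmC : ContDiff ℝ 2 fun w => (m w : ℂ) := ofRealCLM.contDiff.comp hm2
  obtain ⟨M₀, hM₀⟩ := (isCompact_sphere (0 : ℂ) 1).exists_bound_of_continuousOn
    (f := fun z => (m (r * z) : ℂ) * om (r * z)) (continuousOn_of_forall_continuousAt fun z hz =>
      (hmC.contDiffAt.mul (com _ (mul_mem_D_of_lt hr hr1
        (sphere_subset_closedBall hz)))).continuousAt.comp hsc.continuous.continuousAt)
  obtain ⟨η, hη, hη0, hE, -⟩ := hin _ hP (fun w => om (r * w)) (fun w => m (r * w))
    M₀ (fun z hz => (com _ (mul_mem_D_of_lt hr hr1 hz)).comp z hsc.contDiffAt)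
    (fun z hz => by
      have hz' := mul_mem_D hr hr1.le hz
      rw [test_lap_scale (com _ hz'), (hm.om_eq T hz').2.2, nu_of_mem φ μ r hz]
      push_cast; ring)
    (fun z _ => (hm2.comp hsc).contDiffAt) hM₀ _ hε
  have hη' : ContDiff ℝ 2 fun w => η (w / r) :=
    (hη.of_le (by norm_cast)).comp (contDiff_id.div_const _)
  have u1 : UC fun w => (m w : ℂ) := .of_contDiff hmC fun z _ => ofReal_im _
  have a1 := h₀.adm.mulL T ldiv u1
  have b2 : BM ((ball (0 : ℂ) r).indicator fun w => deriv φ w * η (w / r)) :=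
    test_bm_indicator fun z hz =>
      (T.analyticAt_deriv (hsub hz)).continuousAt.mul hη'.continuous.continuousAt
  have b3 : BM ((ball (0 : ℂ) r).indicator (dB fun w => η (w / r))) :=
    (BM.dB_of_contDiff (hη'.of_le (by norm_num))).indicator measurableSet_ball
  have a2 : Adm φ ((ball (0 : ℂ) r).indicator fun w => deriv φ w * η (w / r))
      ((ball (0 : ℂ) r).indicator (dB fun w => η (w / r))) :=
    ⟨b2.memLp, b3.memLp, fun U hU => test_fluxL T hη hη0 hr hr1 (hU.cd.of_le (by norm_num))⟩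
  have a3 : Adm φ (fun z => I * (ball (0 : ℂ) r).indicator (fun w => deriv φ w * η (w / r)) z)
      (fun z => I * (ball (0 : ℂ) r).indicator (dB fun w => η (w / r)) z) := by
    refine ⟨(b2.const_mul I).memLp, (b3.const_mul I).memLp, fun U hU => ?_⟩
    rw [← test_fluxL T hη hη0 hr hr1 (U := fun w => -I * U w)
      (contDiffOn_const.mul (hU.cd.of_le (by norm_num)))]
    refine setIntegral_congr_fun measurableSet_ball fun z hz => ?_
    rw [dD_mul (differentiableAt_const _) (hU.differentiableAt hz), dD_const]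
    congr 1
    simp only [map_mul, map_neg, conj_I, map_add, map_zero, zero_mul]
    ring
  have bm : BM m := .of_continuous hmc.continuous
  have hVe : ∀ z ∈ D, VD a z = deriv φ z * om z := fun z hz => by
    rw [hom, omL, mul_div_cancel₀ _ (T.ne z hz)]
  have h1 : ContDiff ℝ 1 m := hmc.of_le (by norm_cast)
  have bg : BM fun z => dx m z ^ 2 + dy m z ^ 2 :=
    (BM.dx_of_contDiff h1).sq.add (BM.dy_of_contDiff h1).sq
  have ig := bg.mul_integrableOn (integrableOn_norm_sq lom)
  have e0 : ∫ z in D, (dx m z ^ 2 + dy m z ^ 2) * ‖v₀ z / deriv φ z‖ ^ 2 =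
      ∫ z in D, (dx m z ^ 2 + dy m z ^ 2) * ‖om z‖ ^ 2 :=
    integral_congr_ae (hm.v_eq.mono fun z hz => by simp only [hz, hom, omL])
  refine ⟨_, _, a1.addL T a2, ?_, fun M Λ hM => ?_, fun K hK => ?_⟩
  · rw [test_EB_add a1.l2v a1.l2F a2.l2v a2.l2F, test_EB_mulL T h₀ ldiv hmc]
    have e1 : ∫ z in D, (dx m z ^ 2 + dy m z ^ 2) * ‖v₀ z / deriv φ z‖ ^ 2 =
        (∫ z in D \ ball 0 r, (dx m z ^ 2 + dy m z ^ 2) * ‖om z‖ ^ 2) +
        ∫ z in D, (dx (fun w => m (r * w)) z ^ 2 + dy (fun w => m (r * w)) z ^ 2) *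
          ‖om (r * z)‖ ^ 2 := by
      rw [e0, test_split ig hr1.le, integral_ball_scale _ hr, ← integral_smul]
      congr 1
      refine integral_congr_ae (Eventually.of_forall fun z => ?_)
      simp only
      rw [test_grad_scale (h1.contDiffAt.differentiableAt (by norm_num)), smul_eq_mul, mul_assoc]
    have e2 := test_innerL (μ := μ) T hη hη0 hr hr1 (g := fun w => m w * om w) fun z hz =>
      hmC.contDiffAt.mul (com z (hsub hz))
    have e3 := test_innerL (μ := μ) T hη hη0 hr hr1 (g := fun w => η (w / r))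
      fun z _ => hη'.contDiffAt
    simp only [mul_div_cancel_left₀ _ hr'] at e3
    have e4 : EB μ (fun z => m z * v₀ z)
        (fun z => m z * Φ₀ z + dB (fun w => (m w : ℂ)) z * v₀ z / deriv φ z)
        ((ball (0 : ℂ) r).indicator fun w => deriv φ w * η (w / r))
        ((ball (0 : ℂ) r).indicator (dB fun w => η (w / r))) = _ := Eq.trans (by
      rw [EB, ← test_indicator _ hr1.le, ← test_indicator _ hr1.le]
      congr 1
      · refine integral_congr_ae ?_
        filter_upwards [hm.v_eq, hm.F_eq, ae_restrict_mem measurableSet_ball] with z h1 h2 hz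
        by_cases hb : z ∈ ball (0 : ℂ) r
        · simp only [indicator_of_mem hb]
          have h3 : Φ₀ z = dB om z := by
            refine mul_left_cancel₀ (T.ne z hz) ?_
            rw [h2, (hm.om_eq T hz).2.1, FR]
            push_cast
            rw [rho_eq]; ring
          rw [dB_mul (hmC.contDiffAt.differentiableAt (by norm_num))
            ((com z hz).differentiableAt (by norm_num)), h1, h3, mul_div_assoc, add_comm]
          rfl
        · simp [indicator_of_notMem hb]
      · congr 1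
        refine integral_congr_ae ?_
        filter_upwards [hm.v_eq, ae_restrict_mem measurableSet_ball] with z h1 hz
        by_cases hb : z ∈ ball (0 : ℂ) r
        · simp only [indicator_of_mem hb]
          rw [h1, show dD (fun w => (a w : ℂ)) z = _ from hVe z hz]
          congr 2
          ring
        · simp [indicator_of_notMem hb]) e2
    have e5 : EB μ ((ball (0 : ℂ) r).indicator fun w => deriv φ w * η (w / r))
        ((ball (0 : ℂ) r).indicator (dB fun w => η (w / r)))
        ((ball (0 : ℂ) r).indicator fun w => deriv φ w * η (w / r))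
        ((ball (0 : ℂ) r).indicator (dB fun w => η (w / r))) = _ := Eq.trans (by
      rw [EB, ← test_indicator _ hr1.le, ← test_indicator _ hr1.le]
      congr 1
      · refine integral_congr_ae (Eventually.of_forall fun z => ?_)
        by_cases hb : z ∈ ball (0 : ℂ) r <;> simp [hb]
      · congr 1
        refine integral_congr_ae (Eventually.of_forall fun z => ?_)
        by_cases hb : z ∈ ball (0 : ℂ) r <;> simp [hb]) e3
    rw [e1, e4, e5]
    have e6 : ∀ z, VD a z / deriv φ z = om z := fun _ => rfl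
    simp only [Wt, e6]
    linarith
  · have hθ0 := hP.θ_pos
    have hθ1 := hP.θ_lt
    have hμ := S.mu_pos
    have c1 := hG.EB_sq_leL T hθ1.le a1 a2
    have c2 := hG.EB_nonnegL T hθ1.le a1
    have c3 := hG.EB_nonnegL T hθ1.le a2
    have c4 := hG.dirichletL T a2 a3
    have c5 := test_EB_mulL T h₀ ldiv hmc
    have c6 : ∫ z in D, (dx m z ^ 2 + dy m z ^ 2) * ‖om z‖ ^ 2 ≤ Λ * ∫ z in D, ‖om z‖ ^ 2 := by
      rw [← integral_const_mul]
      exact setIntegral_mono_on ig ((integrableOn_norm_sq lom).const_mul _) measurableSet_ball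
        fun z hz => mul_le_mul_of_nonneg_right (hM z hz).2 (sq_nonneg _)
    rw [← e0, ← c5] at c6
    have c7 : ∫ z in D, ‖m z * v₀ z + (ball (0 : ℂ) r).indicator
        (fun w => deriv φ w * η (w / r)) z‖ ^ 2 ≤ 2 * M ^ 2 * (∫ z in D, ‖v₀ z‖ ^ 2) +
        2 * ∫ z in D, ‖(ball (0 : ℂ) r).indicator (fun w => deriv φ w * η (w / r)) z‖ ^ 2 := by
      have i1 := (integrableOn_norm_sq h₀.adm.l2v).const_mul (2 * M ^ 2)
      have i2 := (integrableOn_norm_sq a2.l2v).const_mul 2
      rw [← integral_const_mul, ← integral_const_mul, ← integral_add i1 i2]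
      refine setIntegral_mono_on (integrableOn_norm_sq (a1.addL T a2).l2v) (i1.add i2)
        measurableSet_ball fun z hz => ?_
      generalize (ball (0 : ℂ) r).indicator (fun w => deriv φ w * η (w / r)) z = y
      have n1 := pow_le_pow_left₀ (norm_nonneg _) (norm_add_le ((m z : ℂ) * v₀ z) y) 2
      have n2 : ‖(m z : ℂ) * v₀ z‖ ^ 2 ≤ M ^ 2 * ‖v₀ z‖ ^ 2 := by
        rw [norm_mul, mul_pow, norm_real, Real.norm_eq_abs]
        exact mul_le_mul_of_nonneg_right (pow_le_pow_left₀ (abs_nonneg _) (hM z hz).1 2)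
          (sq_nonneg _)
      nlinarith [sq_nonneg (‖(m z : ℂ) * v₀ z‖ - ‖y‖)]
    rw [test_EB_add a1.l2v a1.l2F a2.l2v a2.l2F]
    have n0 : 0 ≤ M ^ 2 * (μ * ∫ z in D, ‖v₀ z‖ ^ 2) :=
      mul_nonneg (sq_nonneg _) (mul_nonneg hμ.le (integral_nonneg fun _ => sq_nonneg _))
    have c8 := mul_le_mul_of_nonneg_left c7 (mul_nonneg (sub_nonneg.2 hθ1.le) hμ.le)
    generalize EB μ (fun z => m z * v₀ z) _ (fun z => m z * v₀ z) _ = E₁ at *
    generalize EB μ (fun z => m z * v₀ z) _ _ _ = E₂ at *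
    generalize EB μ ((ball (0 : ℂ) r).indicator fun w => deriv φ w * η (w / r)) _ _ _ = E₃ at *
    have c9 : -(2 * E₂) ≤ 2 * E₁ + E₃ / 2 :=
      (neg_le_abs _).trans (abs_le_of_sq_le_sq' (by nlinarith [sq_nonneg (2 * E₁ - E₃ / 2)])
        (by positivity) |> abs_le.2)
    nlinarith
  · rw [test_ell_addL T hK a1.l2v a1.l2F a2.l2v a2.l2F, hm.ell_mul T hmc hK, ell,
      test_fluxL T hη hη0 hr hr1 (U := fun w => I * (K w : ℂ))
        (contDiff_const.mul (ofRealCLM.contDiff.comp (hK.of_le (by norm_cast)))).contDiffOn,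
      add_zero]

end Vale.Agent.P071
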