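import Vale.Agent.P071L.Sing
import Vale.Agent.P071.NoRel
import Vale.Agent.P071.RepAux

/-!
# Pointwise kernel inequalities
-/

open Complex Metric Set Filter Topology MeasureTheory
open scoped ContDiff ComplexConjugate Real

namespace Vale.Agent.P071

/-- The quantity `|1 - conj x y|²`. -/
noncomputable def tgE (x y : ℂ) : ℝ := ‖x - y‖ ^ 2 + dl x * dl y

lemma tgE_symm (x y : ℂ) : tgE x y = tgE y x := by
  rw [tgE, tgE, norm_sub_rev, mul_comm]

lemma tgE_eq (x y : ℂ) : tgE x y = ‖1 - conj x * y‖ ^ 2 := by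
  rw [rep_norm_sq, tgE, norm_sub_rev]

lemma tgE_pos {x y : ℂ} (hx : x ∈ Db) (hy : y ∈ Db) (hxy : x ≠ y) : 0 < tgE x y := by
  have h1 : 0 < ‖x - y‖ := norm_pos_iff.2 (sub_ne_zero.2 hxy)
  have h2 := mul_nonneg (dl_nonneg hx) (dl_nonneg hy)
  unfold tgE
  positivity

lemma tgE_le {x y : ℂ} (hx : x ∈ Db) (hy : y ∈ Db) : tgE x y ≤ 4 := by
  have h1 := norm_sub_le (1 : ℂ) (conj x * y)
  rw [norm_one, norm_mul, Complex.norm_conj] at h1
  have h2 := mul_le_one₀ (kern0_norm_le hx) (norm_nonneg y) (kern0_norm_le hy)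
  rw [tgE_eq]
  nlinarith [norm_nonneg (1 - conj x * y)]

lemma tgE_dl {y q : ℂ} (hy : y ∈ Db) (hq : q ∈ Db) : dl y ^ 2 ≤ 4 * tgE y q := by
  have h1 := rep_one_sub_le (x := y) hq
  have h2 := kern0_norm_le hy
  have h3 := norm_nonneg y
  have h4 : dl y ≤ 2 * ‖1 - conj y * q‖ := by unfold dl; nlinarith
  have h5 := pow_le_pow_left₀ (dl_nonneg hy) h4 2
  rw [tgE_eq]
  linarith

lemma tgE_tri {p q y : ℂ} (hp : p ∈ Db) (hq : q ∈ Db) (hy : y ∈ Db) :
    tgE p q ≤ 2 * (tgE p y + tgE y q) := by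
  have e : 1 - conj p * q = (1 - conj p * y) + conj p * (y - q) := by ring
  have h1 := norm_add_le (1 - conj p * y) (conj p * (y - q))
  rw [← e, norm_mul, Complex.norm_conj] at h1
  have h2 : ‖p‖ * ‖y - q‖ ≤ ‖y - q‖ := mul_le_of_le_one_left (norm_nonneg _) (kern0_norm_le hp)
  have h3 : ‖y - q‖ ^ 2 ≤ tgE y q := le_add_of_nonneg_right (mul_nonneg (dl_nonneg hy) (dl_nonneg hq))
  have h4 := pow_le_pow_left₀ (norm_nonneg _) (h1.trans (add_le_add_right h2 _)) 2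
  rw [tgE_eq p q, tgE_eq p y]
  nlinarith [sq_nonneg (‖1 - conj p * y‖ - ‖y - q‖)]

lemma tg_K0_ge {x y : ℂ} (hx : x ∈ Db) (hy : y ∈ Db) (hxy : x ≠ y) :
    1 / (4 * π * tgE x y) ≤ K0 x y := by
  have h1 : 0 < ‖x - y‖ := norm_pos_iff.2 (sub_ne_zero.2 hxy)
  have h2 := mul_nonneg (dl_nonneg hx) (dl_nonneg hy)
  have hπ := Real.pi_pos
  unfold K0 tgE
  split_ifs with h
  · rw [h, add_zero]
  · have h3 : 0 < dl x * dl y := lt_of_le_of_ne h2 (Ne.symm h)
    unfold G0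
    generalize dl x * dl y = P at h3
    have hd : 0 < ‖x - y‖ ^ 2 := by positivity
    generalize ‖x - y‖ ^ 2 = d at hd
    have h4 := Real.one_sub_inv_le_log_of_pos (show 0 < 1 + P / d by positivity)
    have e : 1 - (1 + P / d)⁻¹ = P / (d + P) := by field_simp; ring
    rw [e] at h4
    rw [le_div_iff₀ h3, le_div_iff₀ (by positivity)]
    refine le_trans (le_of_eq ?_) h4
    field_simp

lemma tg_K0_le {s : ℝ} (hs : 0 < s) (hs1 : s ≤ 1) {x y : ℂ} (hx : x ∈ Db) (hy : y ∈ Db)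
    (hxy : x ≠ y) : K0 x y ≤ 8 / s * ‖x - y‖ ^ (-(2 * s)) / (4 * π * tgE x y) := by
  have h1 : 0 < ‖x - y‖ := norm_pos_iff.2 (sub_ne_zero.2 hxy)
  have h2 := mul_nonneg (dl_nonneg hx) (dl_nonneg hy)
  have hπ := Real.pi_pos
  have hE := tgE_le hx hy
  have hE0 := tgE_pos hx hy hxy
  have hd : 0 < ‖x - y‖ ^ 2 := by positivity
  have hu : 1 ≤ tgE x y / ‖x - y‖ ^ 2 := by
    rw [one_le_div hd]; exact le_add_of_nonneg_right h2
  have h5 : (tgE x y / ‖x - y‖ ^ 2) ^ s ≤ 4 * ‖x - y‖ ^ (-(2 * s)) := by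
    rw [Real.div_rpow hE0.le hd.le, ← Real.rpow_natCast, ← Real.rpow_mul h1.le,
      Real.rpow_neg h1.le, div_eq_mul_inv]
    push_cast
    refine mul_le_mul_of_nonneg_right ?_ (by positivity)
    calc tgE x y ^ s ≤ 4 ^ s := Real.rpow_le_rpow hE0.le hE hs.le
      _ ≤ 4 ^ (1 : ℝ) := Real.rpow_le_rpow_of_exponent_le (by norm_num) hs1
      _ = 4 := Real.rpow_one 4
  have h6 := Real.one_le_rpow hu hs.le
  have h7 := Real.log_le_rpow_div (zero_le_one.trans hu) hs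
  have h8 : 1 + Real.log (tgE x y / ‖x - y‖ ^ 2) ≤ 8 / s * ‖x - y‖ ^ (-(2 * s)) := by
    have k1 : 1 ≤ (tgE x y / ‖x - y‖ ^ 2) ^ s / s := by
      rw [one_le_div hs]; linarith
    have k2 := div_le_div_of_nonneg_right h5 hs.le
    have e : 8 / s * ‖x - y‖ ^ (-(2 * s)) = 2 * (4 * ‖x - y‖ ^ (-(2 * s)) / s) := by ring
    linarith
  refine le_trans ?_ (div_le_div_of_nonneg_right h8 (by positivity))
  have h9 := Real.log_nonneg hu
  unfold K0
  split_ifs with h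
  · have e : tgE x y = ‖x - y‖ ^ 2 := by rw [tgE, h, add_zero]
    rw [e] at h9 ⊢
    exact div_le_div_of_nonneg_right (by linarith) (by positivity)
  · have h3 : 0 < dl x * dl y := lt_of_le_of_ne h2 (Ne.symm h)
    have e : 1 + dl x * dl y / ‖x - y‖ ^ 2 = tgE x y / ‖x - y‖ ^ 2 := by
      unfold tgE; field_simp
    have h4 := Real.log_le_sub_one_of_pos (zero_lt_one.trans_le hu)
    rw [← e, add_sub_cancel_left, le_div_iff₀ hd, e] at h4
    rw [G0, e, div_div, div_le_div_iff₀ (by positivity) (by positivity)]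
    generalize Real.log (tgE x y / ‖x - y‖ ^ 2) = L at h4 h9
    unfold tgE
    nlinarith [mul_le_mul_of_nonneg_left h4 hπ.le]

lemma tg_K0_self (x : ℂ) : K0 x x = 0 := by
  simp [K0, G0]

/-- The three Green function inequality on the disc. -/
theorem three_G {η : ℝ} (h0 : 0 < η) (h1 : η ≤ 1) : ∃ C : ℝ, 0 < C ∧ ∀ p ∈ Db, ∀ q ∈ Db, ∀ y ∈ D,
    p ≠ q → K0 p y * K0 y q * dl y ^ 2 ≤ C * K0 p q * (‖y - p‖ ^ (-η) + ‖y - q‖ ^ (-η)) := by
  refine ⟨(8 / (η / 4)) ^ 2 * 8, by positivity, fun p hp q hq y hy hpq => ?_⟩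
  have hy' := kern0_D_sub hy
  have hK := K0_nonneg hp hq
  rcases eq_or_ne p y with rfl | hpy
  · rw [tg_K0_self, zero_mul, zero_mul]; positivity
  rcases eq_or_ne y q with rfl | hyq
  · rw [tg_K0_self, mul_zero, zero_mul]; positivity
  have hπ := Real.pi_gt_three
  have a1 := tg_K0_le (s := η / 4) (by positivity) (by linarith) hp hy' hpy
  have a2 := tg_K0_le (s := η / 4) (by positivity) (by linarith) hy' hq hyq
  have a3 := tg_K0_ge hp hq hpq
  have b1 := tgE_pos hp hy' hpy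
  have b2 := tgE_pos hy' hq hyq
  have b3 := tgE_pos hp hq hpq
  have c1 := tgE_dl hy' hp
  have c2 := tgE_dl hy' hq
  have c3 := tgE_tri hp hq hy'
  rw [tgE_symm y p] at c1
  have sq : ∀ u : ℝ, 0 ≤ u → u ^ (-η) = (u ^ (-(2 * (η / 4)))) ^ 2 := fun u hu => by
    rw [← Real.rpow_natCast, ← Real.rpow_mul hu]
    congr 1
    push_cast
    ring
  rw [sq _ (norm_nonneg _), sq _ (norm_nonneg _), norm_sub_rev y p]
  have d1 : 0 ≤ ‖p - y‖ ^ (-(2 * (η / 4))) := by positivity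
  have d2 : 0 ≤ ‖y - q‖ ^ (-(2 * (η / 4))) := by positivity
  have hc : 0 < 8 / (η / 4) := by positivity
  generalize ‖p - y‖ ^ (-(2 * (η / 4))) = a at *
  generalize ‖y - q‖ ^ (-(2 * (η / 4))) = b at *
  generalize 8 / (η / 4) = c at *
  have e1 : dl y ^ 2 * tgE p q ≤ 16 * (tgE p y * tgE y q) := by
    nlinarith [mul_le_mul_of_nonneg_left c3 (sq_nonneg (dl y)),
      mul_le_mul_of_nonneg_right c1 b2.le, mul_le_mul_of_nonneg_right c2 b1.le]
  have e2 : dl y ^ 2 / (4 * π * tgE p y * (4 * π * tgE y q)) ≤ 16 * (1 / (4 * π * tgE p q)) := by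
    rw [mul_one_div, div_le_div_iff₀ (by positivity) (by positivity)]
    have k1 := mul_le_mul_of_nonneg_left e1 (show 0 ≤ 4 * π by positivity)
    have k2 : 0 ≤ π * (tgE p y * tgE y q) := by positivity
    nlinarith [mul_le_mul_of_nonneg_right hπ.le k2]
  calc K0 p y * K0 y q * dl y ^ 2
      ≤ c * a / (4 * π * tgE p y) * (c * b / (4 * π * tgE y q)) * dl y ^ 2 :=
        mul_le_mul_of_nonneg_right (mul_le_mul a1 a2 (K0_nonneg hy' hq) (by positivity))
          (sq_nonneg _)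
    _ = c ^ 2 * (a * b) * (dl y ^ 2 / (4 * π * tgE p y * (4 * π * tgE y q))) := by
        field_simp
    _ ≤ c ^ 2 * ((a ^ 2 + b ^ 2) / 2) * (16 * K0 p q) := by
        refine mul_le_mul (mul_le_mul_of_nonneg_left ?_ (sq_nonneg c)) (e2.trans (by linarith))
          (by positivity) (by positivity)
        nlinarith [sq_nonneg (a - b)]
    _ = _ := by ring

lemma tg_log_sub {a b : ℝ} (ha : 0 ≤ a) (hb : 0 ≤ b) :
    |Real.log (1 + a) - Real.log (1 + b)| ≤ |a - b| := by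
  have key : ∀ a b : ℝ, 0 ≤ a → 0 ≤ b → Real.log (1 + a) - Real.log (1 + b) ≤ |a - b| := by
    intro a b ha hb
    rw [← Real.log_div (by positivity) (by positivity)]
    refine (Real.log_le_sub_one_of_pos (by positivity)).trans ?_
    rw [div_sub_one (by positivity), div_le_iff₀ (by positivity)]
    nlinarith [le_abs_self (a - b), abs_nonneg (a - b)]
  have h1 := key a b ha hb
  have h2 := key b a hb ha
  rw [abs_sub_comm] at h2
  rw [abs_le]
  constructor <;> linarith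

lemma tg_far {a b d : ℝ} (ha : 0 ≤ a) (ha1 : a ≤ 1 / 4) (hb : 1 / 2 ≤ b) (hb1 : b ≤ 1)
    (h : |d - b| ≤ a) : |((1 - a ^ 2) * b ^ 2 - d ^ 2) / (d ^ 2 * b ^ 2)| ≤ 256 * a := by
  have b4 := abs_le.1 h
  have b5 : 1 / 4 ≤ d := by linarith [b4.1]
  have hd : 0 < d := by linarith
  have hb0 : 0 < b := by linarith
  have b7 : |(1 - a ^ 2) * b ^ 2 - d ^ 2| ≤ 4 * a := by
    have k1 : a ^ 2 * b ^ 2 ≤ a := by
      have : b ^ 2 ≤ 1 := pow_le_one₀ hb0.le hb1
      nlinarith [mul_le_mul_of_nonneg_left this (sq_nonneg a)]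
    have k2 : 0 ≤ a ^ 2 * b ^ 2 := by positivity
    have k3 : 0 ≤ d + b := by positivity
    have k4 : d + b ≤ 3 := by linarith [b4.2]
    have k5 := mul_le_mul_of_nonneg_right b4.1 k3
    have k6 := mul_le_mul_of_nonneg_right b4.2 k3
    have k7 := mul_le_mul_of_nonneg_left k4 ha
    rw [abs_le]
    constructor <;> linarith
  have b8 : 1 / 64 ≤ d ^ 2 * b ^ 2 := by
    have k1 : (1 / 4 * (1 / 2) : ℝ) ≤ d * b := mul_le_mul b5 hb (by norm_num) hd.le
    nlinarith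
  rw [abs_div, abs_of_pos (by positivity : 0 < d ^ 2 * b ^ 2), div_le_iff₀ (by positivity)]
  linarith [mul_le_mul_of_nonneg_left b8 ha]

/-- Hölder estimate of the Green function near the centre, with boundary decay. -/
theorem G0_diff {η : ℝ} (h0 : 0 < η) (h1 : η ≤ 1) : ∃ C : ℝ, 0 < C ∧ ∀ x : ℂ, ‖x‖ ≤ 1 / 4 →
    ∀ y ∈ D, y ≠ 0 → y ≠ x →
      |G0 x y - G0 0 y| ≤ C * ‖x‖ ^ η * dl y * (‖y - x‖ ^ (-η) + ‖y - 0‖ ^ (-η)) := by
  refine ⟨256 + 1 / η, by positivity, fun x hx y hy hy0 hyx => ?_⟩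
  have hy' := kern0_D_sub hy
  have hx' : x ∈ Db := by rw [mem_closedBall_zero_iff]; linarith
  have hr : 0 < ‖x - y‖ := norm_pos_iff.2 (sub_ne_zero.2 hyx.symm)
  have hn : 0 < ‖y‖ := norm_pos_iff.2 hy0
  have hn1 := kern0_norm_le hy'
  have hx0 := norm_nonneg x
  have hπ := Real.pi_gt_three
  have a1 : ‖x‖ ≤ ‖x‖ ^ η := Real.self_le_rpow_of_le_one hx0 (by linarith) h1
  have a2 : 1 ≤ ‖y‖ ^ (-η) := Real.one_le_rpow_of_pos_of_le_one_of_nonpos hn hn1 (by linarith)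
  have a3 : 0 ≤ ‖x - y‖ ^ (-η) := by positivity
  have a4 : 0 < 1 / η := by positivity
  have a5 := dl_nonneg hy'
  have a6 : |‖x - y‖ - ‖y‖| ≤ ‖x‖ := by
    have := abs_norm_sub_norm_le (y - x) y
    rwa [sub_sub_cancel_left, norm_neg, norm_sub_rev] at this
  rw [sub_zero, norm_sub_rev y x]
  have a7 : ‖x‖ ≤ ‖x‖ ^ η * (‖x - y‖ ^ (-η) + ‖y‖ ^ (-η)) :=
    a1.trans (le_mul_of_one_le_right (by positivity) (by linarith))
  have a8 := sing_log_sub h0 h1 hr hn a6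
  have e0 : (256 + 1 / η) * ‖x‖ ^ η * dl y * (‖x - y‖ ^ (-η) + ‖y‖ ^ (-η)) =
      (256 + 1 / η) * dl y * (‖x‖ ^ η * (‖x - y‖ ^ (-η) + ‖y‖ ^ (-η))) := by ring
  have e1 : ‖x‖ ^ η / η * (‖x - y‖ ^ (-η) + ‖y‖ ^ (-η)) =
      1 / η * (‖x‖ ^ η * (‖x - y‖ ^ (-η) + ‖y‖ ^ (-η))) := by ring
  rw [e0]
  rw [e1] at a8
  generalize ‖x‖ ^ η * (‖x - y‖ ^ (-η) + ‖y‖ ^ (-η)) = Q at a7 a8
  have hQ : 0 ≤ Q := hx0.trans a7
  have hA := abs_nonneg (G0 x y - G0 0 y)
  rcases le_total ‖y‖ (1 / 2) with hc | hc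
  · have b1 := norel_G0_eq hx' hy' hyx.symm
    have b2 := norel_G0_zero hy' hy0
    have b3 := abs_le.1 (norel_logN (show ‖x‖ ≤ 1 / 2 by linarith) hy')
    have b4 := abs_le.1 a8
    have b5 : |4 * π * (G0 x y - G0 0 y)| ≤ (4 + 2 * (1 / η)) * Q := by
      rw [mul_sub, b1, b2, abs_le]
      constructor <;> nlinarith [b3.1, b3.2, b4.1, b4.2]
    rw [abs_mul, abs_of_pos (by positivity : 0 < 4 * π)] at b5
    have b6 : 3 / 4 ≤ dl y := by unfold dl; nlinarith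
    have b7 : 0 ≤ (256 + 1 / η) * Q := by positivity
    have b8 : 0 ≤ 1 / η * Q := by positivity
    nlinarith [mul_le_mul_of_nonneg_left b6 b7, mul_le_mul_of_nonneg_right hπ.le hA]
  · have b1 := tg_log_sub (kern0_arg_nonneg hx' hy') (kern0_arg_nonneg kern0_zero_mem hy')
    have b2 : G0 x y - G0 0 y = (Real.log (1 + dl x * dl y / ‖x - y‖ ^ 2) -
        Real.log (1 + dl 0 * dl y / ‖0 - y‖ ^ 2)) / (4 * π) := by
      unfold G0; ring
    have b3 : dl 0 = 1 := by simp [dl]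
    have b6 : dl x * dl y / ‖x - y‖ ^ 2 - dl 0 * dl y / ‖0 - y‖ ^ 2 =
        dl y * ((dl x * ‖y‖ ^ 2 - ‖x - y‖ ^ 2) / (‖x - y‖ ^ 2 * ‖y‖ ^ 2)) := by
      rw [b3, zero_sub, norm_neg]
      field_simp
    have b9 : |(dl x * ‖y‖ ^ 2 - ‖x - y‖ ^ 2) / (‖x - y‖ ^ 2 * ‖y‖ ^ 2)| ≤ 256 * Q :=
      (tg_far hx0 hx hc hn1 a6).trans (by linarith)
    rw [b6, abs_mul, abs_of_nonneg a5] at b1
    rw [b2, abs_div, abs_of_pos (by positivity : 0 < 4 * π)]
    refine (div_le_self (abs_nonneg _) (by linarith)).trans (b1.trans ?_)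
    have k1 := mul_le_mul_of_nonneg_left b9 a5
    have k2 : 0 ≤ 1 / η * (dl y * Q) := by positivity
    nlinarith

lemma tg_rpow_le {η : ℝ} (h0 : 0 < η) (h1 : η ≤ 1) {l t : ℝ} (hl : 0 < l) (hl1 : l ≤ 1)
    (ht : 0 ≤ t) : t ^ (-η) ≤ l * t ^ (-(3 / 2) : ℝ) + (l ^ 2)⁻¹ := by
  have hc : 0 < l ^ 2 := by positivity
  have hc1 : l ^ 2 ≤ 1 := pow_le_one₀ hl.le hl1
  rcases ht.eq_or_lt with rfl | ht
  · rw [Real.zero_rpow (by linarith)]; positivity
  rcases le_total (l ^ 2) t with h | h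
  · have k1 : t ^ (-η) ≤ (l ^ 2) ^ (-η) := Real.rpow_le_rpow_of_nonpos hc h (by linarith)
    have k2 : (l ^ 2) ^ (-η) ≤ (l ^ 2) ^ (-1 : ℝ) :=
      Real.rpow_le_rpow_of_exponent_ge hc hc1 (by linarith)
    rw [Real.rpow_neg_one] at k2
    have k3 : 0 ≤ l * t ^ (-(3 / 2) : ℝ) := by positivity
    linarith
  · have k1 : t ^ (-η) ≤ t ^ (1 / 2 + -(3 / 2) : ℝ) :=
      Real.rpow_le_rpow_of_exponent_ge ht (h.trans hc1) (by linarith)
    rw [Real.rpow_add ht, ← Real.sqrt_eq_rpow] at k1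
    have k2 : √t ≤ l := Real.sqrt_le_iff.2 ⟨hl.le, h⟩
    have k3 := mul_le_mul_of_nonneg_right k2 (show 0 ≤ t ^ (-(3 / 2) : ℝ) by positivity)
    have k4 : 0 ≤ (l ^ 2)⁻¹ := by positivity
    linarith

lemma tg_riesz {η : ℝ} (h0 : 0 < η) (h1 : η ≤ 1) {l : ℝ} (hl : 0 < l) (hl1 : l ≤ 1) {A : Set ℂ}
    (hA : MeasurableSet A) :
    Riesz (A.indicator fun _ => 1) η (l * kernI + volume.real (A ∩ D) * (l ^ 2)⁻¹) := by
  intro x hx
  obtain ⟨i1, i2⟩ := kern_sing hx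
  have i3 : Integrable (A.indicator fun _ : ℂ => (l ^ 2)⁻¹) (volume.restrict D) :=
    (integrable_const _).indicator hA
  have i4 : Integrable (fun y => l * ‖y - x‖ ^ (-(3 / 2) : ℝ) +
      A.indicator (fun _ => (l ^ 2)⁻¹) y) (volume.restrict D) := (i1.const_mul l).add i3
  have hb : ∀ y, A.indicator (fun _ => (1 : ℝ)) y * ‖y - x‖ ^ (-η) ≤
      l * ‖y - x‖ ^ (-(3 / 2) : ℝ) + A.indicator (fun _ => (l ^ 2)⁻¹) y := fun y => by
    by_cases hy : y ∈ A
    · rw [indicator_of_mem hy, indicator_of_mem hy, one_mul]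
      exact tg_rpow_le h0 h1 hl hl1 (norm_nonneg _)
    · rw [indicator_of_notMem hy, indicator_of_notMem hy, zero_mul]
      positivity
  have i5 : IntegrableOn (fun y => A.indicator (fun _ => (1 : ℝ)) y * ‖y - x‖ ^ (-η)) D := by
    refine i4.mono' ((measurable_const.indicator hA).mul (by fun_prop)).aestronglyMeasurable
      (Eventually.of_forall fun y => ?_)
    rw [Real.norm_of_nonneg (mul_nonneg (indicator_nonneg (fun _ _ => zero_le_one) y)
      (by positivity))]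
    exact hb y
  refine ⟨i5, (integral_mono i5 i4 hb).trans ?_⟩
  rw [integral_add (i1.const_mul l) i3, integral_const_mul, integral_indicator_const _ hA,
    measureReal_restrict_apply hA, smul_eq_mul]
  exact add_le_add_left (mul_le_mul_of_nonneg_left i2 hl.le) _

lemma tg_vol_ball (q : ℂ) {r : ℝ} (hr : 0 ≤ r) : volume.real (ball q r) = r ^ 2 * π := by
  simp [Measure.real, hr]

/-- Small sets carry little Riesz potential. -/
theorem riesz_small {η : ℝ} (h0 : 0 < η) (h1 : η ≤ 1) {ε : ℝ} (hε : 0 < ε) : ∃ δ : ℝ, 0 < δ ∧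
    (∀ q : ℂ, Riesz ((ball q δ).indicator fun _ => 1) η ε) ∧
      Riesz ({y | dl y < δ}.indicator fun _ => 1) η ε := by
  have hI := kernI_nonneg
  set l : ℝ := min 1 (ε / (2 * (kernI + 1))) with hl
  have l0 : 0 < l := lt_min one_pos (by positivity)
  have l1 : l ≤ 1 := min_le_left _ _
  have l2 : l * kernI ≤ ε / 2 := by
    have := min_le_right 1 (ε / (2 * (kernI + 1)))
    rw [← hl, le_div_iff₀ (by positivity)] at this
    nlinarith
  set δ : ℝ := min 1 (ε * l ^ 2 / 8) with hδ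
  have d0 : 0 < δ := lt_min one_pos (by positivity)
  have d1 : δ ≤ 1 := min_le_left _ _
  have d2 : δ ≤ ε * l ^ 2 / 8 := min_le_right _ _
  have hπ := Real.pi_le_four
  have hπ0 := Real.pi_pos
  have key : ∀ A : Set ℂ, MeasurableSet A → volume.real (A ∩ D) ≤ δ * π →
      Riesz (A.indicator fun _ => 1) η ε := fun A hA hv x hx => by
    obtain ⟨k1, k2⟩ := tg_riesz h0 h1 l0 l1 hA x hx
    refine ⟨k1, k2.trans ?_⟩
    have k3 : volume.real (A ∩ D) * (l ^ 2)⁻¹ ≤ ε / 2 := by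
      rw [← div_eq_mul_inv, div_le_iff₀ (by positivity)]
      nlinarith
    linarith
  refine ⟨δ, d0, fun q => key _ measurableSet_ball ?_,
    key _ (measurableSet_lt kern0_measurable_dl measurable_const) ?_⟩
  · refine (measureReal_mono inter_subset_left measure_ball_lt_top.ne).trans ?_
    rw [tg_vol_ball q d0.le]
    exact mul_le_mul_of_nonneg_right (by nlinarith) hπ0.le
  · have hs : {y | dl y < δ} ∩ D ⊆ D \ ball 0 √(1 - δ) := by
      rintro y ⟨hy, hy'⟩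
      refine ⟨hy', fun h => ?_⟩
      rw [mem_ball_zero_iff, Real.lt_sqrt (norm_nonneg _)] at h
      have : dl y < δ := hy
      unfold dl at this
      linarith
    refine (measureReal_mono hs (measure_ne_top_of_subset sdiff_subset
      measure_ball_lt_top.ne)).trans (le_of_eq ?_)
    rw [measureReal_sdiff (ball_subset_ball (Real.sqrt_le_one.2 (by linarith))) measurableSet_ball
      measure_ball_lt_top.ne, tg_vol_ball 0 zero_le_one, tg_vol_ball 0 (Real.sqrt_nonneg _),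
      Real.sq_sqrt (by linarith)]
    ring

end Vale.Agent.P071
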