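import Vale.Agent.P071L.TTL
import Vale.Agent.P071.GR

/-!
# The gradient of an eigenfunction is a zero mode
-/

open Complex Metric Set Filter Topology MeasureTheory
open scoped ContDiff ComplexConjugate Real

namespace Vale.Agent.P071

variable {φ : ℂ → ℂ} {μ θ : ℝ}

lemma zl_bm {a : ℂ → ℝ} (ha : ContDiffOn ℝ ∞ a D) (hb : ∃ M : ℝ, ∀ z ∈ D, |a z| ≤ M) : BM a :=
  BM.of_continuousOn ha.continuousOn hb

theorem LEigen.zeroMode (S : LSetup φ μ) {a : ℂ → ℝ} (h : LEigen φ μ a) :
    ZeroMode φ μ (dD fun z => (a z : ℂ)) (fun z => -(μ * conj (deriv φ z) * a z)) := by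
  have ha2 : ∀ z ∈ D, ContDiffAt ℝ 2 a z := fun z hz => (sl_contDiffAt h.smooth hz).of_le zm_two_le
  have ha1 : ∀ z ∈ D, DifferentiableAt ℝ a z := fun z hz =>
    (ha2 z hz).differentiableAt (by norm_num)
  have hD1 : ∀ z ∈ D, ContDiffAt ℝ 1 (dD fun w => (a w : ℂ)) z := fun z hz =>
    contDiffAt_dD (contDiffAt_ofReal' (ha2 z hz)) (by norm_num)
  have ba := zl_bm h.smooth h.bdd
  refine ⟨⟨h.l2grad, (ba.ofReal.memLp_mul ((memLp_conj S.memLp_deriv).const_mul μ)).neg,
    fun U hU => ?_⟩, fun v' Φ' h' => ?_⟩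
  · have hb : Bdd1 fun z => (U z).re := zm_bdd1 hU reCLM
    have hψ : Bdd1 fun z => (U z).im := zm_bdd1 hU imCLM
    obtain ⟨M, hM⟩ := hU.bdd
    have hx : MemLp (dx a) 2 (volume.restrict D) :=
      (memLp_re h.l2grad).ae_eq (sl_ae_mem.mono fun z hz => by simp [dD_ofReal (ha1 z hz)])
    have hy : MemLp (dy a) 2 (volume.restrict D) :=
      (memLp_im h.l2grad).neg.ae_eq (sl_ae_mem.mono fun z hz => by simp [dD_ofReal (ha1 z hz)])
    have e0 : ∀ z ∈ D, (dB (fun w => I * dD (fun w => (a w : ℂ)) w) z).re = 0 := fun z hz => by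
      rw [dB_const_mul I ((hD1 z hz).differentiableAt (by norm_num)),
        dB_dD (contDiffAt_ofReal' (ha2 z hz)), lap_ofReal (ha2 z hz)]
      simp
    have e1 := green_zero_mul (V := fun w => I * dD (fun w => (a w : ℂ)) w)
      (fun z hz => (contDiffAt_const.mul (hD1 z hz)).contDiffWithinAt)
      (integrableOn_of_memLp (h.l2grad.const_mul I))
      ((integrableOn_zero (μ := volume) (s := D)).congr_fun (fun z hz => (e0 z hz).symm)
        measurableSet_ball) hψ (fun z hz => (hM z hz).2.2)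
    have e2 := h.weak _ hb
    have i1 : IntegrableOn (fun z => dx a z * dx (fun z => (U z).re) z +
        dy a z * dy (fun z => (U z).re) z) D :=
      (integrableOn_mul_of_memLp hx hb.bm.2.1.memLp).add
        (integrableOn_mul_of_memLp hy hb.bm.2.2.memLp)
    have i2 : IntegrableOn (fun z => μ * (rho φ z * (a z * (U z).re))) D :=
      Integrable.const_mul (((ba.mul hb.bm.1).mul_integrableOn S.integrableOn_rho).congr_fun
        (fun z _ => mul_comm _ _) measurableSet_ball) μ
    have i3 : IntegrableOn (fun z => dx (fun z => (U z).im) z * dy a z -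
        dy (fun z => (U z).im) z * dx a z) D :=
      (integrableOn_mul_of_memLp hψ.bm.2.1.memLp hy).sub
        (integrableOn_mul_of_memLp hψ.bm.2.2.memLp hx)
    have e3 : ∫ z in D, (dx (fun z => (U z).im) z * dy a z -
        dy (fun z => (U z).im) z * dx a z) = 0 := by
      rw [← e1]
      refine setIntegral_congr_fun measurableSet_ball fun z hz => ?_
      simp only [e0 z hz, dD_ofReal (ha1 z hz)]
      simp
    have i4 : IntegrableOn (fun z => (dx a z * dx (fun z => (U z).re) z +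
        dy a z * dy (fun z => (U z).re) z) - μ * (rho φ z * (a z * (U z).re))) D := i1.sub i2
    have e4 := integral_sub i4 i3
    rw [integral_sub i1 i2, integral_const_mul, e2, e3, sub_self, sub_self] at e4
    rw [← e4]
    refine setIntegral_congr_fun measurableSet_ball fun z hz => ?_
    have d0 := hU.differentiableAt hz
    have e5 : deriv φ z * -(μ * conj (deriv φ z) * a z) = (-(μ * rho φ z * a z) : ℝ) := by
      push_cast; rw [rho_eq]; ring
    simp only [e5, dD_ofReal (ha1 z hz), dx_re d0, dy_re d0, dx_im d0, dy_im d0]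
    rw [dD]
    simp
    ring
  · have hU : UH fun z => (a z : ℂ) := by
      simpa only [one_mul] using UH.of_mul (m := fun _ => 1)
        (UC.of_contDiff contDiff_const fun _ _ => one_im) h.smooth h.bdd h.l2grad
    have t5 := h'.eq_UH S.toLAn hU
    have i1 := integrableOn_mul_conj_re h'.l2v h.l2grad
    have i2 : IntegrableOn (fun z => (deriv φ z * Φ' z * conj (a z : ℂ)).re) D :=
      Integrable.re (𝕜 := ℂ) ((ba.ofReal.conj.mul_integrableOn
        (S.integrableOn_mul h'.l2F)).congr_fun (fun z _ => mul_comm _ _) measurableSet_ball)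
    simp only [add_re] at t5
    rw [integral_add i1 i2] at t5
    have e1 : ∫ z in D, (-(μ * conj (deriv φ z) * a z) * conj (Φ' z)).re =
        -μ * ∫ z in D, (deriv φ z * Φ' z * conj (a z : ℂ)).re := by
      rw [← integral_const_mul]
      refine setIntegral_congr_fun measurableSet_ball fun z _ => ?_
      simp
      ring
    have e2 : ∫ z in D, (dD (fun z => (a z : ℂ)) z * conj (v' z)).re =
        ∫ z in D, (v' z * conj (dD (fun z => (a z : ℂ)) z)).re := by
      simp only [sl_re_mul_conj_comm (v' _)]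
    rw [EB, e1, e2]
    linear_combination (-μ) * t5

lemma zl_trace (S : LAn φ) {v Φ : ℂ → ℂ} {a : ℂ → ℝ} (hm : LMode φ μ v Φ a) :
    Integrable (fun s => VT φ μ a (ec s)) mc ∧ (∀ᵐ s ∂mc, (ec s * VT φ μ a (ec s)).re = 0) ∧
      ∀ G : ℂ → ℂ, ContDiff ℝ 1 G → ∫ z in D, (dB G z * v z + G z * (deriv φ z * Φ z)).re =
        ∫ s, (G (ec s) * (ec s * VT φ μ a (ec s))).re ∂mc := by
  obtain ⟨M, hM⟩ := hm.bdd
  have h1 : AEStronglyMeasurable (fun y => (FR φ μ a y : ℂ)) (volume.restrict D) :=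
    continuous_ofReal.comp_aestronglyMeasurable
      (((measurable_rho φ).aestronglyMeasurable.const_mul μ).mul
        (sl_aesm hm.smooth.continuousOn)).neg
  obtain ⟨h2, h3, h4⟩ := S.TT_trace (M := |μ| * M) h1 (fun y hy => by
    have := rho_nonneg φ y
    rw [norm_real, Real.norm_eq_abs, FR, abs_neg, abs_mul, abs_mul, abs_of_nonneg this]
    calc |μ| * rho φ y * |a y| ≤ |μ| * rho φ y * M :=
          mul_le_mul_of_nonneg_left (hM y hy) (by positivity)
      _ = _ := by ring) (by simpa only [ofReal_re] using hm.mean)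
  refine ⟨h2, h3, fun G hG => Eq.trans (integral_congr_ae ?_) (h4 G hG)⟩
  filter_upwards [hm.v_eq, hm.F_eq, hm.TT_eq] with z e1 e2 e3
  rw [e1, e2, e3, VT]

theorem LMode.integrable_trace (S : LAn φ) {v Φ : ℂ → ℂ} {a : ℂ → ℝ} (hm : LMode φ μ v Φ a) :
    Integrable (fun s => (ec s * VT φ μ a (ec s)).im) mc := by
  have h1 : Integrable (fun s => ec s * VT φ μ a (ec s)) mc :=
    (zl_trace S hm).1.bdd_mul (c := 1) (continuous_circleMap 0 1).aestronglyMeasurable
      (Eventually.of_forall fun s => by simp)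
  exact h1.im

theorem LMode.not_ae_zero (S : LSetup φ μ) (hθ : θ < 1) (hG : Ground φ μ θ)
    {v Φ : ℂ → ℂ} (h : ZeroMode φ μ v Φ) {a : ℂ → ℝ} (hm : LMode φ μ v Φ a)
    (hne : ∃ z ∈ D, a z ≠ 0) : ¬∀ᵐ s ∂mc, (ec s * VT φ μ a (ec s)).im = 0 := by
  intro hcon
  obtain ⟨-, hre, hgr⟩ := zl_trace S.toLAn hm
  have h0 : ∀ᵐ s ∂mc, ec s * VT φ μ a (ec s) = 0 := by
    filter_upwards [hre, hcon] with s h1 h2
    exact Complex.ext h1 h2
  have h1 := hG (fun z => I * v z) (fun z => I * Φ z) (h.adm.l2v.const_mul I)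
    (h.adm.l2F.const_mul I) fun U hU _ => by
      have hU1 : ContDiff ℝ 1 U := hU.of_le zm_one_le
      have hU2 : ContDiff ℝ 1 fun w => conj (U w) :=
        contDiff_iff_contDiffAt.2 fun z => contDiffAt_conj' hU1.contDiffAt
      have e := hgr (fun w => I * conj (U w)) (contDiff_const.mul hU2)
      have e' : ∫ s, (I * conj (U (ec s)) * (ec s * VT φ μ a (ec s))).re ∂mc = 0 :=
        integral_eq_zero_of_ae (h0.mono fun s hs => by simp only [hs, mul_zero, zero_re]; rfl)
      rw [e'] at e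
      rw [← e]
      refine setIntegral_congr_fun measurableSet_ball fun z _ => ?_
      rw [dB_const_mul I (hU2.differentiable (by norm_num) z),
        dB_conj (hU1.differentiable (by norm_num) z)]
      refine congrArg re ?_
      ring
  have h2 := h.zero _ _ h.adm
  obtain ⟨i1, -, i3⟩ := S.norm_sq_eq h.adm.l2F
  rw [sl_EB_self, ← i3] at h2
  set J := ∫ z in D, μ ^ 2 * rho φ z * a z ^ 2 with hJ
  have e0 : (fun z => (deriv φ z * Φ z).re ^ 2 / rho φ z) =ᵐ[volume.restrict D]
      fun z => μ ^ 2 * rho φ z * a z ^ 2 := by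
    filter_upwards [sl_ae_mem, hm.F_eq] with z hz h2
    have := (S.rho_pos hz).ne'
    rw [h2, ofReal_re, FR]
    field_simp
  have e1 : ∫ z in D, (deriv φ z * Φ z).re ^ 2 / rho φ z = J := integral_congr_ae e0
  have e2 : ∫ z in D, (deriv φ z * Φ z).im ^ 2 / rho φ z = ∫ _ in D, (0 : ℝ) := by
    refine integral_congr_ae ?_
    filter_upwards [hm.F_eq] with z h2
    rw [h2, ofReal_im]
    simp
  have e3 : ∀ z, deriv φ z * (I * Φ z) = I * (deriv φ z * Φ z) := fun z => by ring
  simp only [e3, I_mul_re, I_mul_im, neg_sq, norm_mul, norm_I, one_mul] at h1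
  rw [e1, e2] at h1 h2
  simp only [integral_zero, add_zero, zero_add] at h1 h2
  have hn : ∀ z, 0 ≤ μ ^ 2 * rho φ z * a z ^ 2 := fun z => by
    have := rho_nonneg φ z
    positivity
  have hJ0 : 0 ≤ J := integral_nonneg hn
  have hJ1 : J = 0 := by nlinarith
  have h3 := (integral_eq_zero_iff_of_nonneg hn (i1.congr e0)).1 hJ1
  have h4 := Measure.eqOn_open_of_ae_eq h3 isOpen_ball
    ((ContinuousOn.const_mul (fun z hz => (S.continuousAt_rho hz).continuousWithinAt) _).mul
      (hm.smooth.continuousOn.pow 2)) continuousOn_const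
  obtain ⟨z, hz, hz0⟩ := hne
  have h5 := h4 hz
  have := S.rho_pos hz
  have := S.mu_pos
  have : 0 < μ ^ 2 * rho φ z * a z ^ 2 := by positivity
  simp only [Pi.zero_apply] at h5
  linarith

theorem LMode.ell_mul (S : LAn φ) {v Φ : ℂ → ℂ} {a : ℂ → ℝ} (hm : LMode φ μ v Φ a)
    {m K : ℂ → ℝ} (hm' : ContDiff ℝ ∞ m) (hK : ContDiff ℝ ∞ K) :
    ell φ K (fun z => m z * v z) (fun z => m z * Φ z + dB (fun w => (m w : ℂ)) z * v z / deriv φ z)
      = ∫ s, m (ec s) * K (ec s) * (ec s * VT φ μ a (ec s)).im ∂mc := by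
  have h1 : ContDiff ℝ 1 fun w => (m w : ℂ) :=
    contDiff_iff_contDiffAt.2 fun z => contDiffAt_ofReal' (hm'.of_le zm_one_le).contDiffAt
  have h2 : ContDiff ℝ 1 fun w => I * (K w : ℂ) := contDiff_const.mul
    (contDiff_iff_contDiffAt.2 fun z => contDiffAt_ofReal' (hK.of_le zm_one_le).contDiffAt)
  have h3 : ContDiff ℝ 1 fun w => conj (I * (K w : ℂ)) :=
    contDiff_iff_contDiffAt.2 fun z => contDiffAt_conj' h2.contDiffAt
  have e := (zl_trace S hm).2.2 _ (h1.mul h3)
  calc _ = _ := ?_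
    _ = _ := e
    _ = _ := ?_
  · refine setIntegral_congr_fun measurableSet_ball fun z hz => ?_
    have h0 := S.ne z hz
    beta_reduce
    rw [dB_mul (h1.differentiable (by norm_num) z) (h3.differentiable (by norm_num) z),
      dB_conj (h2.differentiable (by norm_num) z)]
    refine congrArg re ?_
    field_simp
    ring
  · refine integral_congr_ae (Eventually.of_forall fun s => ?_)
    beta_reduce
    generalize ec s * VT φ μ a (ec s) = w
    simp

theorem LMode.om_eq (S : LAn φ) {v Φ : ℂ → ℂ} {a : ℂ → ℝ} (hm : LMode φ μ v Φ a) {z : ℂ}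
    (hz : z ∈ D) : ContDiffAt ℝ ∞ (omL φ a) z ∧
      dB (omL φ a) z = -(μ * conj (deriv φ z) * a z) ∧
      lap (omL φ a) z = -((μ * rho φ z : ℝ) * omL φ a z) := by
  have hV : ∀ z ∈ D, ContDiffAt ℝ ∞ (dD fun w => (a w : ℂ)) z := fun z hz =>
    contDiffAt_dD (contDiffAt_ofReal' (sl_contDiffAt hm.smooth hz)) le_rfl
  have hB : ∀ z ∈ D, dB (dD fun w => (a w : ℂ)) z = -(μ * rho φ z * a z : ℝ) := fun z hz => by
    have h2 := (sl_contDiffAt hm.smooth hz).of_le zm_two_le
    rw [dB_dD (contDiffAt_ofReal' h2), lap_ofReal h2, hm.eq z hz, FR]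
    push_cast
    ring
  have e0 : omL φ a = fun w => dD (fun w => (a w : ℂ)) w * (deriv φ w)⁻¹ :=
    funext fun w => div_eq_mul_inv _ _
  have h1 : ∀ z ∈ D, ContDiffAt ℝ ∞ (omL φ a) z := fun z hz => by
    rw [e0]
    exact (hV z hz).mul ((S.contDiffAt_deriv hz).inv (S.ne z hz))
  have h2 : ∀ z ∈ D, dB (omL φ a) z = -(μ * conj (deriv φ z) * a z) := by
    intro z hz
    have h0 := S.ne z hz
    have d1 : DifferentiableAt ℂ (fun w => (deriv φ w)⁻¹) z :=
      (S.analyticAt_deriv hz).differentiableAt.inv h0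
    rw [e0, dB_mul ((hV z hz).differentiableAt (by simp)) (d1.restrictScalars ℝ), dB_holo d1,
      hB z hz]
    push_cast
    rw [rho_eq]
    field_simp
    ring
  refine ⟨h1 z hz, h2 z hz, ?_⟩
  have e : dB (omL φ a) =ᶠ[𝓝 z] fun w => -(μ * (conj (deriv φ w) * a w)) :=
    Filter.mem_of_superset (isOpen_ball.mem_nhds hz) fun w hw => by
      simp only [mem_ofPred_eq, h2 w hw, mul_assoc]
  have d1 := (S.analyticAt_deriv hz).differentiableAt
  have d2 := differentiableAt_conj' (d1.restrictScalars ℝ)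
  have d3 := differentiableAt_ofReal' ((sl_contDiffAt hm.smooth hz).differentiableAt (by simp))
  have h0 := S.ne z hz
  rw [← dD_dB ((h1 z hz).of_le zm_two_le), dD_congr e, dD_neg, dD_const_mul _ (d2.fun_mul d3),
    dD_mul d2 d3, dD_conj (d1.restrictScalars ℝ), dB_holo d1, omL]
  push_cast
  rw [rho_eq, map_zero]
  field_simp
  ring

end Vale.Agent.P071
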